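import Vale.Agent.P050.H223.Dbl4
import Vale.Agent.P050.H180.Graph2

set_option linter.all false

/-!
Moebius ladders with two doubled rungs: the inequality.
-/

namespace Vale.Agent.P050.H223.Dbl

open Finset Vale.Agent.P050 Vale.Agent.P050.H148 Vale.Agent.P050.H180

section index

/-- residues -/
noncomputable def res (n : ℕ) : Fin (n + 1) ≃ ZMod (n + 1) :=
  Equiv.ofBijective (fun i : Fin (n + 1) => ((i : ℕ) : ZMod (n + 1))) (by
    rw [Fintype.bijective_iff_injective_and_card]
    refine ⟨fun i j hij => ?_, by rw [Fintype.card_fin, ZMod.card]⟩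
    have h := (ZMod.natCast_eq_natCast_iff' _ _ _).mp hij
    rw [Nat.mod_eq_of_lt i.2, Nat.mod_eq_of_lt j.2] at h
    exact Fin.ext h)

theorem res_apply (n : ℕ) (i : Fin (n + 1)) : res n i = ((i : ℕ) : ZMod (n + 1)) := rfl

theorem res_zero (n : ℕ) : res n 0 = 0 := by rw [res_apply]; simp

theorem res_succ (n : ℕ) (i : Fin n) : res n i.castSucc + 1 = res n i.succ := by
  rw [res_apply, res_apply]
  simp

theorem res_last (n : ℕ) : res n (Fin.last n) + 1 = res n 0 := by
  rw [res_zero, res_apply]
  have := ZMod.natCast_self (n + 1)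
  push_cast at this
  simpa using this

variable {E : Type*} [Fintype E] {m : E → ℝ} {N : E → E → ℝ}

/-- sums over closed walks as sums over paths -/
theorem cyc_path (n : ℕ) (Φ : (ZMod (n + 1) → E) → ℝ) :
    ∑ z : ZMod (n + 1) → E, (∏ i, (m (z i) * N (z i) (z (i + 1)))) * Φ z =
      ∑ y : Fin (n + 1) → E, (∏ i, m (y i)) * (pth N n y * N (y (Fin.last n)) (y 0)) *
        Φ (fun i => y ((res n).symm i)) := by
  rw [← (Equiv.arrowCongr (res n) (Equiv.refl E)).sum_comp]
  refine sum_congr rfl fun y _ => ?_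
  have e0 : (Equiv.arrowCongr (res n) (Equiv.refl E)) y = fun i => y ((res n).symm i) := rfl
  rw [e0]
  congr 1
  rw [prod_mul_distrib]
  congr 1
  · rw [← Equiv.prod_comp (res n)]
    refine prod_congr rfl fun i _ => ?_
    simp only [Equiv.symm_apply_apply]
  · rw [← Equiv.prod_comp (res n), Fin.prod_univ_castSucc]
    unfold pth
    congr 1
    · refine prod_congr rfl fun i _ => ?_
      rw [res_succ]
      simp only [Equiv.symm_apply_apply]
    · rw [res_last]
      simp only [Equiv.symm_apply_apply]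

theorem res_symm (n j : ℕ) (hj : j < n + 1) : (res n).symm ((j : ℕ) : ZMod (n + 1)) = ⟨j, hj⟩ := by
  rw [Equiv.symm_apply_eq, res_apply]

theorem cast_ne (k j : ℕ) (h0 : 0 < j) (hj : j < k) : ((j : ℕ) : ZMod k) ≠ 0 := by
  intro h
  rw [ZMod.natCast_eq_zero_iff] at h
  exact absurd (Nat.le_of_dvd h0 h) (by omega)

end index

section

variable {X : Type*} [Fintype X]

theorem mu_nonneg (G : SimpleGraph X) (z : X × X) : 0 ≤ mu G z := by
  unfold mu adj; split_ifs <;> norm_num

theorem nn_nonneg (G : SimpleGraph X) (z w : X × X) : 0 ≤ nn G z w := by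
  unfold nn adj; split_ifs <;> norm_num

theorem card_doubled (G : SimpleGraph X) (r : ℕ) :
    (Nat.card (doubledLadder (2 * r + 4 + 1) →g G) : ℝ) = ∑ z, mu G z * ∑ a, mu G a *
      it (mu G) (nn G) r (fun a => bb (mu G) (nn G) z a ^ 2) a *
        op (mu G) (nn G) (it (mu G) (nn G) r (fun a => bb (mu G) (nn G) z a ^ 2)) a := by
  have h1 := cast_ne (2 * r + 4 + 1) 1 (by omega) (by omega)
  have h3 := cast_ne (2 * r + 4 + 1) 3 (by omega) (by omega)
  push_cast at h1 h3
  unfold doubledLadder
  rw [card_more G _ _ (by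
    intro c d
    cases c <;> cases d <;> simp only [Bool.false_eq_true, if_false, if_true]
    · intro h; apply h1; linear_combination -h
    · intro h; apply h1; linear_combination h
    · intro h; apply h3; linear_combination -h
    · intro h; apply h1; linear_combination -h)]
  rw [cyc_path (2 * r + 4)]
  simp only [Fintype.prod_bool, Bool.false_eq_true, if_false, if_true]
  have s1 : (-1 - 1 : ZMod (2 * r + 4 + 1)) = ((2 * r + 3 : ℕ) : ZMod (2 * r + 4 + 1)) := by
    have := ZMod.natCast_self (2 * r + 4 + 1)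
    push_cast at this ⊢
    linear_combination -this
  have s2 : (-1 + 1 : ZMod (2 * r + 4 + 1)) = ((0 : ℕ) : ZMod (2 * r + 4 + 1)) := by simp
  have s3 : (1 - 1 : ZMod (2 * r + 4 + 1)) = ((0 : ℕ) : ZMod (2 * r + 4 + 1)) := by simp
  have s4 : (1 + 1 : ZMod (2 * r + 4 + 1)) = ((2 : ℕ) : ZMod (2 * r + 4 + 1)) := by
    push_cast; ring
  rw [s1, s2, s3, s4]
  rw [res_symm _ (2 * r + 3) (by omega), res_symm _ 0 (by omega), res_symm _ 2 (by omega)]
  have key := closed_sum (m := mu G) (nn_symm G) r (bb (mu G) (nn G)) (bb (mu G) (nn G))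
  refine Eq.trans (sum_congr rfl fun y _ => ?_) (key.trans (sum_congr rfl fun z _ => ?_))
  · have e0 : (⟨0, by omega⟩ : Fin (2 * r + 4 + 1)) = 0 := rfl
    rw [e0, bb_comm (nn_symm G) (y ⟨2 * r + 3, by omega⟩) (y 0)]
    ring
  · congr 1
    rw [closed_double (nn_symm G) r z]
    simp only [← sq]

theorem card_tripled (G : SimpleGraph X) (r : ℕ) :
    (Nat.card (tripledLadder (2 * r + 4 + 1) →g G) : ℝ) = ∑ z, mu G z * ∑ a, mu G a *
      it (mu G) (nn G) r (fun a => bb (mu G) (nn G) z a ^ 3) a *
        op (mu G) (nn G) (it (mu G) (nn G) r (fun a => bb (mu G) (nn G) z a)) a := by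
  have h1 := cast_ne (2 * r + 4 + 1) 1 (by omega) (by omega)
  push_cast at h1
  unfold tripledLadder
  rw [card_more G _ _ (by
    intro c d h; apply h1; linear_combination -h)]
  rw [cyc_path (2 * r + 4)]
  simp only [Fintype.prod_bool]
  have s3 : (1 - 1 : ZMod (2 * r + 4 + 1)) = ((0 : ℕ) : ZMod (2 * r + 4 + 1)) := by simp
  have s4 : (1 + 1 : ZMod (2 * r + 4 + 1)) = ((2 : ℕ) : ZMod (2 * r + 4 + 1)) := by
    push_cast; ring
  rw [s3, s4]
  rw [res_symm _ 0 (by omega), res_symm _ 2 (by omega)]
  have key := closed_sum (m := mu G) (nn_symm G) r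
    (fun z a => bb (mu G) (nn G) z a * bb (mu G) (nn G) z a) (fun _ _ => 1)
  refine Eq.trans (sum_congr rfl fun y _ => ?_) (key.trans (sum_congr rfl fun z _ => ?_))
  · have e0 : (⟨0, by omega⟩ : Fin (2 * r + 4 + 1)) = 0 := rfl
    rw [e0]
    ring
  · congr 1
    rw [closed_double (nn_symm G) r z]
    refine sum_congr rfl fun a _ => ?_
    have e1 : (fun a => bb (mu G) (nn G) z a * (bb (mu G) (nn G) z a * bb (mu G) (nn G) z a)) =
        fun a => bb (mu G) (nn G) z a ^ 3 := funext fun a => by ring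
    have e2 : (fun a => bb (mu G) (nn G) z a * 1) = fun a => bb (mu G) (nn G) z a :=
      funext fun a => by ring
    rw [e1, e2]

theorem hQ (G : SimpleGraph X) (F : X × X → ℝ) (hF : ∀ a, 0 ≤ F a) :
    (∑ a, mu G a * Real.sqrt (F a)) ^ 4 ≤ (Fintype.card X : ℝ) ^ 4 *
      ∑ a, mu G a * F a * op (mu G) (nn G) F a := by
  classical
  have h0 : ∀ x y, 0 ≤ adj G x y := fun x y => by simp only [adj]; split_ifs <;> norm_num
  have h := q_ineq h0 (fun x y => F (x, y)) (fun x y => hF _)
  rw [Fintype.sum_prod_type]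
  refine h.trans (le_of_eq ?_)
  congr 1
  unfold op
  simp only [mul_sum]
  rw [prod4]
  refine sum_congr rfl fun x _ => sum_congr rfl fun x' _ => sum_congr rfl fun y _ =>
    sum_congr rfl fun y' _ => ?_
  unfold om mu nn
  ring

theorem four (G : SimpleGraph X) [Nonempty X] :
    ∑ a, mu G a * it (mu G) (nn G) 1 1 a =
      homDensity (SimpleGraph.cycleGraph 4) G * (Fintype.card X : ℝ) ^ 4 := by
  classical
  rw [four_density]
  refine sum_congr rfl fun a _ => ?_
  congr 1
  simp only [it, op, Pi.one_apply, mul_one]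
  rw [Fintype.sum_prod_type]
  unfold rr
  refine sum_congr rfl fun x _ => sum_congr rfl fun y _ => ?_
  unfold mu nn
  ring

theorem double_graph (G : SimpleGraph X) [Nonempty X] (k : ℕ) (hk : Odd k) (hk5 : 5 ≤ k) :
    homDensity (SimpleGraph.cycleGraph 4) G ^ (k + 3) ≤
        edgeDensity G ^ (k + 2) * homDensity (doubledLadder k) G ∧
      homDensity (doubledLadder k) G ≤ homDensity (tripledLadder k) G := by
  classical
  obtain ⟨r, rfl⟩ : ∃ r, k = 2 * r + 4 + 1 := by
    obtain ⟨j, hj⟩ := hk
    exact ⟨j - 2, by omega⟩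
  have hn : 0 < Fintype.card X := Fintype.card_pos
  have hn0 : (0 : ℝ) < Fintype.card X := by exact_mod_cast hn
  have hd : ∀ β : Bool → ZMod (2 * r + 4 + 1), homDensity (moreRungs (2 * r + 4 + 1) β) G =
      (Nat.card (moreRungs (2 * r + 4 + 1) β →g G) : ℝ) /
        (Fintype.card X : ℝ) ^ (4 * r + 14) := by
    intro β
    unfold homDensity
    rw [Nat.card_eq_fintype_card (α := X)]
    congr 2
    rw [Nat.card_prod, Nat.card_sum, Nat.card_zmod]
    simp only [Nat.card_eq_fintype_card, Fintype.card_bool]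
    ring
  have hd2 : homDensity (doubledLadder (2 * r + 4 + 1)) G =
      (Nat.card (doubledLadder (2 * r + 4 + 1) →g G) : ℝ) /
        (Fintype.card X : ℝ) ^ (4 * r + 14) := hd _
  have hd3 : homDensity (tripledLadder (2 * r + 4 + 1)) G =
      (Nat.card (tripledLadder (2 * r + 4 + 1) →g G) : ℝ) /
        (Fintype.card X : ℝ) ^ (4 * r + 14) := hd _
  refine ⟨?_, ?_⟩
  · have key := main (m := mu G) (N := nn G) (mu_nonneg G) (nn_nonneg G) (nn_symm G)
      (c := (Fintype.card X : ℝ) ^ 4) (hQ G) r
    have hp := adj_sum G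
    have hp' : ∑ a, mu G a = edgeDensity G * (Fintype.card X : ℝ) ^ 2 := by
      rw [← hp, Fintype.sum_prod_type]
      unfold mu
      field_simp
    rw [four, hp', ← card_doubled] at key
    rw [hd2]
    set n : ℝ := (Fintype.card X : ℝ) with hndef
    set T : ℝ := homDensity (SimpleGraph.cycleGraph 4) G with hT
    set p : ℝ := edgeDensity G with hpd
    set D : ℝ := (Nat.card (doubledLadder (2 * r + 4 + 1) →g G) : ℝ) with hD
    have e1 : (T * n ^ 4) ^ (2 * r + 8) = T ^ (2 * r + 4 + 1 + 3) * n ^ (8 * r + 32) := by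
      rw [mul_pow, ← pow_mul]; congr 2; ring
    have e2 : (p * n ^ 2) ^ (2 * r + 7) * (n ^ 4 * D) =
        p ^ (2 * r + 4 + 1 + 2) * (D / n ^ (4 * r + 14)) * n ^ (8 * r + 32) := by
      have e3 : n ^ (8 * r + 32) = n ^ (4 * r + 14) * (n ^ (4 * r + 14) * n ^ 4) := by
        rw [← pow_add, ← pow_add]; congr 1; ring
      have e4 : (p * n ^ 2) ^ (2 * r + 7) = p ^ (2 * r + 7) * n ^ (4 * r + 14) := by
        rw [mul_pow, ← pow_mul]; congr 2; ring
      rw [e3, e4]
      field_simp
    rw [e1, e2] at key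
    exact le_of_mul_le_mul_right key (by positivity)
  · rw [hd2, hd3]
    refine div_le_div_of_nonneg_right ?_ (by positivity)
    rw [card_doubled, card_tripled]
    refine sum_le_sum fun z _ => mul_le_mul_of_nonneg_left ?_ (mu_nonneg G z)
    exact trip (mu_nonneg G) (nn_nonneg G) (nn_symm G) r z

/-- Sidorenko's inequality for Moebius ladders with two doubled rungs or one tripled rung -/
theorem double_sidorenko (G : SimpleGraph X) [Nonempty X] (k : ℕ) (hk : Odd k) (hk5 : 5 ≤ k) :
    edgeDensity G ^ (3 * k + 10) ≤ homDensity (doubledLadder k) G ∧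
      edgeDensity G ^ (3 * k + 10) ≤ homDensity (tripledLadder k) G := by
  classical
  obtain ⟨h1, h2⟩ := double_graph G k hk hk5
  have hnn : 0 ≤ edgeDensity G := by unfold edgeDensity; positivity
  have hn : 0 < Fintype.card X := Fintype.card_pos
  have hn0 : (0 : ℝ) < Fintype.card X := by exact_mod_cast hn
  have h3 : edgeDensity G ^ (3 * k + 10) ≤ homDensity (doubledLadder k) G := by
    rcases hnn.lt_or_eq with hpos | hz
    · have h4 : edgeDensity G ^ 4 ≤ homDensity (SimpleGraph.cycleGraph 4) G := by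
        have e1 := hQ G (fun _ => 1) (fun _ => zero_le_one)
        have e2 := four G
        have e3 : ∑ a, mu G a * (1 : ℝ) * op (mu G) (nn G) (fun _ => 1) a =
            ∑ a, mu G a * it (mu G) (nn G) 1 1 a := by
          refine sum_congr rfl fun a _ => ?_
          rw [mul_one]; rfl
        have hp := adj_sum G
        have hp' : ∑ a, mu G a = edgeDensity G * (Fintype.card X : ℝ) ^ 2 := by
          rw [← hp, Fintype.sum_prod_type]
          unfold mu
          field_simp
        rw [e3, e2] at e1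
        simp only [Real.sqrt_one, mul_one] at e1
        rw [hp'] at e1
        have e4 : edgeDensity G ^ 4 * (Fintype.card X : ℝ) ^ 8 ≤
            homDensity (SimpleGraph.cycleGraph 4) G * (Fintype.card X : ℝ) ^ 8 := by
          refine le_trans (le_of_eq ?_) (e1.trans (le_of_eq ?_)) <;> ring
        exact le_of_mul_le_mul_right e4 (by positivity)
      have h5 : edgeDensity G ^ (k + 2) * edgeDensity G ^ (3 * k + 10) ≤
          edgeDensity G ^ (k + 2) * homDensity (doubledLadder k) G := by
        refine le_trans (le_of_eq ?_) ((pow_le_pow_left₀ (pow_nonneg hnn 4) h4 (k + 3)).trans h1)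
        rw [← pow_add, ← pow_mul]; congr 1; ring
      exact le_of_mul_le_mul_left h5 (by positivity)
    · rw [← hz, zero_pow (by omega)]
      unfold homDensity; positivity
  exact ⟨h3, h3.trans h2⟩

end

end Vale.Agent.P050.H223.Dbl
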