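import Vale.Agent.P050.H223.CapIso

/-!
Layered graphs with capped ends.
-/

namespace Vale.Agent.P050.H223.Cap

open Finset Vale.Agent.P050.Tmpl Vale.Agent.P050.Lev Vale.Agent.P050.H177

/-- the layer `i` is the last one (`e = true`), the first one (`e = false`) -/
def AtEnd (n : ℕ) (e : Bool) (i : Fin n) : Prop :=
  if e = true then (i : ℕ) + 1 = n else (i : ℕ) = 0

/-- The layered graph `layered G w n`, capped at the ends `e` with `F e = true` (`true` is the top,
`false` the bottom): a cap consists of two adjacent vertices, one for each colour `c`, which is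
adjacent to the vertices `(p, i)` of the last (first) layer with `t p = c`. -/
def capped {VG : Type} (G : SimpleGraph VG) (t : VG → Bool) (w : ℕ → Bool) (n : ℕ)
    (F : Bool → Bool) : SimpleGraph ((VG × Fin n) ⊕ {x : Bool × Bool // F x.1 = true}) where
  Adj
    | Sum.inl x, Sum.inl y => (layered G w n).Adj x y
    | Sum.inl x, Sum.inr y => t x.1 = y.1.2 ∧ AtEnd n y.1.1 x.2
    | Sum.inr x, Sum.inl y => t y.1 = x.1.2 ∧ AtEnd n x.1.1 y.2
    | Sum.inr x, Sum.inr y => x.1.1 = y.1.1 ∧ x.1.2 ≠ y.1.2
  symm := ⟨by
    rintro (x | x) (y | y) h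
    · exact (layered G w n).symm.symm _ _ h
    · exact h
    · exact h
    · exact ⟨h.1.symm, h.2.symm⟩⟩
  loopless := ⟨by
    rintro (x | x) h
    · exact (layered G w n).loopless.irrefl _ h
    · exact h.2 rfl⟩

/-- the number of rungs below the layers -/
def off (F : Bool → Bool) : ℕ := (F false).toNat

/-- the number of rungs -/
def rungs (F : Bool → Bool) (n : ℕ) : ℕ := off F + n + (F true).toNat

/-- the rungs of the caps -/
def cK (F : Bool → Bool) (n : ℕ) : Finset (Bool × Fin (rungs F n)) :=
  univ.filter fun v => (v.2 : ℕ) < off F ∨ off F + n ≤ v.2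

/-- the division of the ladder -/
def ctau (F : Bool → Bool) (w : ℕ → Bool) (n : ℕ) (v : Bool × Fin (rungs F n)) : Bool :=
  xor v.1 (wpar w (v.2 - off F))

theorem mem_cK {F : Bool → Bool} {n : ℕ} {v : Bool × Fin (rungs F n)} :
    v ∈ cK F n ↔ (v.2 : ℕ) < off F ∨ off F + n ≤ v.2 := by
  simp [cK]

theorem off_true {F : Bool → Bool} (h : F false = true) : off F = 1 := by
  unfold off
  rw [h]
  rfl

theorem mid_lt (F : Bool → Bool) {n : ℕ} (i : Fin n) : off F + i < rungs F n := by
  have := i.2
  unfold rungs
  omega

theorem top_lt {F : Bool → Bool} (n : ℕ) (h : F true = true) : off F + n < rungs F n := by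
  unfold rungs
  rw [h]
  simp

theorem bot_lt {F : Bool → Bool} (n : ℕ) (h : F false = true) : 0 < rungs F n := by
  have := off_true h
  unfold rungs
  omega

/-- the capped graph as a substitution -/
def cg {VG : Type} (t : VG → Bool) (w : ℕ → Bool) (n : ℕ) (F : Bool → Bool) :
    (VG × Fin n) ⊕ {x : Bool × Bool // F x.1 = true} → RV t (ctau F w n) (cK F n)
  | Sum.inl (p, i) => Sum.inr ⟨(p, (xor (t p) (wpar w i), ⟨off F + i, mid_lt F i⟩)), by
      have := i.2
      rw [mem_cK]
      simp only
      omega, by
      simp only [ctau, Nat.add_sub_cancel_left]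
      cases t p <;> cases wpar w i <;> rfl⟩
  | Sum.inr ⟨(true, c), h⟩ => Sum.inl ⟨(xor c (wpar w (n - 1)), ⟨off F + n, top_lt n h⟩), by
      rw [mem_cK]
      simp⟩
  | Sum.inr ⟨(false, c), h⟩ => Sum.inl ⟨(c, ⟨0, bot_lt n h⟩), by
      have := off_true h
      rw [mem_cK]
      simp only
      omega⟩

variable {VG : Type} {G : SimpleGraph VG} {t : VG → Bool} {w : ℕ → Bool} {n : ℕ}
  {F : Bool → Bool}

theorem cg_injective (hn : 0 < n) : Function.Injective (cg t w n F) := by
  rintro (⟨p, i⟩ | ⟨⟨e, c⟩, h⟩) (⟨q, j⟩ | ⟨⟨e', c'⟩, h'⟩) hh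
  · simp only [cg, Sum.inr.injEq, Subtype.mk.injEq, Prod.mk.injEq, Fin.mk.injEq] at hh
    obtain ⟨rfl, _, h2⟩ := hh
    have : i = j := Fin.ext (by omega)
    rw [this]
  · cases e' <;> exact absurd hh (by simp [cg])
  · cases e <;> exact absurd hh (by simp [cg])
  · cases e <;> cases e' <;> simp only [cg, Sum.inl.injEq, Subtype.mk.injEq, Prod.mk.injEq,
      Fin.mk.injEq] at hh
    · obtain ⟨rfl, _⟩ := hh
      rfl
    · omega
    · omega
    · have : c = c' := by
        have h3 := hh.1
        revert h3
        cases c <;> cases c' <;> cases wpar w (n - 1) <;> simp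
      rw [this]

theorem cg_surjective : Function.Surjective (cg t w n F) := by
  rintro (⟨⟨c, j, hj⟩, hK⟩ | ⟨⟨p, c, j, hj⟩, hK, hτ⟩)
  · have hK' := mem_cK.1 hK
    simp only at hK'
    rcases hK' with h | h
    · have hF : F false = true := by
        cases hF : F false with
        | true => rfl
        | false =>
          unfold off at h
          rw [hF] at h
          exact absurd h (by simp)
      have h0 : j = 0 := by
        rw [off_true hF] at h
        omega
      subst h0
      exact ⟨Sum.inr ⟨(false, c), hF⟩, rfl⟩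
    · have hF : F true = true := by
        cases hF : F true with
        | true => rfl
        | false =>
          unfold rungs at hj
          rw [hF] at hj
          simp at hj
          omega
      have h0 : j = off F + n := by
        unfold rungs at hj
        rw [hF] at hj
        simp at hj
        omega
      subst h0
      refine ⟨Sum.inr ⟨(true, xor c (wpar w (n - 1))), hF⟩, ?_⟩
      simp only [cg]
      congr 3
      cases c <;> cases wpar w (n - 1) <;> rfl
  · have hK' : ¬ (j < off F ∨ off F + n ≤ j) := fun h => hK (mem_cK.2 h)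
    have hi : j - off F < n := by omega
    refine ⟨Sum.inl (p, ⟨j - off F, hi⟩), ?_⟩
    simp only [cg]
    congr 3
    simp only [ctau] at hτ
    refine Prod.ext ?_ (Fin.ext ?_)
    · simp only
      rw [hτ]
      cases c <;> cases wpar w (j - off F) <;> rfl
    · simp only
      omega

end Vale.Agent.P050.H223.Cap
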