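import Vale.Agent.P050.H223.Cap

/-!
Layered graphs with capped ends: the adjacency.
-/

namespace Vale.Agent.P050.H223.Cap

open Finset Vale.Agent.P050.Tmpl Vale.Agent.P050.Lev Vale.Agent.P050.H177

variable {VG : Type} {G : SimpleGraph VG} {t : VG → Bool} {w : ℕ → Bool} {n : ℕ}
  {F : Bool → Bool}

theorem wpar_step {w : ℕ → Bool} {x y : ℕ} (h : x + 1 = y) : wpar w y = xor (wpar w x) (w x) := by
  subst h
  rfl

theorem cg_adj_ll (hG : ∀ u v, G.Adj u v → t u ≠ t v) (p q : VG) (i j : Fin n) :
    (layered G w n).Adj (p, i) (q, j) ↔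
      (relSub G t (ladderGraph (rungs F n)) (ctau F w n) (cK F n)).Adj
        (cg t w n F (Sum.inl (p, i))) (cg t w n F (Sum.inl (q, j))) := by
  have hpq : G.Adj p q → t p ≠ t q := hG p q
  have hpq' : p = q → t p = t q := fun h => by rw [h]
  have key : ∀ (c d : Bool), c = xor (t p) (wpar w i) → d = xor (t q) (wpar w j) →
    (((i = j ∧ G.Adj p q) ∨
    ((i : ℕ) + 1 = j ∧ ((w i = false ∧ p = q) ∨ (w i = true ∧ G.Adj p q))) ∨
    ((j : ℕ) + 1 = i ∧ ((w j = false ∧ p = q) ∨ (w j = true ∧ G.Adj p q)))) ↔
    ((p = q ∨ G.Adj p q) ∧ ((off F + (i : ℕ) = off F + j ∧ c ≠ d) ∨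
      (c = d ∧ (off F + (i : ℕ) + 1 = off F + j ∨ off F + (j : ℕ) + 1 = off F + i))))) := by
    intro c d hc hd
    rcases Nat.lt_trichotomy i j with hij | hij | hij
    · rcases Nat.lt_or_ge (i + 1) j with h1 | h1
      · constructor
        · rintro (⟨h, _⟩ | ⟨h, _⟩ | ⟨h, _⟩)
          · rw [h] at hij; omega
          · omega
          · omega
        · rintro ⟨_, ⟨h, _⟩ | ⟨_, h | h⟩⟩ <;> omega
      · have e : (i : ℕ) + 1 = j := by omega
        have hs := wpar_step (w := w) e
        have e1 : (i = j) ↔ False := ⟨fun h => by rw [h] at hij; omega, False.elim⟩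
        have e2 : ((j : ℕ) + 1 = i) ↔ False := ⟨fun h => by omega, False.elim⟩
        have e3 : (off F + (i : ℕ) = off F + j) ↔ False := ⟨fun h => by omega, False.elim⟩
        have e4 : (off F + (j : ℕ) + 1 = off F + i) ↔ False := ⟨fun h => by omega, False.elim⟩
        have e5 : (off F + (i : ℕ) + 1 = off F + j) ↔ True := ⟨fun _ => trivial, fun _ => by omega⟩
        rw [hc, hd, hs, e1, e2, e3, e4, e5]
        simp only [e, true_and, false_and, or_false, false_or, and_true]
        constructor
        · rintro (⟨h2, h3⟩ | ⟨h2, h3⟩)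
          · refine ⟨Or.inl h3, ?_⟩
            rw [hpq' h3, h2]
            cases t q <;> cases wpar w i <;> rfl
          · refine ⟨Or.inr h3, ?_⟩
            have h4 := hpq h3
            rw [h2]
            revert h4
            cases t p <;> cases t q <;> cases wpar w i <;> simp
        · rintro ⟨h2 | h2, h3⟩
          · left
            refine ⟨?_, h2⟩
            rw [hpq' h2] at h3
            revert h3
            cases t q <;> cases wpar w i <;> cases w i <;> simp
          · right
            refine ⟨?_, h2⟩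
            have h4 := hpq h2
            revert h3 h4
            cases t p <;> cases t q <;> cases wpar w i <;> cases w i <;> simp
    · have e : i = j := Fin.ext hij
      subst e
      have e2 : ((i : ℕ) + 1 = i) ↔ False := ⟨fun h => by omega, False.elim⟩
      have e3 : (off F + (i : ℕ) + 1 = off F + i) ↔ False := ⟨fun h => by omega, False.elim⟩
      rw [hc, hd, e2, e3]
      simp only [true_and, false_and, or_false, and_false]
      constructor
      · intro h
        refine ⟨Or.inr h, ?_⟩
        have h4 := hpq h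
        revert h4
        cases t p <;> cases t q <;> cases wpar w i <;> simp
      · rintro ⟨h2 | h2, h3⟩
        · exfalso
          rw [hpq' h2] at h3
          exact h3 rfl
        · exact h2
    · rcases Nat.lt_or_ge (j + 1) i with h1 | h1
      · constructor
        · rintro (⟨h, _⟩ | ⟨h, _⟩ | ⟨h, _⟩)
          · rw [h] at hij; omega
          · omega
          · omega
        · rintro ⟨_, ⟨h, _⟩ | ⟨_, h | h⟩⟩ <;> omega
      · have e : (j : ℕ) + 1 = i := by omega
        have hs := wpar_step (w := w) e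
        have e1 : (i = j) ↔ False := ⟨fun h => by rw [h] at hij; omega, False.elim⟩
        have e2 : ((i : ℕ) + 1 = j) ↔ False := ⟨fun h => by omega, False.elim⟩
        have e3 : (off F + (i : ℕ) = off F + j) ↔ False := ⟨fun h => by omega, False.elim⟩
        have e4 : (off F + (i : ℕ) + 1 = off F + j) ↔ False := ⟨fun h => by omega, False.elim⟩
        have e5 : (off F + (j : ℕ) + 1 = off F + i) ↔ True := ⟨fun _ => trivial, fun _ => by omega⟩
        rw [hc, hd, hs, e1, e2, e3, e4, e5]
        simp only [e, true_and, false_and, or_true, false_or, and_true]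
        constructor
        · rintro (⟨h2, h3⟩ | ⟨h2, h3⟩)
          · refine ⟨Or.inl h3, ?_⟩
            rw [hpq' h3, h2]
            cases t q <;> cases wpar w j <;> rfl
          · refine ⟨Or.inr h3, ?_⟩
            have h4 := hpq h3
            rw [h2]
            revert h4
            cases t p <;> cases t q <;> cases wpar w j <;> simp
        · rintro ⟨h2 | h2, h3⟩
          · left
            refine ⟨?_, h2⟩
            rw [hpq' h2] at h3
            revert h3
            cases t q <;> cases wpar w j <;> cases w j <;> simp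
          · right
            refine ⟨?_, h2⟩
            have h4 := hpq h2
            revert h3 h4
            cases t p <;> cases t q <;> cases wpar w j <;> cases w j <;> simp
  have h1 := key _ _ rfl rfl
  rw [show (layered G w n).Adj (p, i) (q, j) ↔ ((i = j ∧ G.Adj p q) ∨
    ((i : ℕ) + 1 = j ∧ ((w i = false ∧ p = q) ∨ (w i = true ∧ G.Adj p q))) ∨
    ((j : ℕ) + 1 = i ∧ ((w j = false ∧ p = q) ∨ (w j = true ∧ G.Adj p q)))) from Iff.rfl, h1]
  refine and_congr Iff.rfl (or_congr (and_congr ?_ Iff.rfl) Iff.rfl)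
  exact ⟨fun h => Fin.ext h, fun h => congrArg Fin.val h⟩

/-- a layer and the top cap -/
theorem cg_adj_lt (p : VG) (i : Fin n) (c : Bool) (h : F (true, c).1 = true) :
    (t p = c ∧ AtEnd n true i) ↔
      (ladderGraph (rungs F n)).Adj (xor (t p) (wpar w i), ⟨off F + i, mid_lt F i⟩)
        (xor c (wpar w (n - 1)), ⟨off F + n, top_lt n h⟩) := by
  have hi := i.2
  simp only [AtEnd, ladderGraph, if_true, Fin.mk.injEq]
  constructor
  · rintro ⟨h1, h2⟩
    refine Or.inr ⟨?_, Or.inl (by omega)⟩
    rw [h1, show n - 1 = (i : ℕ) by omega]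
  · rintro (⟨h1, _⟩ | ⟨h1, h2 | h2⟩)
    · omega
    · have h3 : (i : ℕ) + 1 = n := by omega
      refine ⟨?_, h3⟩
      rw [show n - 1 = (i : ℕ) by omega] at h1
      revert h1
      cases t p <;> cases c <;> cases wpar w i <;> simp
    · omega

/-- a layer and the bottom cap -/
theorem cg_adj_lb (p : VG) (i : Fin n) (c : Bool) (h : F (false, c).1 = true) :
    (t p = c ∧ AtEnd n false i) ↔
      (ladderGraph (rungs F n)).Adj (xor (t p) (wpar w i), ⟨off F + i, mid_lt F i⟩)
        (c, ⟨0, bot_lt n h⟩) := by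
  have hi := i.2
  have ho := off_true h
  simp only [AtEnd, ladderGraph, Fin.mk.injEq, Bool.false_eq_true, if_false]
  constructor
  · rintro ⟨h1, h2⟩
    refine Or.inr ⟨?_, Or.inr (by omega)⟩
    rw [h1, h2]
    cases c <;> rfl
  · rintro (⟨h1, _⟩ | ⟨h1, h2 | h2⟩)
    · omega
    · omega
    · have h3 : (i : ℕ) = 0 := by omega
      refine ⟨?_, h3⟩
      rw [h3] at h1
      rw [← h1]
      cases t p <;> rfl

theorem cg_adj (hn : 0 < n) (hG : ∀ u v, G.Adj u v → t u ≠ t v)
    (x y : (VG × Fin n) ⊕ {x : Bool × Bool // F x.1 = true}) :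
    (capped G t w n F).Adj x y ↔
      (relSub G t (ladderGraph (rungs F n)) (ctau F w n) (cK F n)).Adj
        (cg t w n F x) (cg t w n F y) := by
  rcases x with ⟨p, i⟩ | ⟨⟨e, c⟩, h⟩
  · rcases y with ⟨q, j⟩ | ⟨⟨e', c'⟩, h'⟩
    · exact cg_adj_ll hG p q i j
    · cases e'
      · exact (cg_adj_lb p i c' h')
      · exact (cg_adj_lt p i c' h')
  · rcases y with ⟨q, j⟩ | ⟨⟨e', c'⟩, h'⟩
    · cases e
      · exact (cg_adj_lb q j c h).trans (SimpleGraph.adj_comm _ _ _)
      · exact (cg_adj_lt q j c h).trans (SimpleGraph.adj_comm _ _ _)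
    · cases e <;> cases e'
      · change (false = false ∧ c ≠ c') ↔ (((⟨0, _⟩ : Fin (rungs F n)) = ⟨0, _⟩ ∧ c ≠ c') ∨
          (c = c' ∧ (0 + 1 = 0 ∨ 0 + 1 = 0)))
        simp
      · change (false = true ∧ c ≠ c') ↔ (((⟨0, _⟩ : Fin (rungs F n)) = ⟨off F + n, _⟩ ∧ _) ∨
          (_ ∧ (0 + 1 = off F + n ∨ off F + n + 1 = 0)))
        have ho := off_true h
        simp only [Fin.mk.injEq]
        constructor
        · rintro ⟨h1, _⟩
          exact absurd h1 (by simp)
        · rintro (⟨h1, _⟩ | ⟨_, h1 | h1⟩) <;> omega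
      · change (true = false ∧ c ≠ c') ↔ (((⟨off F + n, _⟩ : Fin (rungs F n)) = ⟨0, _⟩ ∧ _) ∨
          (_ ∧ (off F + n + 1 = 0 ∨ 0 + 1 = off F + n)))
        have ho := off_true h'
        simp only [Fin.mk.injEq]
        constructor
        · rintro ⟨h1, _⟩
          exact absurd h1 (by simp)
        · rintro (⟨h1, _⟩ | ⟨_, h1 | h1⟩) <;> omega
      · change (true = true ∧ c ≠ c') ↔ (((⟨off F + n, _⟩ : Fin (rungs F n)) = ⟨off F + n, _⟩ ∧
          xor c (wpar w (n - 1)) ≠ xor c' (wpar w (n - 1))) ∨
          (_ ∧ (off F + n + 1 = off F + n ∨ off F + n + 1 = off F + n)))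
        constructor
        · rintro ⟨_, h1⟩
          refine Or.inl ⟨rfl, ?_⟩
          revert h1
          cases c <;> cases c' <;> cases wpar w (n - 1) <;> simp
        · rintro (⟨_, h1⟩ | ⟨_, h1 | h1⟩)
          · refine ⟨rfl, ?_⟩
            rintro rfl
            exact h1 rfl
          · omega
          · omega

end Vale.Agent.P050.H223.Cap
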