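import Vale.Agent.P050.H223.Cap2

/-!
Layered graphs with capped ends: the two-sided Sidorenko inequality.
-/

namespace Vale.Agent.P050.H223.Cap

open Finset Vale.Agent.P050.Tmpl Vale.Agent.P050.Lev Vale.Agent.P050.H177

variable {VG : Type} {G : SimpleGraph VG} {t : VG → Bool} {w : ℕ → Bool} {n : ℕ}
  {F : Bool → Bool}

/-- the vertices of part `true` on the first `a` layers and on the layers from `b` on -/
def cS (F : Bool → Bool) (w : ℕ → Bool) (n a b : ℕ) : Finset (Bool × Fin (rungs F n)) :=
  univ.filter fun v => ctau F w n v = true ∧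
    ((off F ≤ v.2 ∧ (v.2 : ℕ) < off F + a) ∨ (off F + b ≤ v.2 ∧ (v.2 : ℕ) < off F + n))

theorem mem_cS {a b : ℕ} {v : Bool × Fin (rungs F n)} : v ∈ cS F w n a b ↔
    ctau F w n v = true ∧
      ((off F ≤ v.2 ∧ (v.2 : ℕ) < off F + a) ∨ (off F + b ≤ v.2 ∧ (v.2 : ℕ) < off F + n)) := by
  simp [cS]

theorem rungs_eq (h : F true = false) : rungs F n = off F + n := by
  unfold rungs
  rw [h]
  rfl

/-- the vertex of part `true` on the layer `a` -/
def cv (F : Bool → Bool) (w : ℕ → Bool) {n : ℕ} (a : Fin n) : Bool × Fin (rungs F n) :=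
  (xor true (wpar w a), ⟨off F + a, mid_lt F a⟩)

theorem cv_fst {a : Fin n} {c : Bool} : xor c (wpar w a) = true ↔ c = xor true (wpar w a) := by
  cases c <;> cases wpar w a <;> simp

theorem step_up {m : ℕ} (a : Fin n) (ham : (a : ℕ) < m) (hmn : m ≤ n)
    (hm : m = n → F true = false)
    (h : Thin (ladderGraph (rungs F n)) (cK F n) (cS F w n a n)) :
    Thin (ladderGraph (rungs F n)) (cK F n) (cS F w n (a + 1) n) := by
  have ha := a.2
  have e : cS F w n (a + 1) n = insert (cv F w a) (cS F w n a n) := by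
    ext ⟨c, j, hj⟩
    rw [Finset.mem_insert, mem_cS, mem_cS]
    simp only [cv, ctau, Prod.mk.injEq, Fin.mk.injEq]
    constructor
    · rintro ⟨h1, h2⟩
      rcases Nat.lt_or_ge j (off F + a) with h3 | h3
      · exact Or.inr ⟨h1, Or.inl ⟨by omega, h3⟩⟩
      · have h4 : j = off F + a := by omega
        subst h4
        rw [Nat.add_sub_cancel_left] at h1
        exact Or.inl ⟨cv_fst.1 h1, rfl⟩
    · rintro (⟨h1, h2⟩ | ⟨h1, h2⟩)
      · subst h2
        rw [Nat.add_sub_cancel_left]
        exact ⟨cv_fst.2 h1, by omega⟩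
      · exact ⟨h1, by omega⟩
  rw [e]
  have key : ∀ x ∈ cK F n ∪ cS F w n a n, (ladderGraph (rungs F n)).Adj (cv F w a) x →
      (cv F w a).1 = x.1 ∧ (x.2 : ℕ) + 1 = off F + a := by
    rintro ⟨c, j, hj⟩ hx hadj
    rw [Finset.mem_union, mem_cK, mem_cS] at hx
    simp only [cv, ladderGraph, Fin.mk.injEq] at hadj hx ⊢
    rcases hadj with ⟨h1, _⟩ | ⟨h1, h2 | h2⟩
    · omega
    · rcases hx with (h3 | h3) | ⟨_, h3 | h3⟩
      · omega
      · have h4 : m = n := by omega
        have h5 := rungs_eq (n := n) (hm h4)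
        omega
      · omega
      · omega
    · exact ⟨h1, h2⟩
  refine Thin.insert _ h ?_ ?_ ?_
  · rw [mem_cK]
    simp only [cv]
    omega
  · rw [mem_cS]
    simp only [cv]
    omega
  · intro x hx y hy h1 h2
    obtain ⟨h3, h4⟩ := key x hx h1
    obtain ⟨h5, h6⟩ := key y hy h2
    exact Prod.ext (h3.symm.trans h5) (Fin.ext (by omega))

theorem step_down {m : ℕ} (b : Fin n) (hbm : m ≤ b) (hm0 : m = 0 → F false = false)
    (hw : 0 < m → w (m - 1) = true)
    (h : Thin (ladderGraph (rungs F n)) (cK F n) (cS F w n m (b + 1))) :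
    Thin (ladderGraph (rungs F n)) (cK F n) (cS F w n m b) := by
  have hb := b.2
  have e : cS F w n m b = insert (cv F w b) (cS F w n m (b + 1)) := by
    ext ⟨c, j, hj⟩
    rw [Finset.mem_insert, mem_cS, mem_cS]
    simp only [cv, ctau, Prod.mk.injEq, Fin.mk.injEq]
    constructor
    · rintro ⟨h1, h2⟩
      by_cases h3 : j = off F + b
      · subst h3
        rw [Nat.add_sub_cancel_left] at h1
        exact Or.inl ⟨cv_fst.1 h1, rfl⟩
      · exact Or.inr ⟨h1, by omega⟩
    · rintro (⟨h1, h2⟩ | ⟨h1, h2⟩)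
      · subst h2
        rw [Nat.add_sub_cancel_left]
        exact ⟨cv_fst.2 h1, by omega⟩
      · exact ⟨h1, by omega⟩
  rw [e]
  have key : ∀ x ∈ cK F n ∪ cS F w n m (b + 1), (ladderGraph (rungs F n)).Adj (cv F w b) x →
      (cv F w b).1 = x.1 ∧ off F + (b : ℕ) + 1 = x.2 := by
    rintro ⟨c, j, hj⟩ hx hadj
    rw [Finset.mem_union, mem_cK, mem_cS] at hx
    simp only [cv, ladderGraph, Fin.mk.injEq] at hadj hx ⊢
    rcases hadj with ⟨h1, _⟩ | ⟨h1, h2 | h2⟩
    · omega
    · exact ⟨h1, h2⟩
    · exfalso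
      rcases hx with (h3 | h3) | ⟨h3, h4 | h4⟩
      · have h5 : m = 0 := by omega
        have h6 : off F = 0 := by
          unfold off
          rw [hm0 h5]
          rfl
        omega
      · omega
      · have h5 : (b : ℕ) = m := by omega
        have h6 : 0 < m := by omega
        have h7 : j - off F = m - 1 := by omega
        have h8 := wpar_step (w := w) (show m - 1 + 1 = (b : ℕ) by omega)
        simp only [ctau] at h3
        rw [h7, ← h1, h8, hw h6] at h3
        revert h3
        cases wpar w (m - 1) <;> simp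
      · omega
  refine Thin.insert _ h ?_ ?_ ?_
  · rw [mem_cK]
    simp only [cv]
    omega
  · rw [mem_cS]
    simp only [cv]
    omega
  · intro x hx y hy h1 h2
    obtain ⟨h3, h4⟩ := key x hx h1
    obtain ⟨h5, h6⟩ := key y hy h2
    exact Prod.ext (h3.symm.trans h5) (Fin.ext (by omega))

theorem thin_capped {m : ℕ} (hmn : m ≤ n) (hm0 : m = 0 → F false = false)
    (hm1 : m = n → F true = false) (hw : 0 < m → m < n → w (m - 1) = true) :
    Thin (ladderGraph (rungs F n)) (cK F n)
      (univ.filter fun v => v ∉ cK F n ∧ ctau F w n v = true) := by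
  have up : ∀ a : ℕ, a ≤ m → Thin (ladderGraph (rungs F n)) (cK F n) (cS F w n a n) := by
    intro a
    induction a with
    | zero =>
      intro _
      have e : cS F w n 0 n = ∅ := by
        ext x
        rw [mem_cS]
        simp
      rw [e]
      exact Thin.empty
    | succ a ih =>
      intro ha
      exact step_up ⟨a, by omega⟩ (m := m) (by simp only; omega) hmn hm1 (ih (by omega))
  have down : ∀ k : ℕ, k ≤ n - m →
      Thin (ladderGraph (rungs F n)) (cK F n) (cS F w n m (n - k)) := by
    intro k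
    induction k with
    | zero =>
      intro _
      exact up m le_rfl
    | succ k ih =>
      intro hk
      have h1 := ih (by omega)
      have e1 : n - k = (n - (k + 1)) + 1 := by omega
      rw [e1] at h1
      exact step_down ⟨n - (k + 1), by omega⟩ (by simp only; omega) hm0
        (fun h0 => hw h0 (by omega)) h1
  have h := down (n - m) le_rfl
  have e : n - (n - m) = m := by omega
  rw [e] at h
  have e' : (univ.filter fun v => v ∉ cK F n ∧ ctau F w n v = true) = cS F w n m m := by
    ext v
    rw [Finset.mem_filter, mem_cS, mem_cK]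
    simp only [Finset.mem_univ, true_and]
    constructor
    · rintro ⟨h1, h2⟩
      exact ⟨h2, by omega⟩
    · rintro ⟨h1, h2⟩
      exact ⟨by omega, h1⟩
  rw [e']
  exact h

/-- the 2-colouring of a capped layered graph -/
def cside {VG : Type} (t : VG → Bool) (w : ℕ → Bool) (n : ℕ) (F : Bool → Bool) :
    (VG × Fin n) ⊕ {x : Bool × Bool // F x.1 = true} → Bool
  | Sum.inl (p, i) => xor (xor (t p) (wpar w i)) (decide ((off F + i) % 2 = 1))
  | Sum.inr ⟨(true, c), _⟩ => xor (xor c (wpar w (n - 1))) (decide ((off F + n) % 2 = 1))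
  | Sum.inr ⟨(false, c), _⟩ => c

/-- **Capped layered graphs.** -/
theorem capped_gsid [Fintype VG] [DecidableEq VG] (hG : GSid G t) (he : ∃ u v, G.Adj u v)
    (hc : ∀ b, (univ.filter fun p => t p = b).card ≤ Nat.card G.edgeSet) (w : ℕ → Bool) {n : ℕ}
    (hn : 0 < n) (F : Bool → Bool)
    (hF : F false = true → F true = true → ∃ i, i + 1 < n ∧ w i = true) :
    GSid (capped G t w n F) (cside t w n F) := by
  obtain ⟨C, M, hN⟩ := ladder_net (rungs F n)
  have hs₀ : ∀ u v, (ladderGraph (rungs F n)).Adj u v →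
      (fun v : Bool × Fin (rungs F n) => xor v.1 (decide ((v.2 : ℕ) % 2 = 1))) u ≠
        (fun v : Bool × Fin (rungs F n) => xor v.1 (decide ((v.2 : ℕ) % 2 = 1))) v := by
    rintro ⟨c, i⟩ ⟨d, j⟩ h
    simp only [ladderGraph] at h
    rcases h with ⟨rfl, h⟩ | ⟨rfl, h⟩
    · simp only
      cases c <;> cases d <;> simp at h ⊢
    · have h1 : decide ((i : ℕ) % 2 = 1) ≠ decide ((j : ℕ) % 2 = 1) := by
        simp only [ne_eq, decide_eq_decide]
        omega
      simp only
      intro h2
      apply h1
      revert h2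
      cases c <;> simp
  have hthin : Thin (ladderGraph (rungs F n)) (cK F n)
      (univ.filter fun v => v ∉ cK F n ∧ ctau F w n v = true) := by
    cases h0 : F false with
    | false =>
      exact thin_capped (m := 0) (Nat.zero_le _) (fun _ => h0) (fun h => by omega)
        (fun h => absurd h (lt_irrefl _))
    | true =>
      cases h1 : F true with
      | false =>
        exact thin_capped (m := n) le_rfl (fun h => by omega) (fun _ => h1)
          (fun _ h => absurd h (lt_irrefl _))
      | true =>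
        obtain ⟨i, hi, hw⟩ := hF h0 h1
        exact thin_capped (m := i + 1) (by omega) (fun h => by omega) (fun h => by omega)
          (fun _ _ => hw)
  have h := iso_gsid hG he hc hs₀ hN (cK F n) (ctau F w n) (Or.inl hthin)
    (H := capped G t w n F) (g := cg t w n F) ⟨cg_injective hn, cg_surjective⟩
    (cg_adj hn hG.1)
  convert h using 1
  funext x
  rcases x with ⟨p, i⟩ | ⟨⟨e, c⟩, h'⟩
  · rfl
  · cases e
    · change c = xor c (decide (0 % 2 = 1))
      cases c <;> rfl
    · rfl

end Vale.Agent.P050.H223.Cap
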