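import Vale.Agent.P050.H177.Layer2

/-!
Graphs isomorphic to a substitution.
-/

namespace Vale.Agent.P050.H223.Cap

open Finset Vale.Agent.P050.Tmpl Vale.Agent.P050.Lev Vale.Agent.P050.H177

theorem iso_gsid {VG V₀ V : Type} [Fintype VG] [DecidableEq VG] [Fintype V₀] [DecidableEq V₀]
    [Fintype V] [DecidableEq V] {G : SimpleGraph VG} {t : VG → Bool} {H₀ : SimpleGraph V₀}
    {s₀ : V₀ → Bool} {C₀ : V₀ → Finset V₀ → Prop} {M₀ : V₀ → Finset V₀ → Finset V₀ → Prop}
    {H : SimpleGraph V} (hG : GSid G t) (he : ∃ u v, G.Adj u v)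
    (hc : ∀ b, (univ.filter fun p => t p = b).card ≤ Nat.card G.edgeSet)
    (hs₀ : ∀ u v, H₀.Adj u v → s₀ u ≠ s₀ v) (hH₀ : Net H₀ univ C₀ M₀) (K : Finset V₀)
    (τ : V₀ → Bool)
    (hK : Thin H₀ K (univ.filter fun v => v ∉ K ∧ τ v = true) ∨ ∀ v ∉ K, τ v = s₀ v)
    {g : V → RV t τ K} (hg : Function.Bijective g)
    (hadj : ∀ x y, H.Adj x y ↔ (relSub G t H₀ τ K).Adj (g x) (g y)) :
    GSid H fun x => subSide s₀ t τ K (g x) := by
  let e := Equiv.ofBijective g hg
  have he' : ∀ a, g (e.symm a) = a := fun a => e.apply_symm_apply a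
  have himg : univ.image e.symm = univ := by
    ext x
    simp only [Finset.mem_image, Finset.mem_univ, true_and, iff_true]
    exact e.symm.surjective x
  refine sub_gsid hG he hc hs₀ hH₀ K τ hK ?_ e.symm.injective ?_ ?_
    (C := fun v B => ∃ a A, LiftStar G t τ K C₀ a A ∧ v = e.symm a ∧ B = A.image e.symm)
    (M := fun v A B => ∃ a A' B', LiftSep G t τ K M₀ a A' B' ∧ v = e.symm a ∧
      A = A'.image e.symm ∧ B = B'.image e.symm) ?_
  · intro u v huv
    rw [hadj] at huv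
    have hside : ∀ a b : RV t τ K, (relSub G t H₀ τ K).Adj a b →
        subSide s₀ t τ K a ≠ subSide s₀ t τ K b := by
      rintro (a | a) (b | b) hab
      · exact hs₀ _ _ hab
      · exact hs₀ _ _ hab
      · exact hs₀ _ _ hab
      · exact hs₀ _ _ hab.2
    exact hside _ _ huv
  · intro a b
    rw [hadj, he', he']
  · intro a
    rw [he']
  · rw [himg]
    exact NetExt.base

end Vale.Agent.P050.H223.Cap
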