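import Vale.Agent.P050.H177.NetDefs

/-!
The path is net-grown.
-/

namespace Vale.Agent.P050.H223

open Vale.Agent.P050.Tmpl Vale.Agent.P050.H177

/-- the vertex `i` of the path with `n + 1` vertices -/
def pv (n i : ℕ) : Fin (n + 1) := Fin.ofNat (n + 1) i

theorem pv_val {n i : ℕ} (h : i ≤ n) : (pv n i : ℕ) = i := by
  simp [pv, Fin.ofNat, Nat.mod_eq_of_lt (Nat.lt_succ_of_le h)]

theorem eq_pv_iff {n i : ℕ} (h : i ≤ n) (x : Fin (n + 1)) : x = pv n i ↔ (x : ℕ) = i := by
  rw [Fin.ext_iff, pv_val h]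

private theorem path_aux (n : ℕ) : ∀ m ≤ n, ∃ (C : Fin (n + 1) → Finset (Fin (n + 1)) → Prop)
    (M : Fin (n + 1) → Finset (Fin (n + 1)) → Finset (Fin (n + 1)) → Prop),
    Net (SimpleGraph.pathGraph (n + 1)) (Finset.univ.filter fun x => (x : ℕ) ≤ m) C M ∧
    (m = 0 → C (pv n 0) ∅) ∧
    (∀ i, 1 ≤ i → i ≤ m → C (pv n i) {pv n (i - 1)}) ∧
    (∀ i, 1 ≤ i → i + 1 ≤ m → C (pv n i) {pv n (i - 1), pv n (i + 1)}) ∧
    (∀ i, 1 ≤ i → i < m → M (pv n i) {pv n (i - 1)}
      (Finset.univ.filter fun x => i < (x : ℕ) ∧ (x : ℕ) ≤ m)) := by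
  intro m
  induction m with
  | zero =>
    intro _
    have h0 : (Finset.univ.filter fun x : Fin (n + 1) => (x : ℕ) ≤ 0) = insert (pv n 0) ∅ := by
      ext x
      simp [eq_pv_iff (Nat.zero_le n)]
    have hN : Net (SimpleGraph.pathGraph (n + 1)) ∅ (fun _ _ => False) (fun _ _ _ => False) :=
      NetExt.base
    have := NetExt.isolated (pv n 0) hN (by simp) (by simp)
    rw [← h0] at this
    refine ⟨_, _, this, fun _ => Or.inr ⟨rfl, rfl⟩, fun i h1 h2 => by omega,
      fun i h1 h2 => by omega, fun i h1 h2 => by omega⟩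
  | succ m ih =>
    intro hm
    obtain ⟨C, M, hN, hC0, hC1, hC2, hM⟩ := ih (by omega)
    have hS : (Finset.univ.filter fun x : Fin (n + 1) => (x : ℕ) ≤ m + 1) =
        insert (pv n (m + 1)) (Finset.univ.filter fun x : Fin (n + 1) => (x : ℕ) ≤ m) := by
      ext x
      simp only [Finset.mem_filter, Finset.mem_univ, true_and, Finset.mem_insert, eq_pv_iff hm]
      omega
    have hw : pv n (m + 1) ∉ (Finset.univ.filter fun x : Fin (n + 1) => (x : ℕ) ≤ m) := by
      simp only [Finset.mem_filter, Finset.mem_univ, true_and, pv_val hm]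
      omega
    have hv : pv n m ∈ (Finset.univ.filter fun x : Fin (n + 1) => (x : ℕ) ≤ m) := by
      simp [pv_val (show m ≤ n by omega)]
    have hadj : ∀ x ∈ (Finset.univ.filter fun x : Fin (n + 1) => (x : ℕ) ≤ m),
        (SimpleGraph.pathGraph (n + 1)).Adj (pv n (m + 1)) x ↔ x = pv n m := by
      intro x hx
      simp only [Finset.mem_filter, Finset.mem_univ, true_and] at hx
      rw [SimpleGraph.pathGraph_adj, pv_val hm, eq_pv_iff (show m ≤ n by omega)]
      omega
    have hN' := NetExt.leaf (pv n (m + 1)) (pv n m) hN hw hv hadj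
    rw [← hS] at hN'
    have hins : (insert (pv n (m + 1)) {pv n (m - 1)} : Finset (Fin (n + 1))) =
        {pv n (m - 1), pv n (m + 1)} := Finset.pair_comm _ _
    refine ⟨_, _, hN', fun h => by omega, fun i h1 h2 => ?_, fun i h1 h2 => ?_,
      fun i h1 h2 => ?_⟩
    · rcases Nat.lt_or_ge m i with h | h
      · have : i = m + 1 := by omega
        subst this
        exact Or.inr (Or.inl ⟨rfl, rfl⟩)
      · exact Or.inl (hC1 i h1 h)
    · rcases Nat.lt_or_ge i m with h | h
      · exact Or.inl (hC2 i h1 h)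
      · have : i = m := by omega
        subst this
        exact Or.inr (Or.inr ⟨rfl, _, hC1 i h1 le_rfl, hins.symm⟩)
    · have hB : (Finset.univ.filter fun x : Fin (n + 1) => i < (x : ℕ) ∧ (x : ℕ) ≤ m + 1) =
          insert (pv n (m + 1))
            (Finset.univ.filter fun x : Fin (n + 1) => i < (x : ℕ) ∧ (x : ℕ) ≤ m) := by
        ext x
        simp only [Finset.mem_filter, Finset.mem_univ, true_and, Finset.mem_insert, eq_pv_iff hm]
        omega
      rcases Nat.lt_or_ge i m with h | h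
      · refine Or.inr ⟨_, Or.inl (hM i h1 h), ?_, hB⟩
        simp [pv_val (show m ≤ n by omega), h]
      · have : i = m := by omega
        subst this
        have hemp : (Finset.univ.filter fun x : Fin (n + 1) => i < (x : ℕ) ∧ (x : ℕ) ≤ i) = ∅ := by
          ext x
          simp
        refine Or.inr ⟨_, Or.inr (Or.inr ⟨hemp, hv, ?_⟩), ?_, hB⟩
        · simp only [Finset.singleton_subset_iff, Finset.mem_filter, Finset.mem_univ, true_and,
            pv_val (show i - 1 ≤ n by omega)]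
          omega
        · simp

/-- The path with `n + 1` vertices is net-grown, with the stars `{i - 1}` and `{i - 1, i + 1}` at
`i`, and with the separation of `{i - 1}` and `{i + 1, ..., n}` by `i`. -/
theorem path_net (n : ℕ) : ∃ (C : Fin (n + 1) → Finset (Fin (n + 1)) → Prop)
    (M : Fin (n + 1) → Finset (Fin (n + 1)) → Finset (Fin (n + 1)) → Prop),
    Net (SimpleGraph.pathGraph (n + 1)) Finset.univ C M ∧
    (∀ i, 1 ≤ i → i ≤ n → C (pv n i) {pv n (i - 1)}) ∧
    (∀ i, 1 ≤ i → i + 1 ≤ n → C (pv n i) {pv n (i - 1), pv n (i + 1)}) ∧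
    (∀ i, 1 ≤ i → i < n → M (pv n i) {pv n (i - 1)}
      (Finset.univ.filter fun x => i < (x : ℕ))) := by
  obtain ⟨C, M, hN, -, h1, h2, h3⟩ := path_aux n n le_rfl
  have hu : (Finset.univ.filter fun x : Fin (n + 1) => (x : ℕ) ≤ n) = Finset.univ := by
    ext x
    simp [Nat.le_of_lt_succ x.2]
  rw [hu] at hN
  refine ⟨C, M, hN, h1, h2, fun i hi hi' => ?_⟩
  have hB : (Finset.univ.filter fun x : Fin (n + 1) => i < (x : ℕ)) =
      Finset.univ.filter fun x : Fin (n + 1) => i < (x : ℕ) ∧ (x : ℕ) ≤ n := by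
    ext x
    simp [Nat.le_of_lt_succ x.2]
  rw [hB]
  exact h3 i hi hi'

end Vale.Agent.P050.H223
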