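import Vale.Agent.P050.H223.Ladder
import Vale.Agent.P050.H223.PathNet

/-!
The graph `chordPath (2 j + 1)` is obtained by net steps from a substitution of a path with `j + 2`
vertices into the four-cycle.
-/

namespace Vale.Agent.P050.H223

open Vale.Agent.P050.Tmpl Vale.Agent.P050.H177

/-- the 4-cycle, as the complete bipartite graph whose sides are given by the first coordinate -/
def K22 : SimpleGraph (Bool × Bool) where
  Adj p q := p.1 ≠ q.1
  symm := ⟨fun _ _ h => h.symm⟩
  loopless := ⟨fun _ h => h rfl⟩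

/-- the division of the path: the last vertex goes with the second side -/
def lastV (j : ℕ) (v : Fin (j + 2)) : Bool := decide ((v : ℕ) = j + 1)

/-- the place of a vertex of the substitution on the chord path, as a natural number -/
def chordVal (j : ℕ) : RV (Prod.fst : Bool × Bool → Bool) (lastV j) {0} → ℕ
  | Sum.inl _ => 2 * j + 1
  | Sum.inr x => if x.1.1.1 = false then
      (if x.1.1.2 = false then 2 * j + 1 + (x.1.2 : ℕ) else 2 * j + 1 - (x.1.2 : ℕ))
    else (if x.1.1.2 = false then j else 3 * j + 2)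

theorem chordVal_lt (j : ℕ) (x : RV (Prod.fst : Bool × Bool → Bool) (lastV j) {0}) :
    chordVal j x < 2 * (2 * j + 1) + 1 := by
  rcases x with x | ⟨⟨⟨a, c⟩, v⟩, hv⟩
  · simp only [chordVal]
    omega
  · have := v.2
    simp only [chordVal]
    split_ifs <;> omega

theorem chordVal_inl (j : ℕ) (x : {v : Fin (j + 2) // v ∈ ({0} : Finset (Fin (j + 2)))}) :
    chordVal j (Sum.inl x) = 2 * j + 1 := rfl

theorem chordVal_ff (j : ℕ) (v : Fin (j + 2)) (h) :
    chordVal j (Sum.inr ⟨((false, false), v), h⟩) = 2 * j + 1 + v := rfl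

theorem chordVal_ft (j : ℕ) (v : Fin (j + 2)) (h) :
    chordVal j (Sum.inr ⟨((false, true), v), h⟩) = 2 * j + 1 - v := rfl

theorem chordVal_tf (j : ℕ) (v : Fin (j + 2)) (h) :
    chordVal j (Sum.inr ⟨((true, false), v), h⟩) = j := rfl

theorem chordVal_tt (j : ℕ) (v : Fin (j + 2)) (h) :
    chordVal j (Sum.inr ⟨((true, true), v), h⟩) = 3 * j + 2 := rfl

/-- the embedding of the substitution into the chord path -/
def chordEmb (j : ℕ) (x : RV (Prod.fst : Bool × Bool → Bool) (lastV j) {0}) :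
    Fin (2 * (2 * j + 1) + 1) := ⟨chordVal j x, chordVal_lt j x⟩

theorem inr_facts {j : ℕ} {a c : Bool} {v : Fin (j + 2)}
    (hv : ((a, c), v).2 ∉ ({0} : Finset (Fin (j + 2))) ∧ ((a, c), v).1.1 = lastV j ((a, c), v).2) :
    0 < (v : ℕ) ∧ (a = false ∧ (v : ℕ) ≤ j ∨ a = true ∧ (v : ℕ) = j + 1) := by
  obtain ⟨h1, h2⟩ := hv
  have h3 := v.2
  have h4 : (v : ℕ) ≠ 0 := fun h => h1 (Finset.mem_singleton.mpr (Fin.ext h))
  refine ⟨by omega, ?_⟩
  rcases a
  · have : ¬ (v : ℕ) = j + 1 := of_decide_eq_false h2.symm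
    exact Or.inl ⟨rfl, by omega⟩
  · exact Or.inr ⟨rfl, of_decide_eq_true h2.symm⟩

theorem chordEmb_injective (j : ℕ) : Function.Injective (chordEmb j) := by
  intro x y h
  have h' : chordVal j x = chordVal j y := congrArg Fin.val h
  clear h
  rcases x with ⟨x, hx⟩ | ⟨⟨⟨a, c⟩, v⟩, hv⟩ <;> rcases y with ⟨y, hy⟩ | ⟨⟨⟨a', c'⟩, v'⟩, hv'⟩
  · simp only [Finset.mem_singleton] at hx hy
    subst hx
    subst hy
    rfl
  · exfalso
    obtain ⟨h1, ⟨rfl, h2⟩ | ⟨rfl, h2⟩⟩ := inr_facts hv' <;> rcases c' <;>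
      simp only [chordVal_inl, chordVal_ff, chordVal_ft, chordVal_tf, chordVal_tt] at h' <;> omega
  · exfalso
    obtain ⟨h1, ⟨rfl, h2⟩ | ⟨rfl, h2⟩⟩ := inr_facts hv <;> rcases c <;>
      simp only [chordVal_inl, chordVal_ff, chordVal_ft, chordVal_tf, chordVal_tt] at h' <;> omega
  · have hvv : (a = a' ∧ c = c' ∧ (v : ℕ) = v') := by
      obtain ⟨h1, ⟨rfl, h2⟩ | ⟨rfl, h2⟩⟩ := inr_facts hv <;>
      obtain ⟨g1, ⟨rfl, g2⟩ | ⟨rfl, g2⟩⟩ := inr_facts hv' <;> rcases c <;> rcases c' <;>
        simp only [chordVal_ff, chordVal_ft, chordVal_tf, chordVal_tt, true_and, reduceCtorEq,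
          false_and] at h' ⊢ <;> omega
    obtain ⟨rfl, rfl, h⟩ := hvv
    have : v = v' := Fin.ext h
    subst this
    rfl

private theorem adj_iff (j : ℕ) (x y : RV (Prod.fst : Bool × Bool → Bool) (lastV j) {0}) :
    (chordPath (2 * j + 1)).Adj (chordEmb j x) (chordEmb j y) ↔
      chordVal j x ≠ chordVal j y ∧ (chordVal j x + 1 = chordVal j y ∨
        chordVal j y + 1 = chordVal j x ∨ chordVal j x + (2 * j + 1) = chordVal j y ∨
        chordVal j y + (2 * j + 1) = chordVal j x) := by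
  simp only [chordPath, ne_eq, Fin.ext_iff]
  rfl

theorem chordEmb_adj (j : ℕ) (x y : RV (Prod.fst : Bool × Bool → Bool) (lastV j) {0}) :
    (chordPath (2 * j + 1)).Adj (chordEmb j x) (chordEmb j y) ↔
      (relSub K22 Prod.fst (SimpleGraph.pathGraph (j + 2)) (lastV j) {0}).Adj x y := by
  rw [adj_iff]
  rcases x with ⟨x, hx⟩ | ⟨⟨⟨a, c⟩, v⟩, hv⟩ <;> rcases y with ⟨y, hy⟩ | ⟨⟨⟨a', c'⟩, v'⟩, hv'⟩
  · simp only [Finset.mem_singleton] at hx hy
    subst hx
    subst hy
    simp [relSub]
  · simp only [Finset.mem_singleton] at hx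
    subst hx
    obtain ⟨h1, ⟨rfl, h2⟩ | ⟨rfl, h2⟩⟩ := inr_facts hv' <;> rcases c' <;>
      simp only [relSub, chordVal_inl, chordVal_ff, chordVal_ft, chordVal_tf, chordVal_tt,
        SimpleGraph.pathGraph_adj, Fin.val_zero] <;> omega
  · simp only [Finset.mem_singleton] at hy
    subst hy
    obtain ⟨h1, ⟨rfl, h2⟩ | ⟨rfl, h2⟩⟩ := inr_facts hv <;> rcases c <;>
      simp only [relSub, chordVal_inl, chordVal_ff, chordVal_ft, chordVal_tf, chordVal_tt,
        SimpleGraph.pathGraph_adj, Fin.val_zero] <;> omega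
  · obtain ⟨h1, ⟨rfl, h2⟩ | ⟨rfl, h2⟩⟩ := inr_facts hv <;>
      obtain ⟨g1, ⟨rfl, g2⟩ | ⟨rfl, g2⟩⟩ := inr_facts hv' <;> rcases c <;> rcases c' <;>
      simp only [relSub, chordVal_ff, chordVal_ft, chordVal_tf, chordVal_tt, K22, ne_eq,
        SimpleGraph.pathGraph_adj, Prod.mk.injEq, reduceCtorEq, not_true, not_false_eq_true,
        and_self, and_true, true_and, and_false, false_and, or_true, or_false] <;>
      first | omega | (rw [iff_false]; omega) | (rw [false_iff]; omega)

/-- the page `((false, c), (true, c))` of the substitution, as a map into the chord path -/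
def page (j : ℕ) (c : Bool) (v : Fin (j + 2)) : Fin (2 * (2 * j + 1) + 1) :=
  if h : (v : ℕ) = j + 1 then
    (if c = false then ⟨j, by omega⟩ else ⟨3 * j + 2, by omega⟩)
  else (if c = false then ⟨2 * j + 1 + v, by omega⟩ else ⟨2 * j + 1 - v, by omega⟩)

theorem page_last (j : ℕ) (c : Bool) {v : Fin (j + 2)} (h : (v : ℕ) = j + 1) :
    (page j c v : ℕ) = if c = false then j else 3 * j + 2 := by
  rcases c <;> simp [page, h]

theorem page_path (j : ℕ) (c : Bool) {v : Fin (j + 2)} (h : (v : ℕ) ≤ j) :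
    (page j c v : ℕ) = if c = false then 2 * j + 1 + (v : ℕ) else 2 * j + 1 - (v : ℕ) := by
  have h' : ¬ (v : ℕ) = j + 1 := by omega
  rcases c <;> simp [page, h']

theorem exists_lift (j : ℕ) (c : Bool) (v : Fin (j + 2)) :
    ∃ a : RV (Prod.fst : Bool × Bool → Bool) (lastV j) {0},
      Lift (false, c) (true, c) v a ∧ chordEmb j a = page j c v := by
  by_cases h0 : v = 0
  · subst h0
    refine ⟨Sum.inl ⟨0, Finset.mem_singleton_self _⟩, rfl, ?_⟩
    apply Fin.ext
    rw [page_path j c (by simp)]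
    simp [chordEmb, chordVal]
  · by_cases h1 : (v : ℕ) = j + 1
    · refine ⟨Sum.inr ⟨((true, c), v), by simpa using h0, ?_⟩, ⟨rfl, Or.inr rfl⟩, ?_⟩
      · exact (decide_eq_true h1).symm
      · apply Fin.ext
        rw [page_last j c h1]
        rfl
    · refine ⟨Sum.inr ⟨((false, c), v), by simpa using h0, ?_⟩, ⟨rfl, Or.inl rfl⟩, ?_⟩
      · exact (decide_eq_false h1).symm
      · apply Fin.ext
        rw [page_path j c (by have := v.2; omega)]
        rfl

theorem lift_eq (j : ℕ) (c : Bool) (v : Fin (j + 2))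
    (a : RV (Prod.fst : Bool × Bool → Bool) (lastV j) {0}) (h : Lift (false, c) (true, c) v a) :
    chordEmb j a = page j c v := by
  rcases a with ⟨x, hx⟩ | ⟨⟨⟨a, c'⟩, v'⟩, hv⟩
  · have hx' : x = 0 := Finset.mem_singleton.mp hx
    have hxv : x = v := h
    subst hxv
    subst hx'
    apply Fin.ext
    rw [page_path j c (by simp)]
    simp [chordEmb, chordVal]
  · obtain ⟨h1, h2⟩ := h
    have h1' : v' = v := h1
    subst h1'
    obtain ⟨g1, ⟨rfl, g2⟩ | ⟨rfl, g2⟩⟩ := inr_facts hv
    · have hc : c' = c := by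
        rcases h2 with h2 | h2 <;> simp at h2
        exact h2
      subst hc
      apply Fin.ext
      rw [page_path j c' g2]
      rfl
    · have hc : c' = c := by
        rcases h2 with h2 | h2 <;> simp at h2
        exact h2
      subst hc
      apply Fin.ext
      rw [page_last j c' g2]
      rfl

/-- the lift of a star along a page -/
theorem liftStar_page (j : ℕ) (c : Bool) {C : Fin (j + 2) → Finset (Fin (j + 2)) → Prop}
    {v : Fin (j + 2)} {D : Finset (Fin (j + 2))} (h : C v D) :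
    ∃ a A, LiftStar K22 (Prod.fst : Bool × Bool → Bool) (lastV j) {0} C a A ∧
      page j c v = chordEmb j a ∧ D.image (page j c) = A.image (chordEmb j) := by
  classical
  obtain ⟨a, ha, hav⟩ := exists_lift j c v
  refine ⟨a, Finset.univ.filter fun b => ∃ w ∈ D, Lift (false, c) (true, c) w b,
    ⟨(false, c), (true, c), by simp [K22], v, D, h, ha, by simp⟩, hav.symm, ?_⟩
  ext x
  simp only [Finset.mem_image, Finset.mem_filter, Finset.mem_univ, true_and]
  constructor
  · rintro ⟨w, hw, rfl⟩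
    obtain ⟨b, hb, hbw⟩ := exists_lift j c w
    exact ⟨b, ⟨w, hw, hb⟩, hbw⟩
  · rintro ⟨b, ⟨w, hw, hb⟩, rfl⟩
    exact ⟨w, hw, (lift_eq j c w b hb).symm⟩

/-- the lift of a separation along a page -/
theorem liftSep_page (j : ℕ) (c : Bool)
    {M : Fin (j + 2) → Finset (Fin (j + 2)) → Finset (Fin (j + 2)) → Prop}
    {v : Fin (j + 2)} {A B : Finset (Fin (j + 2))} (h : M v A B) :
    ∃ a A' B', LiftSep K22 (Prod.fst : Bool × Bool → Bool) (lastV j) {0} M a A' B' ∧
      page j c v = chordEmb j a ∧ A.image (page j c) = A'.image (chordEmb j) ∧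
      B.image (page j c) = B'.image (chordEmb j) := by
  classical
  obtain ⟨a, ha, hav⟩ := exists_lift j c v
  have key : ∀ D : Finset (Fin (j + 2)), D.image (page j c) =
      (Finset.univ.filter fun b => ∃ w ∈ D, Lift (false, c) (true, c) w b).image
        (chordEmb j) := by
    intro D
    ext x
    simp only [Finset.mem_image, Finset.mem_filter, Finset.mem_univ, true_and]
    constructor
    · rintro ⟨w, hw, rfl⟩
      obtain ⟨b, hb, hbw⟩ := exists_lift j c w
      exact ⟨b, ⟨w, hw, hb⟩, hbw⟩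
    · rintro ⟨b, ⟨w, hw, hb⟩, rfl⟩
      exact ⟨w, hw, (lift_eq j c w b hb).symm⟩
  exact ⟨a, Finset.univ.filter fun b => ∃ w ∈ A, Lift (false, c) (true, c) w b,
    Finset.univ.filter fun b => ∃ w ∈ B, Lift (false, c) (true, c) w b,
    ⟨(false, c), (true, c), by simp [K22], v, A, B, h, ha, by simp, by simp⟩, hav.symm,
    key A, key B⟩

theorem mem_image_chordEmb (j : ℕ) (x : Fin (2 * (2 * j + 1) + 1)) :
    x ∈ Finset.univ.image (chordEmb j) ↔ j ≤ (x : ℕ) ∧ (x : ℕ) ≤ 3 * j + 2 := by
  constructor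
  · intro hx
    obtain ⟨a, -, rfl⟩ := Finset.mem_image.mp hx
    change j ≤ chordVal j a ∧ chordVal j a ≤ 3 * j + 2
    rcases a with ⟨x, hx⟩ | ⟨⟨⟨a, c⟩, v⟩, hv⟩
    · simp only [chordVal_inl]
      omega
    · obtain ⟨h1, ⟨rfl, h2⟩ | ⟨rfl, h2⟩⟩ := inr_facts hv <;> rcases c <;>
        simp only [chordVal_ff, chordVal_ft, chordVal_tf, chordVal_tt] <;> omega
  · rintro ⟨h1, h2⟩
    have key : ∀ (c : Bool) (v : Fin (j + 2)), x = page j c v →
        x ∈ Finset.univ.image (chordEmb j) := by
      intro c v h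
      obtain ⟨a, -, ha⟩ := exists_lift j c v
      exact Finset.mem_image.mpr ⟨a, Finset.mem_univ _, by rw [ha, h]⟩
    rcases Nat.lt_trichotomy (x : ℕ) (2 * j + 1) with h | h | h
    · rcases Nat.eq_or_lt_of_le h1 with h' | h'
      · refine key false ⟨j + 1, by omega⟩ (Fin.ext ?_)
        rw [page_last j false rfl]
        simp [← h']
      · refine key true ⟨2 * j + 1 - x, by omega⟩ (Fin.ext ?_)
        rw [page_path j true (by simp only; omega)]
        simp only [Bool.true_eq_false, if_false]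
        omega
    · refine key false ⟨0, by omega⟩ (Fin.ext ?_)
      rw [page_path j false (by simp only; omega)]
      simp only [if_true]
      omega
    · rcases Nat.eq_or_lt_of_le h2 with h' | h'
      · refine key true ⟨j + 1, by omega⟩ (Fin.ext ?_)
        rw [page_last j true rfl]
        simp [h']
      · refine key false ⟨x - (2 * j + 1), by omega⟩ (Fin.ext ?_)
        rw [page_path j false (by simp only; omega)]
        simp only [if_true]
        omega

/-- the stars of the substitution, moved to the chord path -/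
def ChordStar (j : ℕ) (C : Fin (j + 2) → Finset (Fin (j + 2)) → Prop)
    (v : Fin (2 * (2 * j + 1) + 1)) (B : Finset (Fin (2 * (2 * j + 1) + 1))) : Prop :=
  ∃ a A, LiftStar K22 (Prod.fst : Bool × Bool → Bool) (lastV j) {0} C a A ∧
    v = chordEmb j a ∧ B = A.image (chordEmb j)

/-- the separations of the substitution, moved to the chord path -/
def ChordSep (j : ℕ) (M : Fin (j + 2) → Finset (Fin (j + 2)) → Finset (Fin (j + 2)) → Prop)
    (v : Fin (2 * (2 * j + 1) + 1)) (A B : Finset (Fin (2 * (2 * j + 1) + 1))) : Prop :=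
  ∃ a A' B', LiftSep K22 (Prod.fst : Bool × Bool → Bool) (lastV j) {0} M a A' B' ∧
    v = chordEmb j a ∧ A = A'.image (chordEmb j) ∧ B = B'.image (chordEmb j)

/-- `chordPath (2 j + 1)` is obtained by net steps from the substitution of the path with `j + 2`
vertices into the 4-cycle. -/
theorem chord_net (j : ℕ) {C : Fin (j + 2) → Finset (Fin (j + 2)) → Prop}
    {M : Fin (j + 2) → Finset (Fin (j + 2)) → Finset (Fin (j + 2)) → Prop}
    (h1 : ∀ i, 1 ≤ i → i ≤ j + 1 → C (pv (j + 1) i) {pv (j + 1) (i - 1)})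
    (h2 : ∀ i, 1 ≤ i → i + 1 ≤ j + 1 → C (pv (j + 1) i) {pv (j + 1) (i - 1), pv (j + 1) (i + 1)})
    (h3 : ∀ i, 1 ≤ i → i < j + 1 → M (pv (j + 1) i) {pv (j + 1) (i - 1)}
      (Finset.univ.filter fun x => i < (x : ℕ))) :
    ∃ D N, NetExt (chordPath (2 * j + 1)) (Finset.univ.image (chordEmb j)) (ChordStar j C)
      (ChordSep j M) Finset.univ D N := by
  -- the two pages
  obtain ⟨t, htdef⟩ : ∃ t : Bool → ℕ → Fin (2 * (2 * j + 1) + 1),
      t = fun c i => page j c (pv (j + 1) i) := ⟨_, rfl⟩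
  have htv : ∀ c i, i ≤ j → (t c i : ℕ) = if c = false then 2 * j + 1 + i else 2 * j + 1 - i := by
    intro c i hi
    have := pv_val (show i ≤ j + 1 by omega)
    simp only [htdef]
    rw [page_path j c (by omega), this]
  have htl : ∀ c, (t c (j + 1) : ℕ) = if c = false then j else 3 * j + 2 := by
    intro c
    simp only [htdef]
    rw [page_last j c (pv_val le_rfl)]
  have hst1 : ∀ c i, 1 ≤ i → i ≤ j + 1 → ChordStar j C (t c i) {t c (i - 1)} := by
    intro c i hi hi'
    obtain ⟨a, A, hA, h4, h5⟩ := liftStar_page j c (h1 i hi hi')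
    subst htdef
    refine ⟨a, A, hA, h4, ?_⟩
    rw [← h5, Finset.image_singleton]
  have hst2 : ∀ c i, 1 ≤ i → i + 1 ≤ j + 1 →
      ChordStar j C (t c i) {t c (i - 1), t c (i + 1)} := by
    intro c i hi hi'
    obtain ⟨a, A, hA, h4, h5⟩ := liftStar_page j c (h2 i hi hi')
    subst htdef
    refine ⟨a, A, hA, h4, ?_⟩
    rw [← h5, Finset.image_insert, Finset.image_singleton]
  have hsep : ∀ c i, 1 ≤ i → i < j + 1 → ∃ A B, ChordSep j M (t c i) A B ∧ t c (i - 1) ∈ A ∧
      ∀ i', i < i' → i' ≤ j + 1 → t c i' ∈ B := by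
    intro c i hi hi'
    obtain ⟨a, A, B, hAB, h4, h5, h6⟩ := liftSep_page j c (h3 i hi hi')
    subst htdef
    refine ⟨_, _, ⟨a, A, B, hAB, h4, rfl, rfl⟩, ?_, fun i' g1 g2 => ?_⟩
    · rw [← h5]
      exact Finset.mem_image_of_mem _ (Finset.mem_singleton_self _)
    · rw [← h6]
      refine Finset.mem_image_of_mem _ ?_
      simp only [Finset.mem_filter, Finset.mem_univ, true_and, pv_val g2]
      exact g1
  -- the first ladder
  have hb1 : ∀ i ≤ j, (pv (2 * (2 * j + 1)) i : ℕ) = i := fun i hi => pv_val (by omega)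
  have hb1j : pv (2 * (2 * j + 1)) j = t false (j + 1) := Fin.ext (by rw [hb1 j le_rfl, htl]; rfl)
  obtain ⟨C', M', hN, hCC, hMM⟩ := ladder (H := chordPath (2 * j + 1))
    (S₀ := Finset.univ.image (chordEmb j)) (C₀ := ChordStar j C) (M₀ := ChordSep j M)
    NetExt.base (t false) (fun i => pv (2 * (2 * j + 1)) i) j
    (fun i hi => by
      rw [mem_image_chordEmb, hb1 i (by omega)]
      omega)
    (fun i hi i' hi' h => by
      have := congrArg Fin.val h
      simp only [hb1 i (by omega), hb1 i' (by omega)] at this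
      exact this)
    (fun i hi x hx => by
      have hx' : i < (x : ℕ) ∧ (x : ℕ) ≤ 3 * j + 2 := by
        rcases hx with hx | ⟨i', g1, g2, rfl⟩
        · rw [mem_image_chordEmb] at hx
          omega
        · rw [hb1 i' (by omega)]
          omega
      simp only [chordPath, ne_eq, Fin.ext_iff, hb1 i hi.le, hb1 (i + 1) hi, htv false i hi.le,
        if_true]
      omega)
    (fun hj => by
      rw [hb1j]
      exact hst2 false j hj le_rfl)
    (fun i hi hi' => hst1 false i hi (by omega))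
    (fun i hi hi' => by
      obtain ⟨A, B, hAB, hA, hB⟩ := hsep false i hi (by omega)
      refine ⟨A, B, hAB, hA, fun i' g1 g2 => hB i' g1 (by omega), ?_⟩
      rw [hb1j]
      exact hB (j + 1) (by omega) le_rfl)
  -- the second ladder
  have hS : ∀ x, x ∈ Finset.univ.image (chordEmb j) ∪
      (Finset.range j).image (fun i => pv (2 * (2 * j + 1)) i) ↔ (x : ℕ) ≤ 3 * j + 2 := by
    intro x
    rw [Finset.mem_union, mem_image_chordEmb]
    simp only [Finset.mem_image, Finset.mem_range]
    constructor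
    · rintro (h | ⟨i, hi, rfl⟩)
      · exact h.2
      · rw [hb1 i hi.le]
        omega
    · intro h
      rcases Nat.lt_or_ge (x : ℕ) j with h' | h'
      · exact Or.inr ⟨x, h', Fin.ext (hb1 x h'.le)⟩
      · exact Or.inl ⟨h', h⟩
  have hb2 : ∀ i ≤ j, (pv (2 * (2 * j + 1)) (2 * (2 * j + 1) - i) : ℕ) =
      2 * (2 * j + 1) - i := fun i hi => pv_val (by omega)
  have hb2j : pv (2 * (2 * j + 1)) (2 * (2 * j + 1) - j) = t true (j + 1) := Fin.ext (by
    rw [hb2 j le_rfl, htl]
    simp only [Bool.true_eq_false, if_false]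
    omega)
  obtain ⟨C'', M'', hN', -, -⟩ := ladder hN (t true)
    (fun i => pv (2 * (2 * j + 1)) (2 * (2 * j + 1) - i)) j
    (fun i hi => by
      rw [hS, hb2 i (by omega)]
      omega)
    (fun i hi i' hi' h => by
      have := congrArg Fin.val h
      simp only [hb2 i (by omega), hb2 i' (by omega)] at this
      omega)
    (fun i hi x hx => by
      have hx' : (x : ℕ) < 2 * (2 * j + 1) - i := by
        rcases hx with hx | ⟨i', g1, g2, rfl⟩
        · rw [hS] at hx
          omega
        · rw [hb2 i' (by omega)]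
          omega
      simp only [chordPath, ne_eq, Fin.ext_iff, hb2 i hi.le, hb2 (i + 1) hi, htv true i hi.le,
        Bool.true_eq_false, if_false]
      omega)
    (fun hj => by
      rw [hb2j]
      exact hCC _ _ (hst2 true j hj le_rfl))
    (fun i hi hi' => hCC _ _ (hst1 true i hi (by omega)))
    (fun i hi hi' => by
      obtain ⟨A, B, hAB, hA, hB⟩ := hsep true i hi (by omega)
      refine ⟨A, B, hMM _ _ _ hAB, hA, fun i' g1 g2 => hB i' g1 (by omega), ?_⟩
      rw [hb2j]
      exact hB (j + 1) (by omega) le_rfl)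
  refine ⟨C'', M'', ?_⟩
  convert hN' using 1
  ext x
  simp only [Finset.mem_univ, true_iff]
  rw [Finset.mem_union, hS]
  rcases Nat.lt_or_ge (3 * j + 2) (x : ℕ) with h | h
  · refine Or.inr (Finset.mem_image.mpr ⟨2 * (2 * j + 1) - x, ?_, ?_⟩)
    · have := x.2
      rw [Finset.mem_range]
      omega
    · apply Fin.ext
      have := x.2
      rw [hb2 _ (by omega)]
      omega
  · exact Or.inl h

/-- The path with `j + 2` vertices is net-grown, and `chordPath (2 j + 1)` is obtained from its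
substitution into the 4-cycle by net steps. -/
theorem exists_chord_net (j : ℕ) : ∃ (C : Fin (j + 2) → Finset (Fin (j + 2)) → Prop)
    (M : Fin (j + 2) → Finset (Fin (j + 2)) → Finset (Fin (j + 2)) → Prop),
    Net (SimpleGraph.pathGraph (j + 2)) Finset.univ C M ∧
    ∃ D N, NetExt (chordPath (2 * j + 1)) (Finset.univ.image (chordEmb j)) (ChordStar j C)
      (ChordSep j M) Finset.univ D N := by
  obtain ⟨C, M, hN, h1, h2, h3⟩ := path_net (j + 1)
  exact ⟨C, M, hN, chord_net j h1 h2 h3⟩

end Vale.Agent.P050.H223
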