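import Vale.Agent.P050.H223.Chord

/-!
The graph on `0, ..., n - 1` in which `i` and `j` are adjacent iff `|i - j|` is `1` or `k`, where
`k = 2 j + 1` and `2 k + 1 - j ≤ n ≤ 2 k + 1`, is obtained by net steps from a substitution of a
path with `j + 2` vertices into the four-cycle.
-/

namespace Vale.Agent.P050.H223

open Vale.Agent.P050.Tmpl Vale.Agent.P050.H177

/-- The graph on `0, ..., n - 1` in which `i` and `j` are adjacent iff `|i - j|` is `1` or `k`. -/
def chordGraph (k n : ℕ) : SimpleGraph (Fin n) where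
  Adj i j := i ≠ j ∧ ((i : ℕ) + 1 = j ∨ (j : ℕ) + 1 = i ∨ (i : ℕ) + k = j ∨ (j : ℕ) + k = i)
  symm := ⟨fun i j h => ⟨h.1.symm, by tauto⟩⟩
  loopless := ⟨fun i h => h.1 rfl⟩

theorem chordGraph_eq (k : ℕ) : chordGraph k (2 * k + 1) = chordPath k := rfl

section

variable {j l n : ℕ} (hl : l ≤ j) (hn : n + l = 4 * j + 3)

theorem le_chordVal (x : RV (Prod.fst : Bool × Bool → Bool) (lastV j) {0}) :
    j ≤ chordVal j x ∧ chordVal j x ≤ 3 * j + 2 := by
  rcases x with ⟨x, hx⟩ | ⟨⟨⟨a, c⟩, v⟩, hv⟩
  · simp only [chordVal_inl]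
    omega
  · obtain ⟨h1, ⟨rfl, h2⟩ | ⟨rfl, h2⟩⟩ := inr_facts hv <;> rcases c <;>
      simp only [chordVal_ff, chordVal_ft, chordVal_tf, chordVal_tt] <;> omega

include hl hn in
theorem chordVal_sub_lt (x : RV (Prod.fst : Bool × Bool → Bool) (lastV j) {0}) :
    chordVal j x - l < n := by
  have := le_chordVal x
  omega

/-- the embedding of the substitution into the chord graph -/
def gEmb (x : RV (Prod.fst : Bool × Bool → Bool) (lastV j) {0}) : Fin n :=
  ⟨chordVal j x - l, chordVal_sub_lt hl hn x⟩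

theorem gEmb_injective : Function.Injective (gEmb hl hn) := by
  intro x y h
  have h' : chordVal j x - l = chordVal j y - l := congrArg Fin.val h
  apply chordEmb_injective j
  apply Fin.ext
  have h1 := le_chordVal x
  have h2 := le_chordVal y
  change chordVal j x = chordVal j y
  omega

theorem gEmb_adj (x y : RV (Prod.fst : Bool × Bool → Bool) (lastV j) {0}) :
    (chordGraph (2 * j + 1) n).Adj (gEmb hl hn x) (gEmb hl hn y) ↔
      (relSub K22 Prod.fst (SimpleGraph.pathGraph (j + 2)) (lastV j) {0}).Adj x y := by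
  rw [← chordEmb_adj]
  have h1 := le_chordVal x
  have h2 := le_chordVal y
  simp only [chordGraph, chordPath, ne_eq, Fin.ext_iff, gEmb, chordEmb]
  omega

/-- the page `((false, c), (true, c))` of the substitution, as a map into the natural numbers -/
def gPage (j : ℕ) (c : Bool) (v : Fin (j + 2)) : ℕ :=
  if (v : ℕ) = j + 1 then (if c = false then j else 3 * j + 2)
  else (if c = false then 2 * j + 1 + v else 2 * j + 1 - v)

theorem page_eq_gPage (c : Bool) (v : Fin (j + 2)) : (page j c v : ℕ) = gPage j c v := by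
  by_cases h : (v : ℕ) = j + 1
  · rw [page_last j c h, gPage, if_pos h]
  · rw [page_path j c (by have := v.2; omega), gPage, if_neg h]

theorem gPage_bound (c : Bool) (v : Fin (j + 2)) : j ≤ gPage j c v ∧ gPage j c v ≤ 3 * j + 2 := by
  have := v.2
  unfold gPage
  split_ifs <;> omega

/-- a page of the substitution, as a map into the chord graph -/
def gp (c : Bool) (v : Fin (j + 2)) : Fin n :=
  ⟨gPage j c v - l, by have := gPage_bound c v; omega⟩

theorem gp_val (c : Bool) (v : Fin (j + 2)) : (gp hl hn c v : ℕ) = gPage j c v - l := rfl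

theorem gEmb_of_page {c : Bool} {v : Fin (j + 2)}
    {a : RV (Prod.fst : Bool × Bool → Bool) (lastV j) {0}} (h : chordEmb j a = page j c v) :
    gEmb hl hn a = gp hl hn c v := by
  apply Fin.ext
  rw [gp_val, ← page_eq_gPage, ← h]
  rfl

theorem exists_lift' (c : Bool) (v : Fin (j + 2)) :
    ∃ a : RV (Prod.fst : Bool × Bool → Bool) (lastV j) {0},
      Lift (false, c) (true, c) v a ∧ gEmb hl hn a = gp hl hn c v := by
  obtain ⟨a, h1, h2⟩ := exists_lift j c v
  exact ⟨a, h1, gEmb_of_page hl hn h2⟩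

theorem lift_eq' (c : Bool) (v : Fin (j + 2))
    (a : RV (Prod.fst : Bool × Bool → Bool) (lastV j) {0}) (h : Lift (false, c) (true, c) v a) :
    gEmb hl hn a = gp hl hn c v := gEmb_of_page hl hn (lift_eq j c v a h)

private theorem image_page (c : Bool) (D : Finset (Fin (j + 2)))
    (E : Finset (RV (Prod.fst : Bool × Bool → Bool) (lastV j) {0}))
    (hE : ∀ b, b ∈ E ↔ ∃ w ∈ D, Lift (false, c) (true, c) w b) :
    D.image (gp hl hn c) = E.image (gEmb hl hn) := by
  ext x
  simp only [Finset.mem_image]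
  constructor
  · rintro ⟨w, hw, rfl⟩
    obtain ⟨b, hb, hbw⟩ := exists_lift' hl hn c w
    exact ⟨b, (hE b).2 ⟨w, hw, hb⟩, hbw⟩
  · rintro ⟨b, hb, rfl⟩
    obtain ⟨w, hw, hb⟩ := (hE b).1 hb
    exact ⟨w, hw, (lift_eq' hl hn c w b hb).symm⟩

/-- the stars of the substitution, moved to the chord graph -/
def GStar (C : Fin (j + 2) → Finset (Fin (j + 2)) → Prop) (v : Fin n) (B : Finset (Fin n)) :
    Prop :=
  ∃ a A, LiftStar K22 (Prod.fst : Bool × Bool → Bool) (lastV j) {0} C a A ∧
    v = gEmb hl hn a ∧ B = A.image (gEmb hl hn)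

/-- the separations of the substitution, moved to the chord graph -/
def GSep (M : Fin (j + 2) → Finset (Fin (j + 2)) → Finset (Fin (j + 2)) → Prop)
    (v : Fin n) (A B : Finset (Fin n)) : Prop :=
  ∃ a A' B', LiftSep K22 (Prod.fst : Bool × Bool → Bool) (lastV j) {0} M a A' B' ∧
    v = gEmb hl hn a ∧ A = A'.image (gEmb hl hn) ∧ B = B'.image (gEmb hl hn)

theorem gStar_page (c : Bool) {C : Fin (j + 2) → Finset (Fin (j + 2)) → Prop}
    {v : Fin (j + 2)} {D : Finset (Fin (j + 2))} (h : C v D) :
    GStar hl hn C (gp hl hn c v) (D.image (gp hl hn c)) := by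
  classical
  obtain ⟨a, ha, hav⟩ := exists_lift' hl hn c v
  exact ⟨a, Finset.univ.filter fun b => ∃ w ∈ D, Lift (false, c) (true, c) w b,
    ⟨(false, c), (true, c), by simp [K22], v, D, h, ha, by simp⟩, hav.symm,
    image_page hl hn c D _ (by simp)⟩

theorem gSep_page (c : Bool) {M : Fin (j + 2) → Finset (Fin (j + 2)) → Finset (Fin (j + 2)) → Prop}
    {v : Fin (j + 2)} {A B : Finset (Fin (j + 2))} (h : M v A B) :
    GSep hl hn M (gp hl hn c v) (A.image (gp hl hn c)) (B.image (gp hl hn c)) := by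
  classical
  obtain ⟨a, ha, hav⟩ := exists_lift' hl hn c v
  exact ⟨a, Finset.univ.filter fun b => ∃ w ∈ A, Lift (false, c) (true, c) w b,
    Finset.univ.filter fun b => ∃ w ∈ B, Lift (false, c) (true, c) w b,
    ⟨(false, c), (true, c), by simp [K22], v, A, B, h, ha, by simp, by simp⟩, hav.symm,
    image_page hl hn c A _ (by simp), image_page hl hn c B _ (by simp)⟩

theorem mem_image_gEmb (x : Fin n) :
    x ∈ Finset.univ.image (gEmb hl hn) ↔ j ≤ (x : ℕ) + l ∧ (x : ℕ) + l ≤ 3 * j + 2 := by
  have h := mem_image_chordEmb j ⟨(x : ℕ) + l, by have := x.2; omega⟩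
  rw [← h]
  simp only [Finset.mem_image, Finset.mem_univ, true_and, Fin.ext_iff, gEmb, chordEmb]
  constructor
  · rintro ⟨a, ha⟩
    have := le_chordVal a
    exact ⟨a, by omega⟩
  · rintro ⟨a, ha⟩
    exact ⟨a, by omega⟩

/-- the vertex `i` of the big path, moved to the chord graph -/
def gv (i : ℕ) : Fin n := if h : i - l < n then ⟨i - l, h⟩ else ⟨0, by omega⟩

theorem gv_val {i : ℕ} (h : i ≤ 4 * j + 2) : (gv hl hn i : ℕ) = i - l := by
  have : i - l < n := by omega
  simp [gv, this]

/-- The chord graph is obtained by net steps from the substitution of the path with `j + 2`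
vertices into the 4-cycle. -/
theorem gchord_net {C : Fin (j + 2) → Finset (Fin (j + 2)) → Prop}
    {M : Fin (j + 2) → Finset (Fin (j + 2)) → Finset (Fin (j + 2)) → Prop}
    (h1 : ∀ i, 1 ≤ i → i ≤ j + 1 → C (pv (j + 1) i) {pv (j + 1) (i - 1)})
    (h2 : ∀ i, 1 ≤ i → i + 1 ≤ j + 1 → C (pv (j + 1) i) {pv (j + 1) (i - 1), pv (j + 1) (i + 1)})
    (h3 : ∀ i, 1 ≤ i → i < j + 1 → M (pv (j + 1) i) {pv (j + 1) (i - 1)}
      (Finset.univ.filter fun x => i < (x : ℕ))) :
    ∃ D N, NetExt (chordGraph (2 * j + 1) n) (Finset.univ.image (gEmb hl hn)) (GStar hl hn C)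
      (GSep hl hn M) Finset.univ D N := by
  -- the two pages
  obtain ⟨t, htdef⟩ : ∃ t : Bool → ℕ → Fin n,
      t = fun c i => gp hl hn c (pv (j + 1) i) := ⟨_, rfl⟩
  have htv : ∀ c i, i ≤ j → (t c i : ℕ) + l = if c = false then 2 * j + 1 + i
      else 2 * j + 1 - i := by
    intro c i hi
    have h4 := pv_val (show i ≤ j + 1 by omega)
    have h5 : ¬ i = j + 1 := by omega
    simp only [htdef, gp_val, gPage, h4, if_neg h5]
    split_ifs <;> omega
  have htl : ∀ c, (t c (j + 1) : ℕ) + l = if c = false then j else 3 * j + 2 := by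
    intro c
    have h4 := pv_val (show j + 1 ≤ j + 1 by omega)
    simp only [htdef, gp_val, gPage, h4, if_true]
    split_ifs <;> omega
  have hst1 : ∀ c i, 1 ≤ i → i ≤ j + 1 → GStar hl hn C (t c i) {t c (i - 1)} := by
    intro c i hi hi'
    have := gStar_page hl hn c (h1 i hi hi')
    rw [Finset.image_singleton] at this
    subst htdef
    exact this
  have hst2 : ∀ c i, 1 ≤ i → i + 1 ≤ j + 1 →
      GStar hl hn C (t c i) {t c (i - 1), t c (i + 1)} := by
    intro c i hi hi'
    have := gStar_page hl hn c (h2 i hi hi')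
    rw [Finset.image_insert, Finset.image_singleton] at this
    subst htdef
    exact this
  have hsep : ∀ c i, 1 ≤ i → i < j + 1 → ∃ A B, GSep hl hn M (t c i) A B ∧ t c (i - 1) ∈ A ∧
      ∀ i', i < i' → i' ≤ j + 1 → t c i' ∈ B := by
    intro c i hi hi'
    have := gSep_page hl hn c (h3 i hi hi')
    subst htdef
    refine ⟨_, _, this, ?_, fun i' g1 g2 => ?_⟩
    · exact Finset.mem_image_of_mem _ (Finset.mem_singleton_self _)
    · refine Finset.mem_image_of_mem _ ?_
      simp only [Finset.mem_filter, Finset.mem_univ, true_and, pv_val g2]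
      exact g1
  -- the first ladder
  have hb1 : ∀ i, l ≤ i → i ≤ j → (gv hl hn i : ℕ) + l = i := fun i hi hi' => by
    rw [gv_val hl hn (by omega)]
    omega
  have hb1j : gv hl hn j = t false (j + 1) := Fin.ext (by
    have h4 := hb1 j hl le_rfl
    have h5 := htl false
    simp only [if_true] at h5
    omega)
  obtain ⟨C', M', hN, hCC, hMM⟩ := ladder_from (H := chordGraph (2 * j + 1) n)
    (S₀ := Finset.univ.image (gEmb hl hn)) (C₀ := GStar hl hn C) (M₀ := GSep hl hn M)
    NetExt.base (t false) (gv hl hn) j l hl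
    (fun i hi hi' => by
      have h4 := hb1 i hi hi'.le
      rw [mem_image_gEmb]
      omega)
    (fun i hi hi' i' g g' h => by
      have := congrArg Fin.val h
      have h4 := hb1 i hi hi'.le
      have h5 := hb1 i' g g'.le
      omega)
    (fun i hi hi' x hx => by
      have hx' : i < (x : ℕ) + l ∧ (x : ℕ) + l ≤ 3 * j + 2 := by
        rcases hx with hx | ⟨i', g1, g2, rfl⟩
        · rw [mem_image_gEmb] at hx
          omega
        · have h4 := hb1 i' (by omega) g2.le
          omega
      have h4 := hb1 i hi hi'.le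
      have h5 := hb1 (i + 1) (by omega) hi'
      have h6 := htv false i hi'.le
      simp only [if_true] at h6
      simp only [chordGraph, ne_eq, Fin.ext_iff]
      omega)
    (fun hj => by
      rw [hb1j]
      exact hst2 false j hj le_rfl)
    (fun i hi hi' => hst1 false i hi (by omega))
    (fun i hi hi' => by
      obtain ⟨A, B, hAB, hA, hB⟩ := hsep false i hi (by omega)
      refine ⟨A, B, hAB, hA, fun i' g1 g2 => hB i' g1 (by omega), ?_⟩
      rw [hb1j]
      exact hB (j + 1) (by omega) le_rfl)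
  -- the second ladder
  have hS : ∀ x : Fin n, x ∈ Finset.univ.image (gEmb hl hn) ∪
      (Finset.Ico l j).image (gv hl hn) ↔ (x : ℕ) + l ≤ 3 * j + 2 := by
    intro x
    rw [Finset.mem_union, mem_image_gEmb]
    simp only [Finset.mem_image, Finset.mem_Ico]
    constructor
    · rintro (h | ⟨i, hi, rfl⟩)
      · exact h.2
      · have h4 := hb1 i hi.1 hi.2.le
        omega
    · intro h
      rcases Nat.lt_or_ge ((x : ℕ) + l) j with h' | h'
      · have h4 := hb1 ((x : ℕ) + l) (by omega) h'.le
        exact Or.inr ⟨(x : ℕ) + l, ⟨by omega, h'⟩, Fin.ext (by omega)⟩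
      · exact Or.inl ⟨h', h⟩
  have hb2 : ∀ i ≤ j, (gv hl hn (4 * j + 2 - i) : ℕ) + l = 4 * j + 2 - i := fun i hi => by
    rw [gv_val hl hn (by omega)]
    omega
  have hb2j : gv hl hn (4 * j + 2 - j) = t true (j + 1) := Fin.ext (by
    have h4 := hb2 j le_rfl
    have h5 := htl true
    simp only [Bool.true_eq_false, if_false] at h5
    omega)
  obtain ⟨C'', M'', hN', -, -⟩ := ladder hN (t true) (fun i => gv hl hn (4 * j + 2 - i)) j
    (fun i hi => by
      have h4 := hb2 i hi.le
      rw [hS]
      omega)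
    (fun i hi i' hi' h => by
      have := congrArg Fin.val h
      have h4 := hb2 i hi.le
      have h5 := hb2 i' hi'.le
      omega)
    (fun i hi x hx => by
      have hx' : (x : ℕ) + l < 4 * j + 2 - i := by
        rcases hx with hx | ⟨i', g1, g2, rfl⟩
        · rw [hS] at hx
          omega
        · have h4 := hb2 i' g2.le
          omega
      have h4 := hb2 i hi.le
      have h5 := hb2 (i + 1) hi
      have h6 := htv true i hi.le
      simp only [Bool.true_eq_false, if_false] at h6
      simp only [chordGraph, ne_eq, Fin.ext_iff]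
      omega)
    (fun hj => by
      rw [hb2j]
      exact hCC _ _ (hst2 true j hj le_rfl))
    (fun i hi hi' => hCC _ _ (hst1 true i hi (by omega)))
    (fun i hi hi' => by
      obtain ⟨A, B, hAB, hA, hB⟩ := hsep true i hi (by omega)
      refine ⟨A, B, hMM _ _ _ hAB, hA, fun i' g1 g2 => hB i' g1 (by omega), ?_⟩
      rw [hb2j]
      exact hB (j + 1) (by omega) le_rfl)
  refine ⟨C'', M'', ?_⟩
  convert hN' using 1
  ext x
  simp only [Finset.mem_univ, true_iff]
  rw [Finset.mem_union, hS]
  rcases Nat.lt_or_ge (3 * j + 2) ((x : ℕ) + l) with h | h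
  · have h4 := x.2
    refine Or.inr (Finset.mem_image.mpr ⟨4 * j + 2 - ((x : ℕ) + l), ?_, ?_⟩)
    · rw [Finset.mem_range]
      omega
    · have h5 := hb2 (4 * j + 2 - ((x : ℕ) + l)) (by omega)
      apply Fin.ext
      omega
  · exact Or.inl h

end

/-- The path with `j + 2` vertices is net-grown, and the chord graph with `n` vertices is obtained
from its substitution into the 4-cycle by net steps. -/
theorem exists_gchord_net {j l n : ℕ} (hl : l ≤ j) (hn : n + l = 4 * j + 3) :
    ∃ (C : Fin (j + 2) → Finset (Fin (j + 2)) → Prop)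
      (M : Fin (j + 2) → Finset (Fin (j + 2)) → Finset (Fin (j + 2)) → Prop),
      Net (SimpleGraph.pathGraph (j + 2)) Finset.univ C M ∧
      ∃ D N, NetExt (chordGraph (2 * j + 1) n) (Finset.univ.image (gEmb hl hn)) (GStar hl hn C)
        (GSep hl hn M) Finset.univ D N := by
  obtain ⟨C, M, hN, h1, h2, h3⟩ := path_net (j + 1)
  exact ⟨C, M, hN, gchord_net hl hn h1 h2 h3⟩

end Vale.Agent.P050.H223
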