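import Mathlib

set_option linter.all false

/-!
Iterates of a symmetric kernel: an inequality of entropy type.
-/

namespace Vale.Agent.P050.H223.Dbl

open Finset

section basic

variable {E : Type*} [Fintype E]

/-- the operator with kernel `N` and measure `m` -/
def op (m : E → ℝ) (N : E → E → ℝ) (g : E → ℝ) (a : E) : ℝ := ∑ b, m b * N a b * g b

/-- its iterates -/
def it (m : E → ℝ) (N : E → E → ℝ) : ℕ → (E → ℝ) → E → ℝ
  | 0 => fun g => g
  | r + 1 => fun g => op m N (it m N r g)

variable {m : E → ℝ} {N : E → E → ℝ}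

theorem op_nonneg (hm : ∀ a, 0 ≤ m a) (hN : ∀ a b, 0 ≤ N a b) {g : E → ℝ} (hg : ∀ a, 0 ≤ g a)
    (a : E) : 0 ≤ op m N g a :=
  sum_nonneg fun b _ => mul_nonneg (mul_nonneg (hm b) (hN a b)) (hg b)

theorem it_nonneg (hm : ∀ a, 0 ≤ m a) (hN : ∀ a b, 0 ≤ N a b) {g : E → ℝ} (hg : ∀ a, 0 ≤ g a)
    (r : ℕ) (a : E) : 0 ≤ it m N r g a := by
  induction r generalizing a with
  | zero => exact hg a
  | succ r ih => exact op_nonneg hm hN ih a

theorem op_self (hs : ∀ a b, N a b = N b a) (f g : E → ℝ) :
    ∑ a, m a * f a * op m N g a = ∑ a, m a * op m N f a * g a := by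
  unfold op
  simp only [mul_sum, sum_mul]
  rw [sum_comm]
  refine sum_congr rfl fun a _ => sum_congr rfl fun b _ => ?_
  rw [hs a b]; ring

theorem it_op (r : ℕ) (g : E → ℝ) : it m N r (op m N g) = op m N (it m N r g) := by
  induction r with
  | zero => rfl
  | succ r ih => simp only [it, ih]

theorem it_add (r s : ℕ) (g : E → ℝ) : it m N (r + s) g = it m N r (it m N s g) := by
  induction r with
  | zero => simp [it]
  | succ r ih =>
    rw [show r + 1 + s = (r + s) + 1 by ring]
    simp only [it, ih]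

theorem it_self (hs : ∀ a b, N a b = N b a) (r : ℕ) (f g : E → ℝ) :
    ∑ a, m a * f a * it m N r g a = ∑ a, m a * it m N r f a * g a := by
  induction r generalizing f with
  | zero => rfl
  | succ r ih =>
    simp only [it]
    rw [op_self hs, ih, it_op]

/-- the Cauchy-Schwarz inequality for the iterates -/
theorem it_sq (hm : ∀ a, 0 ≤ m a) (hN : ∀ a b, 0 ≤ N a b) (r : ℕ) (u v g : E → ℝ)
    (hu : ∀ a, 0 ≤ u a) (hv : ∀ a, 0 ≤ v a) (hg : ∀ a, 0 ≤ g a)
    (h : ∀ a, g a ^ 2 ≤ u a * v a) (a : E) :
    it m N r g a ^ 2 ≤ it m N r u a * it m N r v a := by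
  induction r generalizing a with
  | zero => exact h a
  | succ r ih =>
    simp only [it, op]
    have hu' := it_nonneg hm hN hu r
    have hv' := it_nonneg hm hN hv r
    have hg' := it_nonneg hm hN hg r
    have h1 : ∀ b, m b * N a b * it m N r g b ≤
        Real.sqrt (m b * N a b * it m N r u b) * Real.sqrt (m b * N a b * it m N r v b) := by
      intro b
      have hw : 0 ≤ m b * N a b := mul_nonneg (hm b) (hN a b)
      rw [← Real.sqrt_mul (mul_nonneg hw (hu' b))]
      refine Real.le_sqrt_of_sq_le ?_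
      have := mul_le_mul_of_nonneg_left (ih b) (mul_nonneg hw hw)
      nlinarith
    have h0 : 0 ≤ ∑ b, m b * N a b * it m N r g b :=
      sum_nonneg fun b _ => mul_nonneg (mul_nonneg (hm b) (hN a b)) (hg' b)
    refine (pow_le_pow_left₀ h0 (sum_le_sum fun b _ => h1 b) 2).trans ?_
    refine (sum_mul_sq_le_sq_mul_sq univ _ _).trans (le_of_eq ?_)
    congr 1 <;> refine sum_congr rfl fun b _ => ?_
    · exact Real.sq_sqrt (mul_nonneg (mul_nonneg (hm b) (hN a b)) (hu' b))
    · exact Real.sq_sqrt (mul_nonneg (mul_nonneg (hm b) (hN a b)) (hv' b))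

end basic

section jensen

theorem jlog {ι : Type*} [Fintype ι] (w x : ι → ℝ) (hw : ∀ i, 0 ≤ w i) (hs : ∑ i, w i = 1)
    (hx : ∀ i, 0 < w i → 0 < x i) : ∑ i, w i * Real.log (x i) ≤ Real.log (∑ i, w i * x i) := by
  classical
  set x' : ι → ℝ := fun i => if 0 < w i then x i else 1 with hx'
  have h1 : ∀ i, w i * Real.log (x i) = w i * Real.log (x' i) := by
    intro i
    simp only [hx']
    split_ifs with h
    · rfl
    · have : w i = 0 := le_antisymm (not_lt.mp h) (hw i)
      rw [this]; simp
  have h2 : ∀ i, w i * x i = w i * x' i := by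
    intro i
    simp only [hx']
    split_ifs with h
    · rfl
    · have : w i = 0 := le_antisymm (not_lt.mp h) (hw i)
      rw [this]; simp
  simp only [h1, h2]
  have h3 := (strictConcaveOn_log_Ioi.concaveOn).le_map_sum (t := univ) (w := w) (p := x')
    (fun i _ => hw i) hs (fun i _ => by
      simp only [hx', Set.mem_Ioi]
      split_ifs with h
      · exact hx i h
      · exact one_pos)
  simpa only [smul_eq_mul] using h3

end jensen

section entropy

variable {E : Type*} [Fintype E] {m : E → ℝ} {N : E → E → ℝ}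

/-- the inequality of entropy type -/
theorem entropy (hm : ∀ a, 0 ≤ m a) (hN : ∀ a b, 0 ≤ N a b) (hs : ∀ a b, N a b = N b a)
    (r : ℕ) :
    (∑ a, m a * it m N 1 1 a) ^ (r + 4) ≤ (∑ a, m a) ^ (r + 2) *
      (∑ a, m a * (it m N (r + 2) 1 a / Real.sqrt (it m N r 1 a))) ^ 2 := by
  classical
  set h : E → ℝ := it m N 1 1 with hh
  set C : ℝ := ∑ a, m a * h a with hC
  set P : ℝ := ∑ a, m a with hP
  set T : ℝ := ∑ a, m a * (it m N (r + 2) 1 a / Real.sqrt (it m N r 1 a)) with hT
  have h1 : ∀ a : E, (0 : ℝ) ≤ (1 : E → ℝ) a := fun a => zero_le_one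
  have ha0 : ∀ j a, 0 ≤ it m N j 1 a := fun j a => it_nonneg hm hN h1 j a
  have hh0 : ∀ a, 0 ≤ h a := ha0 1
  have hP0 : 0 ≤ P := sum_nonneg fun a _ => hm a
  have hC0 : 0 ≤ C := sum_nonneg fun a _ => mul_nonneg (hm a) (hh0 a)
  rcases hC0.lt_or_eq with hCpos | hCz
  swap
  · rw [← hCz, zero_pow (by omega)]
    exact mul_nonneg (pow_nonneg hP0 _) (sq_nonneg _)
  have hha : ∀ a, h a = ∑ b, m b * N a b := by
    intro a
    simp only [hh, it, op, Pi.one_apply, mul_one]
  -- positivity on the support
  have hnb : ∀ a b, 0 < m a → 0 < m b * N a b → 0 < m b ∧ 0 < h b := by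
    intro a b ha hab
    have hb : 0 < m b := by
      rcases (hm b).lt_or_eq with hb | hb
      · exact hb
      · rw [← hb, zero_mul] at hab; exact absurd hab (lt_irrefl _)
    have hNab : 0 < N a b := by
      rcases (hN a b).lt_or_eq with hb' | hb'
      · exact hb'
      · rw [← hb', mul_zero] at hab; exact absurd hab (lt_irrefl _)
    refine ⟨hb, ?_⟩
    rw [hha]
    have e1 : m a * N b a ≤ ∑ c, m c * N b c :=
      single_le_sum (f := fun c => m c * N b c) (fun c _ => mul_nonneg (hm c) (hN b c))
        (mem_univ a)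
    have e2 : 0 < m a * N b a := by rw [hs b a]; exact mul_pos ha hNab
    linarith
  have hpos : ∀ j a, 0 < m a → 0 < h a → 0 < it m N j 1 a := by
    intro j
    induction j with
    | zero => intro a _ _; simp [it]
    | succ j ih =>
      intro a hma ha
      rw [hha] at ha
      obtain ⟨b, -, hb⟩ := exists_lt_of_sum_lt (s := univ) (f := fun _ : E => (0 : ℝ))
        (g := fun b => m b * N a b) (by simpa using ha)
      obtain ⟨hb1, hb2⟩ := hnb a b hma hb
      have e1 : m b * N a b * it m N j 1 b ≤ it m N (j + 1) 1 a := by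
        simp only [it, op]
        exact single_le_sum (f := fun c => m c * N a c * it m N j 1 c)
          (fun c _ => mul_nonneg (mul_nonneg (hm c) (hN a c)) (ha0 j c)) (mem_univ b)
      exact lt_of_lt_of_le (mul_pos hb (ih b hb1 hb2)) e1
  set ρ : E → ℝ := fun a => m a * h a / C with hρ
  have hρ0 : ∀ a, 0 ≤ ρ a := fun a => div_nonneg (mul_nonneg (hm a) (hh0 a)) hC0
  have hρ1 : ∑ a, ρ a = 1 := by
    simp only [hρ]
    rw [← sum_div, ← hC, div_self hCpos.ne']
  have hρp : ∀ a, 0 < ρ a → 0 < m a ∧ 0 < h a := by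
    intro a ha
    rcases (hm a).lt_or_eq with h2 | h2
    · rcases (hh0 a).lt_or_eq with h3 | h3
      · exact ⟨h2, h3⟩
      · simp only [hρ] at ha; rw [← h3] at ha; simp at ha
    · simp only [hρ] at ha; rw [← h2] at ha; simp at ha
  set L : ℕ → ℝ := fun j => ∑ a, ρ a * Real.log (it m N j 1 a) with hL
  set ℓ : ℝ := ∑ a, ρ a * Real.log (h a) with hℓ
  -- the step
  have hstep : ∀ j, ℓ + L j ≤ L (j + 1) := by
    intro j
    have e1 : ∀ a, ρ a * Real.log (h a) + ∑ b, (m a * m b * N a b / C) *
        Real.log (it m N j 1 b) ≤ ρ a * Real.log (it m N (j + 1) 1 a) := by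
      intro a
      rcases (hρ0 a).lt_or_eq with hρa | hρa
      · obtain ⟨hma, hhap⟩ := hρp a hρa
        have e2 := jlog (fun b => m b * N a b / h a) (fun b => it m N j 1 b)
          (fun b => div_nonneg (mul_nonneg (hm b) (hN a b)) hhap.le)
          (by rw [← sum_div, ← hha, div_self hhap.ne'])
          (fun b hb => by
            have hb' : 0 < m b * N a b := by
              by_contra hcon
              have : m b * N a b = 0 := le_antisymm (not_lt.mp hcon) (mul_nonneg (hm b) (hN a b))
              rw [this, zero_div] at hb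
              exact absurd hb (lt_irrefl _)
            obtain ⟨hb1, hb2⟩ := hnb a b hma hb'
            exact hpos j b hb1 hb2)
        have e3 : it m N (j + 1) 1 a = h a * ∑ b, m b * N a b / h a * it m N j 1 b := by
          simp only [it, op]
          rw [mul_sum]
          refine sum_congr rfl fun b _ => ?_
          field_simp
        have e4 : 0 < ∑ b, m b * N a b / h a * it m N j 1 b := by
          have e5 := hpos (j + 1) a hma hhap
          rw [e3] at e5
          exact (mul_pos_iff_of_pos_left hhap).mp e5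
        rw [e3, Real.log_mul hhap.ne' e4.ne']
        have e6 : ∑ b, (m a * m b * N a b / C) * Real.log (it m N j 1 b) =
            ρ a * ∑ b, m b * N a b / h a * Real.log (it m N j 1 b) := by
          rw [mul_sum]
          refine sum_congr rfl fun b _ => ?_
          simp only [hρ]
          field_simp
        rw [e6, ← mul_add]
        exact mul_le_mul_of_nonneg_left (by linarith) hρa.le
      · rw [← hρa]
        have e7 : ∀ b, m a * m b * N a b = 0 := by
          intro b
          have e8 : m a * h a = 0 := by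
            have := hρa
            simp only [hρ] at this
            rcases div_eq_zero_iff.mp this.symm with h3 | h3
            · exact h3
            · exact absurd h3 hCpos.ne'
          have e9 : m a * (m b * N a b) ≤ m a * h a := by
            refine mul_le_mul_of_nonneg_left ?_ (hm a)
            rw [hha]
            exact single_le_sum (f := fun c => m c * N a c)
              (fun c _ => mul_nonneg (hm c) (hN a c)) (mem_univ b)
          have e10 : 0 ≤ m a * (m b * N a b) := mul_nonneg (hm a) (mul_nonneg (hm b) (hN a b))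
          linarith
        have e11 : ∑ b, (m a * m b * N a b / C) * Real.log (it m N j 1 b) = 0 :=
          sum_eq_zero fun b _ => by rw [e7]; simp
        rw [e11]; simp
    have e2 := sum_le_sum fun a (_ : a ∈ univ) => e1 a
    rw [sum_add_distrib] at e2
    have e3 : ∑ a, ∑ b, (m a * m b * N a b / C) * Real.log (it m N j 1 b) = L j := by
      rw [sum_comm]
      refine sum_congr rfl fun b _ => ?_
      rw [← sum_mul]
      congr 1
      simp only [hρ]
      rw [hha, ← sum_div, mul_sum]
      congr 1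
      refine sum_congr rfl fun a _ => ?_
      rw [hs a b]; ring
    rw [e3] at e2
    exact e2
  have hL0 : L 0 = 0 := by
    simp only [hL, it, Pi.one_apply, Real.log_one, mul_zero, sum_const_zero]
  have hLr : ∀ j : ℕ, (j : ℝ) * ℓ ≤ L j := by
    intro j
    induction j with
    | zero => rw [hL0]; simp
    | succ j ih =>
      have := hstep j
      push_cast
      linarith
  -- the first step
  have hPpos : 0 < P := by
    rcases hP0.lt_or_eq with h2 | h2
    · exact h2
    · exfalso
      have e1 : ∀ a, m a = 0 := fun a =>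
        (sum_eq_zero_iff_of_nonneg fun a _ => hm a).mp h2.symm a (mem_univ a)
      have e2 : C = 0 := sum_eq_zero fun a _ => by rw [e1 a, zero_mul]
      linarith
  have hℓ1 : Real.log C - Real.log P ≤ ℓ := by
    have e1 := jlog ρ (fun a => (h a)⁻¹) hρ0 hρ1 (fun a ha => inv_pos.mpr (hρp a ha).2)
    have e2 : ∑ a, ρ a * Real.log ((h a)⁻¹) = -ℓ := by
      rw [hℓ, ← sum_neg_distrib]
      refine sum_congr rfl fun a _ => ?_
      rw [Real.log_inv]; ring
    have e3 : ∑ a, ρ a * (h a)⁻¹ ≤ P / C := by
      rw [hP, sum_div]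
      refine sum_le_sum fun a _ => ?_
      simp only [hρ]
      rcases (hh0 a).lt_or_eq with h3 | h3
      · refine le_of_eq ?_
        field_simp
      · rw [← h3]
        simp only [mul_zero, zero_div, inv_zero]
        exact div_nonneg (hm a) hC0
    have e4 : 0 < ∑ a, ρ a * (h a)⁻¹ := by
      obtain ⟨a, -, ha⟩ := exists_lt_of_sum_lt (s := univ) (f := fun _ : E => (0 : ℝ))
        (g := ρ) (by rw [hρ1]; simp)
      refine lt_of_lt_of_le (mul_pos ha (inv_pos.mpr (hρp a ha).2)) ?_
      exact single_le_sum (f := fun c => ρ c * (h c)⁻¹)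
        (fun c _ => mul_nonneg (hρ0 c) (inv_nonneg.mpr (hh0 c))) (mem_univ a)
    have e5 := Real.log_le_log e4 e3
    rw [Real.log_div hPpos.ne' hCpos.ne'] at e5
    rw [e2] at e1
    linarith
  -- the conclusion
  set y : E → ℝ := fun a => it m N (r + 2) 1 a / (h a * Real.sqrt (it m N r 1 a)) with hy
  have hyp : ∀ a, 0 < ρ a → 0 < y a := by
    intro a ha
    obtain ⟨h2, h3⟩ := hρp a ha
    exact div_pos (hpos _ a h2 h3) (mul_pos h3 (Real.sqrt_pos.mpr (hpos _ a h2 h3)))
  have f1 := jlog ρ y hρ0 hρ1 hyp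
  have f2 : ∑ a, ρ a * Real.log (y a) = L (r + 2) - ℓ - 1 / 2 * L r := by
    simp only [hL, hℓ]
    rw [mul_sum, ← sum_sub_distrib, ← sum_sub_distrib]
    refine sum_congr rfl fun a _ => ?_
    rcases (hρ0 a).lt_or_eq with h2 | h2
    · obtain ⟨h3, h4⟩ := hρp a h2
      have p1 := hpos (r + 2) a h3 h4
      have p2 := hpos r a h3 h4
      have p3 := Real.sqrt_pos.mpr p2
      simp only [hy]
      rw [Real.log_div p1.ne' (mul_pos h4 p3).ne', Real.log_mul h4.ne' p3.ne',
        Real.log_sqrt p2.le]
      ring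
    · rw [← h2]; ring
  have f3 : C * ∑ a, ρ a * y a ≤ T := by
    rw [mul_sum, hT]
    refine sum_le_sum fun a _ => ?_
    simp only [hρ, hy]
    rcases (hh0 a).lt_or_eq with h3 | h3
    · refine le_of_eq ?_
      rcases (ha0 r a).lt_or_eq with h4 | h4
      · have := (Real.sqrt_pos.mpr h4).ne'
        field_simp
      · rw [← h4]; simp
    · rw [← h3]
      simp only [mul_zero, zero_div, zero_mul]
      exact mul_nonneg (hm a) (div_nonneg (ha0 _ _) (Real.sqrt_nonneg _))
  have f4 : 0 < ∑ a, ρ a * y a := by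
    obtain ⟨a, -, ha⟩ := exists_lt_of_sum_lt (s := univ) (f := fun _ : E => (0 : ℝ))
      (g := ρ) (by rw [hρ1]; simp)
    refine lt_of_lt_of_le (mul_pos ha (hyp a ha)) ?_
    refine single_le_sum (f := fun c => ρ c * y c) (fun c _ => mul_nonneg (hρ0 c) ?_) (mem_univ a)
    exact div_nonneg (ha0 _ _) (mul_nonneg (hh0 _) (Real.sqrt_nonneg _))
  have hTpos : 0 < T := lt_of_lt_of_le (mul_pos hCpos f4) f3
  have f5 : Real.log C + Real.log (∑ a, ρ a * y a) ≤ Real.log T := by
    rw [← Real.log_mul hCpos.ne' f4.ne']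
    exact Real.log_le_log (mul_pos hCpos f4) f3
  have f6 := hstep r
  have f7 := hstep (r + 1)
  have f8 := hLr r
  have f9 : (r + 4 : ℝ) * Real.log C ≤ (r + 2 : ℝ) * Real.log P + 2 * Real.log T := by
    have g1 : ℓ + 1 / 2 * ((r : ℝ) * ℓ) ≤ Real.log (∑ a, ρ a * y a) := by
      rw [f2] at f1
      have : r + 1 + 1 = r + 2 := rfl
      rw [this] at f7
      linarith
    have g2 : (1 + (r : ℝ) / 2) * (Real.log C - Real.log P) ≤ (1 + (r : ℝ) / 2) * ℓ :=
      mul_le_mul_of_nonneg_left hℓ1 (by positivity)
    nlinarith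
  have f10 : Real.log (C ^ (r + 4)) ≤ Real.log (P ^ (r + 2) * T ^ 2) := by
    rw [Real.log_mul (by positivity) (by positivity), Real.log_pow, Real.log_pow, Real.log_pow]
    push_cast
    linarith
  exact (Real.log_le_log_iff (by positivity) (by positivity)).mp f10

end entropy

end Vale.Agent.P050.H223.Dbl
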