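import Vale.Agent.P050.H223.Dbl1

set_option linter.all false

/-!
The inequality for closed walks with two doubled places.
-/

namespace Vale.Agent.P050.H223.Dbl

open Finset

section

variable {E : Type*} [Fintype E] {m : E → ℝ} {N : E → E → ℝ}

/-- two steps -/
def bb (m : E → ℝ) (N : E → E → ℝ) (z a : E) : ℝ := ∑ e, m e * N z e * N e a

theorem bb_nonneg (hm : ∀ a, 0 ≤ m a) (hN : ∀ a b, 0 ≤ N a b) (z a : E) : 0 ≤ bb m N z a :=
  sum_nonneg fun e _ => mul_nonneg (mul_nonneg (hm e) (hN z e)) (hN e a)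

theorem it_lin (r : ℕ) (g : E → E → ℝ) (a : E) :
    ∑ z, m z * it m N r (g z) a = it m N r (fun a => ∑ z, m z * g z a) a := by
  induction r generalizing a with
  | zero => rfl
  | succ r ih =>
    simp only [it, op]
    simp only [mul_sum]
    rw [sum_comm]
    refine sum_congr rfl fun b _ => ?_
    rw [← ih b, mul_sum]
    refine sum_congr rfl fun z _ => ?_
    ring

theorem bb_sum (hs : ∀ a b, N a b = N b a) (a : E) :
    ∑ z, m z * bb m N z a = it m N 2 1 a := by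
  simp only [bb, it, op, Pi.one_apply, mul_one]
  simp only [mul_sum]
  rw [sum_comm]
  refine sum_congr rfl fun e _ => sum_congr rfl fun z _ => ?_
  rw [hs z e, hs e a]; ring

theorem pow4_mean (m A : E → ℝ) (hm : ∀ a, 0 ≤ m a) (hA : ∀ a, 0 ≤ A a) :
    (∑ a, m a * A a) ^ 4 ≤ (∑ a, m a) ^ 3 * ∑ a, m a * A a ^ 4 := by
  have cs : ∀ u : E → ℝ, (∑ a, m a * u a) ^ 2 ≤ (∑ a, m a) * ∑ a, m a * u a ^ 2 := by
    intro u
    have := sum_mul_sq_le_sq_mul_sq univ (fun a => Real.sqrt (m a))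
      (fun a => Real.sqrt (m a) * u a)
    have e1 : ∀ a, Real.sqrt (m a) * (Real.sqrt (m a) * u a) = m a * u a := by
      intro a; rw [← mul_assoc, Real.mul_self_sqrt (hm a)]
    simp only [e1, mul_pow, Real.sq_sqrt (hm _)] at this
    exact this
  have h1 := cs A
  have h2 := cs (fun a => A a ^ 2)
  have hP : 0 ≤ ∑ a, m a := sum_nonneg fun a _ => hm a
  have hS : 0 ≤ ∑ a, m a * A a := sum_nonneg fun a _ => mul_nonneg (hm a) (hA a)
  calc (∑ a, m a * A a) ^ 4 = ((∑ a, m a * A a) ^ 2) ^ 2 := by ring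
    _ ≤ ((∑ a, m a) * ∑ a, m a * A a ^ 2) ^ 2 := pow_le_pow_left₀ (sq_nonneg _) h1 2
    _ = (∑ a, m a) ^ 2 * (∑ a, m a * A a ^ 2) ^ 2 := by ring
    _ ≤ (∑ a, m a) ^ 2 * ((∑ a, m a) * ∑ a, m a * (A a ^ 2) ^ 2) :=
        mul_le_mul_of_nonneg_left h2 (sq_nonneg _)
    _ = _ := by
        have : ∀ a, (A a ^ 2) ^ 2 = A a ^ 4 := fun a => by ring
        simp only [this]; ring

/-- the main inequality -/
theorem main (hm : ∀ a, 0 ≤ m a) (hN : ∀ a b, 0 ≤ N a b) (hs : ∀ a b, N a b = N b a) {c : ℝ}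
    (hQ : ∀ F : E → ℝ, (∀ a, 0 ≤ F a) →
      (∑ a, m a * Real.sqrt (F a)) ^ 4 ≤ c * ∑ a, m a * F a * op m N F a) (r : ℕ) :
    (∑ a, m a * it m N 1 1 a) ^ (2 * r + 8) ≤ (∑ a, m a) ^ (2 * r + 7) *
      (c * ∑ z, m z * ∑ a, m a * it m N r (fun a => bb m N z a ^ 2) a *
        op m N (it m N r (fun a => bb m N z a ^ 2)) a) := by
  set G : E → E → ℝ := fun z => it m N r (fun a => bb m N z a ^ 2) with hG
  have hG0 : ∀ z a, 0 ≤ G z a := fun z a => it_nonneg hm hN (fun a => sq_nonneg _) r a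
  set P : ℝ := ∑ a, m a with hP
  have hP0 : 0 ≤ P := sum_nonneg fun a _ => hm a
  set A : E → ℝ := fun z => ∑ a, m a * Real.sqrt (G z a) with hA
  have hA0 : ∀ z, 0 ≤ A z := fun z => sum_nonneg fun a _ => mul_nonneg (hm a) (Real.sqrt_nonneg _)
  set T : ℝ := ∑ z, m z * A z with hT
  have hT0 : 0 ≤ T := sum_nonneg fun z _ => mul_nonneg (hm z) (hA0 z)
  set T0 : ℝ := ∑ a, m a * (it m N (r + 2) 1 a / Real.sqrt (it m N r 1 a)) with hT00
  have h1 : ∀ a : E, (0 : ℝ) ≤ (1 : E → ℝ) a := fun a => zero_le_one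
  have ha0 : ∀ j a, 0 ≤ it m N j 1 a := fun j a => it_nonneg hm hN h1 j a
  have hT00' : 0 ≤ T0 := sum_nonneg fun a _ => mul_nonneg (hm a)
    (div_nonneg (ha0 _ _) (Real.sqrt_nonneg _))
  have step1 : T0 ≤ T := by
    have e1 : T0 = ∑ z, m z * ∑ a, m a * (it m N r (bb m N z) a / Real.sqrt (it m N r 1 a)) := by
      simp only [mul_sum]
      rw [sum_comm, hT00]
      refine sum_congr rfl fun a _ => ?_
      have e2 : it m N (r + 2) 1 a = ∑ z, m z * it m N r (bb m N z) a := by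
        rw [it_lin, it_add]
        congr 1
        funext b
        rw [bb_sum hs]
      rw [e2, sum_div, mul_sum]
      refine sum_congr rfl fun z _ => ?_
      ring
    rw [e1, hT]
    refine sum_le_sum fun z _ => mul_le_mul_of_nonneg_left ?_ (hm z)
    refine sum_le_sum fun a _ => mul_le_mul_of_nonneg_left ?_ (hm a)
    have e3 := it_sq hm hN r 1 (fun a => bb m N z a ^ 2) (bb m N z) h1 (fun a => sq_nonneg _)
      (bb_nonneg hm hN z) (fun a => by simp) a
    rcases (ha0 r a).lt_or_eq with h2 | h2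
    · rw [div_le_iff₀ (Real.sqrt_pos.mpr h2), ← Real.sqrt_mul (hG0 z a)]
      refine Real.le_sqrt_of_sq_le ?_
      rw [mul_comm (G z a)]
      exact e3
    · rw [← h2, Real.sqrt_zero, div_zero]
      exact Real.sqrt_nonneg _
  have step2 := entropy hm hN hs r
  rw [← hP, ← hT00] at step2
  have step3 := pow4_mean m A hm hA0
  rw [← hP, ← hT] at step3
  have step4 : ∑ z, m z * A z ^ 4 ≤ c * ∑ z, m z * ∑ a, m a * G z a * op m N (G z) a := by
    rw [mul_sum]
    refine sum_le_sum fun z _ => ?_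
    have := mul_le_mul_of_nonneg_left (hQ (G z) (hG0 z)) (hm z)
    refine this.trans (le_of_eq ?_)
    ring
  have hC0 : 0 ≤ ∑ a, m a * it m N 1 1 a :=
    sum_nonneg fun a _ => mul_nonneg (hm a) (ha0 1 a)
  calc (∑ a, m a * it m N 1 1 a) ^ (2 * r + 8) = ((∑ a, m a * it m N 1 1 a) ^ (r + 4)) ^ 2 := by
        rw [← pow_mul]; congr 1; ring
    _ ≤ (P ^ (r + 2) * T0 ^ 2) ^ 2 := pow_le_pow_left₀ (pow_nonneg hC0 _) step2 2
    _ = P ^ (2 * r + 4) * T0 ^ 4 := by
        rw [mul_pow, ← pow_mul, ← pow_mul]; congr 2; ring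
    _ ≤ P ^ (2 * r + 4) * T ^ 4 :=
        mul_le_mul_of_nonneg_left (pow_le_pow_left₀ hT00' step1 4) (pow_nonneg hP0 _)
    _ ≤ P ^ (2 * r + 4) * (P ^ 3 * ∑ z, m z * A z ^ 4) :=
        mul_le_mul_of_nonneg_left step3 (pow_nonneg hP0 _)
    _ ≤ P ^ (2 * r + 4) * (P ^ 3 * (c * ∑ z, m z * ∑ a, m a * G z a * op m N (G z) a)) :=
        mul_le_mul_of_nonneg_left (mul_le_mul_of_nonneg_left step4 (pow_nonneg hP0 _))
          (pow_nonneg hP0 _)
    _ = _ := by ring

/-- the same with the weight of one place tripled instead of the weights of two places doubled -/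
theorem trip (hm : ∀ a, 0 ≤ m a) (hN : ∀ a b, 0 ≤ N a b) (hs : ∀ a b, N a b = N b a) (r : ℕ)
    (z : E) :
    ∑ a, m a * it m N r (fun a => bb m N z a ^ 2) a *
        op m N (it m N r (fun a => bb m N z a ^ 2)) a ≤
      ∑ a, m a * it m N r (fun a => bb m N z a ^ 3) a *
        op m N (it m N r (fun a => bb m N z a)) a := by
  set G : E → ℝ := it m N r (fun a => bb m N z a ^ 2) with hG
  set F3 : E → ℝ := it m N r (fun a => bb m N z a ^ 3) with hF3
  set F1 : E → ℝ := it m N r (fun a => bb m N z a) with hF1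
  have hb := bb_nonneg hm hN z
  have hG0 : ∀ a, 0 ≤ G a := it_nonneg hm hN (fun a => sq_nonneg _) r
  have h30 : ∀ a, 0 ≤ F3 a := it_nonneg hm hN (fun a => pow_nonneg (hb a) 3) r
  have h10 : ∀ a, 0 ≤ F1 a := it_nonneg hm hN hb r
  have hsq : ∀ a, G a ^ 2 ≤ F3 a * F1 a := fun a =>
    it_sq hm hN r _ _ _ (fun a => pow_nonneg (hb a) 3) hb (fun a => sq_nonneg _)
      (fun a => by ring_nf; exact le_refl _) a
  have h1 : ∑ a, m a * F3 a * op m N F1 a = ∑ a, m a * F1 a * op m N F3 a := by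
    rw [op_self hs]
    refine sum_congr rfl fun a _ => by ring
  have h2 : 2 * ∑ a, m a * G a * op m N G a ≤
      ∑ a, m a * F3 a * op m N F1 a + ∑ a, m a * F1 a * op m N F3 a := by
    rw [← sum_add_distrib, mul_sum]
    refine sum_le_sum fun a _ => ?_
    unfold op
    rw [mul_sum, mul_sum, mul_sum, mul_sum, ← sum_add_distrib]
    refine sum_le_sum fun b _ => ?_
    have e1 : 2 * (G a * G b) ≤ F3 a * F1 b + F1 a * F3 b := by
      have g1 := Real.le_sqrt_of_sq_le (hsq a)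
      have g2 := Real.le_sqrt_of_sq_le (hsq b)
      have g3 : G a * G b ≤ Real.sqrt (F3 a * F1 a) * Real.sqrt (F3 b * F1 b) :=
        mul_le_mul g1 g2 (hG0 b) (Real.sqrt_nonneg _)
      have g4 : Real.sqrt (F3 a * F1 a) * Real.sqrt (F3 b * F1 b) =
          Real.sqrt (F3 a * F1 b) * Real.sqrt (F1 a * F3 b) := by
        rw [← Real.sqrt_mul (mul_nonneg (h30 a) (h10 a)),
          ← Real.sqrt_mul (mul_nonneg (h30 a) (h10 b))]
        congr 1; ring
      have g5 := sq_nonneg (Real.sqrt (F3 a * F1 b) - Real.sqrt (F1 a * F3 b))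
      have g6 := Real.sq_sqrt (mul_nonneg (h30 a) (h10 b))
      have g7 := Real.sq_sqrt (mul_nonneg (h10 a) (h30 b))
      nlinarith
    have e2 : 0 ≤ m a * (m b * N a b) := mul_nonneg (hm a) (mul_nonneg (hm b) (hN a b))
    have := mul_le_mul_of_nonneg_left e1 e2
    nlinarith
  rw [← h1] at h2
  linarith

end

end Vale.Agent.P050.H223.Dbl
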