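import Vale.Agent.P050.H223.Dbl2

set_option linter.all false

/-!
Sums over closed walks.
-/

namespace Vale.Agent.P050.H223.Dbl

open Finset

section

variable {E : Type*} [Fintype E] {m : E → ℝ} {N : E → E → ℝ}

theorem sum_cons {n : ℕ} (F : (Fin (n + 1) → E) → ℝ) :
    ∑ y, F y = ∑ a : E, ∑ v : Fin n → E, F (Fin.cons a v) := by
  rw [← (Fin.consEquiv (fun _ : Fin (n + 1) => E)).sum_comp F, Fintype.sum_prod_type]
  rfl

theorem sum_snoc {n : ℕ} (F : (Fin (n + 1) → E) → ℝ) :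
    ∑ y, F y = ∑ v : Fin n → E, ∑ a : E, F (Fin.snoc v a) := by
  rw [← (Fin.snocEquiv (fun _ : Fin (n + 1) => E)).sum_comp F, Fintype.sum_prod_type, sum_comm]
  rfl

/-- the weight of a path -/
def pth (N : E → E → ℝ) (n : ℕ) (y : Fin (n + 1) → E) : ℝ :=
  ∏ i : Fin n, N (y i.castSucc) (y i.succ)

theorem pth_cons (n : ℕ) (a : E) (v : Fin (n + 1) → E) :
    pth N (n + 1) (Fin.cons a v : Fin (n + 2) → E) = N a (v 0) * pth N n v := by
  unfold pth
  rw [Fin.prod_univ_succ]
  congr 1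

theorem pth_snoc (n : ℕ) (b : E) (v : Fin (n + 1) → E) :
    pth N (n + 1) (Fin.snoc v b : Fin (n + 2) → E) = pth N n v * N (v (Fin.last n)) b := by
  unfold pth
  rw [Fin.prod_univ_castSucc]
  congr 1
  · refine prod_congr rfl fun i _ => ?_
    rw [Fin.snoc_castSucc]
    have : (i.castSucc).succ = (i.succ).castSucc := rfl
    rw [this, Fin.snoc_castSucc]
  · rw [Fin.snoc_castSucc]
    have : (Fin.last n).succ = Fin.last (n + 1) := rfl
    rw [this, Fin.snoc_last]

theorem prod_cons' {n : ℕ} (a : E) (v : Fin n → E) :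
    ∏ i, m ((Fin.cons a v : Fin (n + 1) → E) i) = m a * ∏ i, m (v i) := by
  rw [Fin.prod_univ_succ]
  rfl

theorem prod_snoc' {n : ℕ} (a : E) (v : Fin n → E) :
    ∏ i, m ((Fin.snoc v a : Fin (n + 1) → E) i) = (∏ i, m (v i)) * m a := by
  rw [Fin.prod_univ_castSucc]
  congr 1
  · exact prod_congr rfl fun i _ => by rw [Fin.snoc_castSucc]
  · rw [Fin.snoc_last]

theorem path_sum (n : ℕ) (f g : E → ℝ) :
    ∑ y : Fin (n + 1) → E, f (y 0) * (∏ i, m (y i)) * pth N n y * g (y (Fin.last n)) =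
      ∑ a, m a * f a * it m N n g a := by
  induction n generalizing f with
  | zero =>
    rw [sum_cons]
    refine sum_congr rfl fun a _ => ?_
    rw [Fintype.sum_unique]
    simp [pth, it, prod_cons']
    left; ring
  | succ n ih =>
    rw [sum_cons]
    refine sum_congr rfl fun a _ => ?_
    have e1 : ∀ v : Fin (n + 1) → E,
        f ((Fin.cons a v : Fin (n + 2) → E) 0) * (∏ i, m ((Fin.cons a v : Fin (n + 2) → E) i)) *
          pth N (n + 1) (Fin.cons a v : Fin (n + 2) → E) *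
          g ((Fin.cons a v : Fin (n + 2) → E) (Fin.last (n + 1))) =
        m a * f a * (N a (v 0) * (∏ i, m (v i)) * pth N n v * g (v (Fin.last n))) := by
      intro v
      rw [pth_cons, prod_cons']
      have e2 : (Fin.cons a v : Fin (n + 2) → E) (Fin.last (n + 1)) = v (Fin.last n) := rfl
      rw [e2, Fin.cons_zero]
      ring
    simp only [e1]
    rw [← mul_sum, ih]
    rfl

theorem bb_comm (hs : ∀ a b, N a b = N b a) (a b : E) : bb m N a b = bb m N b a := by
  unfold bb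
  refine sum_congr rfl fun e _ => ?_
  rw [hs a e, hs e b]; ring

/-- closed walks with weights near the first place -/
theorem closed_sum (hs : ∀ a b, N a b = N b a) (r : ℕ) (u w : E → E → ℝ) :
    ∑ y : Fin (2 * r + 4 + 1) → E, (∏ i, m (y i)) *
      (pth N (2 * r + 4) y * N (y (Fin.last _)) (y 0)) *
      (u (y 0) (y ⟨2, by omega⟩) * w (y 0) (y ⟨2 * r + 3, by omega⟩)) =
    ∑ z, m z * ∑ a, m a * (bb m N z a * u z a) *
      it m N (2 * r + 1) (fun a => bb m N z a * w z a) a := by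
  rw [sum_cons]
  refine sum_congr rfl fun z _ => ?_
  rw [sum_cons]
  have e1 : ∀ (b : E), ∑ v : Fin (2 * r + 3) → E,
      (∏ i, m ((Fin.cons z (Fin.cons b v : Fin (2 * r + 4) → E) : Fin (2 * r + 4 + 1) → E) i)) *
      (pth N (2 * r + 4) (Fin.cons z (Fin.cons b v : Fin (2 * r + 4) → E) :
          Fin (2 * r + 4 + 1) → E) *
        N ((Fin.cons z (Fin.cons b v : Fin (2 * r + 4) → E) : Fin (2 * r + 4 + 1) → E)
          (Fin.last _)) ((Fin.cons z (Fin.cons b v : Fin (2 * r + 4) → E) :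
            Fin (2 * r + 4 + 1) → E) 0)) *
      (u ((Fin.cons z (Fin.cons b v : Fin (2 * r + 4) → E) : Fin (2 * r + 4 + 1) → E) 0)
          ((Fin.cons z (Fin.cons b v : Fin (2 * r + 4) → E) : Fin (2 * r + 4 + 1) → E)
            ⟨2, by omega⟩) *
        w ((Fin.cons z (Fin.cons b v : Fin (2 * r + 4) → E) : Fin (2 * r + 4 + 1) → E) 0)
          ((Fin.cons z (Fin.cons b v : Fin (2 * r + 4) → E) : Fin (2 * r + 4 + 1) → E)
            ⟨2 * r + 3, by omega⟩)) =
      m z * ∑ v : Fin (2 * r + 3) → E, (m b * N z b * N b (v 0)) * (u z (v 0) *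
        (∏ i, m (v i)) * pth N (2 * r + 2) v *
        (N (v (Fin.last _)) z * w z (v ⟨2 * r + 1, by omega⟩))) := by
    intro b
    rw [mul_sum]
    refine sum_congr rfl fun v _ => ?_
    rw [prod_cons', prod_cons']
    have p1 : pth N (2 * r + 4) (Fin.cons z (Fin.cons b v : Fin (2 * r + 4) → E) :
        Fin (2 * r + 4 + 1) → E) = N z b * (N b (v 0) * pth N (2 * r + 2) v) := by
      rw [pth_cons (2 * r + 3) z (Fin.cons b v), pth_cons (2 * r + 2) b v, Fin.cons_zero]
    rw [p1]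
    have p2 : (Fin.cons z (Fin.cons b v : Fin (2 * r + 4) → E) : Fin (2 * r + 4 + 1) → E)
        (Fin.last _) = v (Fin.last _) := rfl
    have p3 : (Fin.cons z (Fin.cons b v : Fin (2 * r + 4) → E) : Fin (2 * r + 4 + 1) → E)
        ⟨2, by omega⟩ = v 0 := rfl
    have p4 : (Fin.cons z (Fin.cons b v : Fin (2 * r + 4) → E) : Fin (2 * r + 4 + 1) → E)
        ⟨2 * r + 3, by omega⟩ = v ⟨2 * r + 1, by omega⟩ := rfl
    rw [p2, p3, p4, Fin.cons_zero]
    ring
  simp only [e1]
  rw [← mul_sum]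
  congr 1
  rw [sum_comm]
  have e2 : ∀ v : Fin (2 * r + 3) → E, ∑ b, (m b * N z b * N b (v 0)) * (u z (v 0) *
        (∏ i, m (v i)) * pth N (2 * r + 2) v *
        (N (v (Fin.last _)) z * w z (v ⟨2 * r + 1, by omega⟩))) =
      (bb m N z (v 0) * u z (v 0)) * (∏ i, m (v i)) * pth N (2 * r + 2) v *
        (N (v (Fin.last _)) z * w z (v ⟨2 * r + 1, by omega⟩)) := by
    intro v
    rw [← sum_mul]
    unfold bb
    ring
  simp only [e2]
  rw [sum_snoc]
  rw [← path_sum (2 * r + 1) (fun a => bb m N z a * u z a) (fun a => bb m N z a * w z a)]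
  refine sum_congr rfl fun q _ => ?_
  have e3 : ∀ b : E, (bb m N z ((Fin.snoc q b : Fin (2 * r + 2 + 1) → E) 0) *
        u z ((Fin.snoc q b : Fin (2 * r + 2 + 1) → E) 0)) *
      (∏ i, m ((Fin.snoc q b : Fin (2 * r + 2 + 1) → E) i)) *
      pth N (2 * r + 2) (Fin.snoc q b : Fin (2 * r + 2 + 1) → E) *
        (N ((Fin.snoc q b : Fin (2 * r + 2 + 1) → E) (Fin.last _)) z *
          w z ((Fin.snoc q b : Fin (2 * r + 2 + 1) → E) ⟨2 * r + 1, by omega⟩)) =
      (bb m N z (q 0) * u z (q 0)) * (∏ i, m (q i)) * pth N (2 * r + 1) q *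
        (w z (q (Fin.last _)) * (m b * N (q (Fin.last _)) b * N b z)) := by
    intro b
    rw [prod_snoc', pth_snoc (2 * r + 1) b q, Fin.snoc_last]
    have p1 : (Fin.snoc q b : Fin (2 * r + 2 + 1) → E) 0 = q 0 := by
      have : (0 : Fin (2 * r + 2 + 1)) = Fin.castSucc (0 : Fin (2 * r + 2)) := rfl
      rw [this, Fin.snoc_castSucc]
    have p2 : (Fin.snoc q b : Fin (2 * r + 2 + 1) → E) ⟨2 * r + 1, by omega⟩ =
        q (Fin.last (2 * r + 1)) := by
      have : (⟨2 * r + 1, by omega⟩ : Fin (2 * r + 2 + 1)) =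
        Fin.castSucc (Fin.last (2 * r + 1)) := rfl
      rw [this, Fin.snoc_castSucc]
    rw [p1, p2]
    ring
  simp only [e3]
  rw [← mul_sum, ← mul_sum]
  have e4 : ∑ b, m b * N (q (Fin.last _)) b * N b z = bb m N z (q (Fin.last _)) := by
    rw [bb_comm hs]; rfl
  rw [e4]
  ring

/-- the two special cases -/
theorem closed_double (hs : ∀ a b, N a b = N b a) (r : ℕ) (z : E) (f g : E → ℝ) :
    ∑ a, m a * f a * it m N (2 * r + 1) g a = ∑ a, m a * it m N r f a * op m N (it m N r g) a := by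
  rw [show 2 * r + 1 = r + (r + 1) by ring, it_add, it_self hs]
  rfl

end

end Vale.Agent.P050.H223.Dbl
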