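import Mathlib

/-!
Statement-level definitions.
-/

namespace Vale.Agent.P050.H223

/-- The places of the rungs: the rung `i` has place `i`, the two further rungs have the places given
by `β`. -/
def place {k : ℕ} (β : Bool → ZMod k) : ZMod k ⊕ Bool → ZMod k := Sum.elim id β

/-- The Moebius ladder with `k` rungs (`k` odd), with two further rungs, which are copies of the
rungs `β false` and `β true`: each of the `k + 2` rungs `r` has two ends `(r, false)` and
`(r, true)`, which are adjacent, and `(r, false)` is adjacent to `(s, true)` when the places of the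
rungs `r` and `s` differ by one. -/
def moreRungs (k : ℕ) (β : Bool → ZMod k) : SimpleGraph ((ZMod k ⊕ Bool) × Bool) where
  Adj u v := u.2 ≠ v.2 ∧ (u.1 = v.1 ∨ place β u.1 = place β v.1 + 1 ∨
    place β v.1 = place β u.1 + 1)
  symm := ⟨fun u v h => ⟨h.1.symm, by
    rcases h.2 with h | h | h
    · exact Or.inl h.symm
    · exact Or.inr (Or.inr h)
    · exact Or.inr (Or.inl h)⟩⟩
  loopless := ⟨fun u h => h.1 rfl⟩

/-- The Moebius ladder with the two neighbours of the rung `0` doubled. -/
def doubledLadder (k : ℕ) : SimpleGraph ((ZMod k ⊕ Bool) × Bool) :=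
  moreRungs k fun c => if c then -1 else 1

/-- The Moebius ladder with the rung `1` tripled. -/
def tripledLadder (k : ℕ) : SimpleGraph ((ZMod k ⊕ Bool) × Bool) :=
  moreRungs k fun _ => 1

end Vale.Agent.P050.H223
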