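import Vale.Agent.P050.H223.Dbl3
import Vale.Agent.P050.H223.DblDefs
import Vale.Agent.P050.H180.Graph
import Vale.Agent.P050.H180.Odd
import Vale.Agent.P050.H180.Twist

set_option linter.all false

/-!
Homomorphisms from Moebius ladders with additional rungs.
-/

namespace Vale.Agent.P050.H223.Dbl

open Finset Vale.Agent.P050 Vale.Agent.P050.H148 Vale.Agent.P050.H180

section

variable {X : Type*} [Fintype X]

/-- the measure on pairs -/
noncomputable def mu (G : SimpleGraph X) (z : X × X) : ℝ := adj G z.1 z.2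

/-- the kernel on pairs -/
noncomputable def nn (G : SimpleGraph X) (z w : X × X) : ℝ := adj G z.1 w.2 * adj G w.1 z.2

theorem adj_one {G : SimpleGraph X} {x y : X} (h : G.Adj x y) : adj G x y = 1 := if_pos h

theorem adj_ne {G : SimpleGraph X} {x y : X} (h : adj G x y ≠ 0) : G.Adj x y := by
  by_contra hc
  exact h (if_neg hc)

theorem nn_ne {G : SimpleGraph X} {z w : X × X} (h : nn G z w ≠ 0) :
    G.Adj z.1 w.2 ∧ G.Adj w.1 z.2 :=
  ⟨adj_ne (left_ne_zero_of_mul h), adj_ne (right_ne_zero_of_mul h)⟩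

theorem nn_symm (G : SimpleGraph X) (z w : X × X) : nn G z w = nn G w z := by
  unfold nn; ring

/-- maps on the vertices and maps on the rungs -/
def pairEquiv (V X : Type*) : (V × Bool → X) ≃ (V → X × X) where
  toFun f v := (f (v, false), f (v, true))
  invFun z u := if u.2 then (z u.1).2 else (z u.1).1
  left_inv f := by
    funext u
    obtain ⟨v, b⟩ := u
    cases b <;> rfl
  right_inv z := by
    funext v
    rfl

theorem hom_iff (G : SimpleGraph X) (k : ℕ) (β : Bool → ZMod k) (z : ZMod k ⊕ Bool → X × X)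
    (hβ : ∀ c d, β c ≠ β d + 1) :
    IsHom (moreRungs k β) G ((pairEquiv _ _).symm z) ↔
      (∀ i : ZMod k, G.Adj (z (Sum.inl i)).1 (z (Sum.inl i)).2 ∧
        G.Adj (z (Sum.inl i)).1 (z (Sum.inl (i + 1))).2 ∧
        G.Adj (z (Sum.inl (i + 1))).1 (z (Sum.inl i)).2) ∧
      (∀ c : Bool, G.Adj (z (Sum.inr c)).1 (z (Sum.inr c)).2 ∧
        (G.Adj (z (Sum.inl (β c - 1))).1 (z (Sum.inr c)).2 ∧
          G.Adj (z (Sum.inr c)).1 (z (Sum.inl (β c - 1))).2) ∧
        (G.Adj (z (Sum.inr c)).1 (z (Sum.inl (β c + 1))).2 ∧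
          G.Adj (z (Sum.inl (β c + 1))).1 (z (Sum.inr c)).2)) := by
  constructor
  · intro h
    refine ⟨fun i => ⟨?_, ?_, ?_⟩, fun c => ⟨?_, ⟨?_, ?_⟩, ?_, ?_⟩⟩
    · exact h (Sum.inl i, false) (Sum.inl i, true) ⟨by simp, Or.inl rfl⟩
    · exact h (Sum.inl i, false) (Sum.inl (i + 1), true) ⟨by simp, Or.inr (Or.inr rfl)⟩
    · exact h (Sum.inl (i + 1), false) (Sum.inl i, true) ⟨by simp, Or.inr (Or.inl rfl)⟩
    · exact h (Sum.inr c, false) (Sum.inr c, true) ⟨by simp, Or.inl rfl⟩
    · exact h (Sum.inl (β c - 1), false) (Sum.inr c, true) ⟨by simp, Or.inr (Or.inr (by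
        simp [place]))⟩
    · exact h (Sum.inr c, false) (Sum.inl (β c - 1), true) ⟨by simp, Or.inr (Or.inl (by
        simp [place]))⟩
    · exact h (Sum.inr c, false) (Sum.inl (β c + 1), true) ⟨by simp, Or.inr (Or.inr (by
        simp [place]))⟩
    · exact h (Sum.inl (β c + 1), false) (Sum.inr c, true) ⟨by simp, Or.inr (Or.inl (by
        simp [place]))⟩
  · rintro ⟨h1, h2⟩
    -- adjacency of the first end of `u` and the second end of `v`
    have key : ∀ u v : ZMod k ⊕ Bool, (u = v ∨ place β u = place β v + 1 ∨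
        place β v = place β u + 1) → G.Adj (z u).1 (z v).2 := by
      intro u v huv
      rcases huv with h | h | h
      · subst h
        rcases u with i | c
        · exact (h1 i).1
        · exact (h2 c).1
      · rcases u with i | c <;> rcases v with j | d <;> simp only [place, Sum.elim_inl,
          Sum.elim_inr, id] at h
        · subst h; exact (h1 j).2.2
        · subst h; exact (h2 d).2.2.2
        · have : j = β c - 1 := by rw [h]; ring
          subst this; exact (h2 c).2.1.2
        · exact absurd h (hβ c d)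
      · rcases u with i | c <;> rcases v with j | d <;> simp only [place, Sum.elim_inl,
          Sum.elim_inr, id] at h
        · subst h; exact (h1 i).2.1
        · have : i = β d - 1 := by rw [h]; ring
          subst this; exact (h2 d).2.1.1
        · subst h; exact (h2 c).2.2.1
        · exact absurd h (hβ d c)
    rintro ⟨u, a⟩ ⟨v, b⟩ ⟨hab, huv⟩
    simp only at hab huv
    cases a <;> cases b
    · exact absurd rfl hab
    · exact key u v huv
    · refine (key v u ?_).symm
      rcases huv with h | h | h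
      · exact Or.inl h.symm
      · exact Or.inr (Or.inr h)
      · exact Or.inr (Or.inl h)
    · exact absurd rfl hab

open Classical in
/-- the number of homomorphisms -/
theorem card_more (G : SimpleGraph X) (k : ℕ) [NeZero k] (β : Bool → ZMod k)
    (hβ : ∀ c d, β c ≠ β d + 1) :
    (Nat.card (moreRungs k β →g G) : ℝ) = ∑ z : ZMod k → X × X,
      (∏ i, (mu G (z i) * nn G (z i) (z (i + 1)))) *
        ∏ c, bb (mu G) (nn G) (z (β c - 1)) (z (β c + 1)) := by
  rw [card_hom]
  rw [← (pairEquiv (ZMod k ⊕ Bool) X).symm.sum_comp]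
  rw [← (Equiv.sumArrowEquivProdArrow (ZMod k) Bool (X × X)).symm.sum_comp,
    Fintype.sum_prod_type]
  refine sum_congr rfl fun z _ => ?_
  have h1 : ∀ e : Bool → X × X,
      (if IsHom (moreRungs k β) G ((pairEquiv _ _).symm
        ((Equiv.sumArrowEquivProdArrow (ZMod k) Bool (X × X)).symm (z, e))) then (1 : ℝ) else 0) =
      (∏ i, (mu G (z i) * nn G (z i) (z (i + 1)))) *
        ∏ c, (mu G (e c) * nn G (z (β c - 1)) (e c) * nn G (e c) (z (β c + 1))) := by
    intro e
    by_cases h : IsHom (moreRungs k β) G ((pairEquiv _ _).symm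
        ((Equiv.sumArrowEquivProdArrow (ZMod k) Bool (X × X)).symm (z, e)))
    · rw [if_pos h]
      obtain ⟨h2, h3⟩ := (hom_iff G k β _ hβ).mp h
      have e1 : ∏ i, (mu G (z i) * nn G (z i) (z (i + 1))) = 1 := by
        refine prod_eq_one fun i _ => ?_
        have g1 : G.Adj (z i).1 (z i).2 := (h2 i).1
        have g2 : G.Adj (z i).1 (z (i + 1)).2 := (h2 i).2.1
        have g3 : G.Adj (z (i + 1)).1 (z i).2 := (h2 i).2.2
        unfold mu nn
        rw [adj_one g1, adj_one g2, adj_one g3]
        norm_num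
      have e2 : ∏ c, (mu G (e c) * nn G (z (β c - 1)) (e c) * nn G (e c) (z (β c + 1))) = 1 := by
        refine prod_eq_one fun c _ => ?_
        have g1 : G.Adj (e c).1 (e c).2 := (h3 c).1
        have g2 : G.Adj (z (β c - 1)).1 (e c).2 := (h3 c).2.1.1
        have g3 : G.Adj (e c).1 (z (β c - 1)).2 := (h3 c).2.1.2
        have g4 : G.Adj (e c).1 (z (β c + 1)).2 := (h3 c).2.2.1
        have g5 : G.Adj (z (β c + 1)).1 (e c).2 := (h3 c).2.2.2
        unfold mu nn
        rw [adj_one g1, adj_one g2, adj_one g3, adj_one g4, adj_one g5]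
        norm_num
      rw [e1, e2, one_mul]
    · rw [if_neg h]
      by_contra hne
      apply h
      have hne' := Ne.symm hne
      have n1 := left_ne_zero_of_mul hne'
      have n2 := right_ne_zero_of_mul hne'
      rw [prod_ne_zero_iff] at n1 n2
      refine (hom_iff G k β _ hβ).mpr ⟨fun i => ?_, fun c => ?_⟩
      · have n3 := n1 i (mem_univ i)
        have n4 := nn_ne (right_ne_zero_of_mul n3)
        exact ⟨adj_ne (left_ne_zero_of_mul n3), n4.1, n4.2⟩
      · have n3 := n2 c (mem_univ c)
        have n4 := nn_ne (right_ne_zero_of_mul n3)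
        have n5 := nn_ne (right_ne_zero_of_mul (left_ne_zero_of_mul n3))
        have n6 := left_ne_zero_of_mul (left_ne_zero_of_mul n3)
        exact ⟨adj_ne n6, ⟨n5.1, n5.2⟩, n4.1, n4.2⟩
  simp only [h1]
  rw [← mul_sum]
  congr 1
  unfold bb
  rw [Finset.prod_univ_sum, Fintype.piFinset_univ]

end

end Vale.Agent.P050.H223.Dbl
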