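import Vale.Agent.P050.H223.Chord2
import Vale.Agent.P050.H177.Main
import Vale.Agent.P050.Tmpl.Ex

/-!
Chord graphs, in particular Möbius ladders with an odd number of rungs minus one rail edge, satisfy
the two-sided Sidorenko inequality.
-/

namespace Vale.Agent.P050.H223

open Finset Vale.Agent.P050.Tmpl Vale.Agent.P050.H177 Vale.Agent.P050.Lev

theorem k22_gsid : GSid K22 (Prod.fst : Bool × Bool → Bool) := by
  have hs : ∀ u v, K22.Adj u v → u.1 ≠ v.1 := fun _ _ h => h
  obtain ⟨C, hC⟩ := starGrown_of_dominating (H := K22) (s := Prod.fst) hs (y := (false, false))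
    (fun u hu => hu)
  exact starGrown_gsid hs hC

theorem two_le_card : 2 ≤ Nat.card K22.edgeSet := by
  classical
  rw [← card_sideEdges K22 (Prod.fst : Bool × Bool → Bool) k22_gsid.1]
  have h : ({((false, false), (true, false)), ((false, true), (true, false))} :
      Finset ((Bool × Bool) × (Bool × Bool))) ⊆ sideEdges K22 Prod.fst := by
    intro e he
    simp only [Finset.mem_insert, Finset.mem_singleton] at he
    unfold sideEdges
    refine (Finset.mem_filter (p := _)).2 ?_
    rcases he with rfl | rfl
    · exact ⟨Finset.mem_univ _, fun h => Bool.noConfusion h, rfl, rfl⟩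
    · exact ⟨Finset.mem_univ _, fun h => Bool.noConfusion h, rfl, rfl⟩
  exact (by decide : 2 = ({((false, false), (true, false)), ((false, true), (true, false))} :
      Finset ((Bool × Bool) × (Bool × Bool))).card).le.trans (Finset.card_le_card h)

theorem card_side (b : Bool) :
    (univ.filter fun p : Bool × Bool => p.1 = b).card ≤ Nat.card K22.edgeSet := by
  refine le_trans ?_ two_le_card
  cases b <;> decide

theorem thin_last (j : ℕ) : Thin (SimpleGraph.pathGraph (j + 2)) {0}
    (univ.filter fun v => v ∉ ({0} : Finset (Fin (j + 2))) ∧ lastV j v = true) := by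
  have h : (univ.filter fun v => v ∉ ({0} : Finset (Fin (j + 2))) ∧ lastV j v = true) =
      insert (Fin.last (j + 1)) ∅ := by
    ext v
    simp only [Finset.mem_filter, Finset.mem_univ, true_and, Finset.mem_singleton, lastV,
      decide_eq_true_eq, Finset.mem_insert, Finset.notMem_empty, or_false, Fin.ext_iff,
      Fin.val_last, Fin.val_zero]
    omega
  rw [h]
  refine Thin.insert _ Thin.empty ?_ (by simp) ?_
  · simp only [Finset.mem_singleton, Fin.ext_iff, Fin.val_last, Fin.val_zero]
    omega
  · intro x hx y hy _ _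
    simp only [Finset.union_empty, Finset.mem_singleton] at hx hy
    rw [hx, hy]

/-- The graph on `0, …, n - 1` in which `i` and `i'` are adjacent iff `|i - i'|` is `1` or `2 j + 1`,
where `n + l = 4 j + 3` and `l ≤ j`, satisfies the two-sided Sidorenko inequality. -/
theorem chordGraph_gsid {j l n : ℕ} (hl : l ≤ j) (hn : n + l = 4 * j + 3) :
    GSid (chordGraph (2 * j + 1) n) fun i => decide ((i : ℕ) % 2 = 1) := by
  obtain ⟨C, M, hN, D, N, hE⟩ := exists_gchord_net hl hn
  refine sub_gsid (G := K22) (t := Prod.fst) (H₀ := SimpleGraph.pathGraph (j + 2))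
    (s₀ := fun v => decide ((2 * j + 1 - l + (v : ℕ)) % 2 = 1)) (C₀ := C) (M₀ := M)
    k22_gsid ⟨(false, false), (true, false), by simp [K22]⟩ card_side ?_ hN {0} (lastV j)
    (Or.inl (thin_last j)) ?_ (gEmb_injective hl hn) (gEmb_adj hl hn) ?_ hE
  · intro u v huv
    rw [SimpleGraph.pathGraph_adj] at huv
    simp only [ne_eq, decide_eq_decide]
    omega
  · intro u v huv
    simp only [chordGraph] at huv
    simp only [ne_eq, decide_eq_decide]
    omega
  · intro a
    rcases a with ⟨x, hx⟩ | ⟨⟨⟨a, c⟩, v⟩, hv⟩
    · simp only [Finset.mem_singleton] at hx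
      subst hx
      exact decide_eq_decide.2 Iff.rfl
    · change decide ((chordVal j _ - l) % 2 = 1) = decide ((2 * j + 1 - l + (v : ℕ)) % 2 = 1)
      rw [decide_eq_decide]
      obtain ⟨h1, ⟨rfl, h2⟩ | ⟨rfl, h2⟩⟩ := inr_facts hv <;> rcases c <;>
        simp only [chordVal_ff, chordVal_ft, chordVal_tf, chordVal_tt] <;> omega

end Vale.Agent.P050.H223
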