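import Vale.Agent.P050.H223.Chord3
import Vale.Agent.P050.H223.Example

/-!
The chord graphs with `n` vertices, `k + 2 ≤ n ≤ 2 k + 1`, `k` odd, satisfy the two-sided Sidorenko
inequality.
-/

namespace Vale.Agent.P050.H223.Two

open Finset Vale.Agent.P050.Tmpl Vale.Agent.P050.H177 Vale.Agent.P050.Lev Vale.Agent.P050.H223

theorem chordGraph_gsid_two {j l r n : ℕ} (hl : l ≤ j) (hr : r ≤ j) (hn : n + l + r = 4 * j + 3) :
    GSid (chordGraph (2 * j + 1) n) fun i => decide ((i : ℕ) % 2 = 1) := by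
  obtain ⟨C, M, hN, D, N, hE⟩ := exists_gchord_net hl hr hn
  refine sub_gsid (G := K22) (t := Prod.fst) (H₀ := SimpleGraph.pathGraph (j + 2))
    (s₀ := fun v => decide ((2 * j + 1 - l + (v : ℕ)) % 2 = 1)) (C₀ := C) (M₀ := M)
    k22_gsid ⟨(false, false), (true, false), by simp [K22]⟩ card_side ?_ hN {0} (lastV j)
    (Or.inl (thin_last j)) ?_ (gEmb_injective hl hr hn) (gEmb_adj hl hr hn) ?_ hE
  · intro u v huv
    rw [SimpleGraph.pathGraph_adj] at huv
    simp only [ne_eq, decide_eq_decide]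
    omega
  · intro u v huv
    simp only [chordGraph] at huv
    simp only [ne_eq, decide_eq_decide]
    omega
  · intro a
    rcases a with ⟨x, hx⟩ | ⟨⟨⟨a, c⟩, v⟩, hv⟩
    · simp only [Finset.mem_singleton] at hx
      subst hx
      exact decide_eq_decide.2 Iff.rfl
    · change decide ((chordVal j _ - l) % 2 = 1) = decide ((2 * j + 1 - l + (v : ℕ)) % 2 = 1)
      rw [decide_eq_decide]
      obtain ⟨h1, ⟨rfl, h2⟩ | ⟨rfl, h2⟩⟩ := inr_facts hv <;> rcases c <;>
        simp only [chordVal_ff, chordVal_ft, chordVal_tf, chordVal_tt] <;> omega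

/-- For odd `k` and `k + 2 ≤ n ≤ 2 k + 1` the graph on `0, …, n - 1` in which `i` and `i'` are
adjacent iff `|i - i'|` is `1` or `k` satisfies the two-sided Sidorenko inequality. -/
theorem chordGraph_gsid_range {k n : ℕ} (hk : k % 2 = 1) (h1 : k + 2 ≤ n) (h2 : n ≤ 2 * k + 1) :
    GSid (chordGraph k n) fun i => decide ((i : ℕ) % 2 = 1) := by
  obtain ⟨j, rfl⟩ : ∃ j, k = 2 * j + 1 := ⟨k / 2, by omega⟩
  rcases Nat.lt_or_ge (4 * j + 3 - n) j with h | h
  · exact chordGraph_gsid_two (j := j) (l := 4 * j + 3 - n) (r := 0) (by omega) (by omega)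
      (by omega)
  · exact chordGraph_gsid_two (j := j) (l := j) (r := 4 * j + 3 - n - j) (by omega) (by omega)
      (by omega)

end Vale.Agent.P050.H223.Two
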