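import Vale.Agent.P050.H177.NetDefs

/-!
The path with one half of a Möbius ladder on each side is net-grown over a substitution.
-/

namespace Vale.Agent.P050.H223

open Vale.Agent.P050.Tmpl Vale.Agent.P050.H177

/-- One step of the ladder lemma, with `n` rungs still to go. -/
private theorem ladder_aux {V : Type} [DecidableEq V] {H : SimpleGraph V} {S₀ : Finset V}
    {C₀ : V → Finset V → Prop} {M₀ : V → Finset V → Finset V → Prop} {S : Finset V}
    {C : V → Finset V → Prop} {M : V → Finset V → Finset V → Prop}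
    (h : NetExt H S₀ C₀ M₀ S C M) (t b : ℕ → V) (j l : ℕ)
    (hb : ∀ i, l ≤ i → i < j → b i ∉ S)
    (hinj : ∀ i, l ≤ i → i < j → ∀ i', l ≤ i' → i' < j → b i = b i' → i = i')
    (hadj : ∀ i, l ≤ i → i < j → ∀ x, (x ∈ S ∨ ∃ i', i < i' ∧ i' < j ∧ x = b i') →
      (H.Adj (b i) x ↔ x = t i ∨ x = b (i + 1)))
    (hCj : 1 ≤ j → C (t j) {t (j - 1), b j})
    (hC : ∀ i, 1 ≤ i → i < j → C (t i) {t (i - 1)})
    (hM : ∀ i, 1 ≤ i → i < j → ∃ A B, M (t i) A B ∧ t (i - 1) ∈ A ∧
      (∀ i', i < i' → i' ≤ j → t i' ∈ B) ∧ b j ∈ B) :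
    ∀ n m : ℕ, n + m = j → l ≤ n → ∃ C' M',
      NetExt H S₀ C₀ M₀ (S ∪ (Finset.Ico n j).image b) C' M' ∧
      (∀ v D, C v D → C' v D) ∧ (∀ v A B, M v A B → M' v A B) ∧
      (1 ≤ n → C' (t n) {t (n - 1), b n}) ∧
      (∀ i, 1 ≤ i → i < n → ∃ A B, M' (t i) A B ∧ t (i - 1) ∈ A ∧
        (∀ i', i < i' → i' ≤ j → t i' ∈ B) ∧ b n ∈ B) := by
  intro n m
  induction m generalizing n with
  | zero =>
    intro hn hln
    simp only [add_zero] at hn
    subst hn
    refine ⟨C, M, ?_, fun _ _ h => h, fun _ _ _ h => h, hCj, hM⟩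
    simpa using h
  | succ m ih =>
    intro hn hln
    obtain ⟨C', M', hN, hCC, hMM, hst, hsep⟩ := ih (n + 1) (by omega) (by omega)
    have hnj : n < j := by omega
    have hcop := hst (by omega)
    simp only [Nat.add_sub_cancel] at hcop
    -- the new vertex
    have hw : b n ∉ S ∪ (Finset.Ico (n + 1) j).image b := by
      simp only [Finset.mem_union, Finset.mem_image, Finset.mem_Ico, not_or, not_exists, not_and]
      refine ⟨hb n hln hnj, fun i hi he => ?_⟩
      have := hinj i (by omega) hi.2 n hln hnj he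
      omega
    have hD : ∀ x ∈ S ∪ (Finset.Ico (n + 1) j).image b,
        H.Adj (b n) x ↔ x ∈ ({t n, b (n + 1)} : Finset V) := by
      intro x hx
      rw [hadj n hln hnj x ?_]
      · simp
      · simp only [Finset.mem_union, Finset.mem_image, Finset.mem_Ico] at hx
        rcases hx with hx | ⟨i, hi, rfl⟩
        · exact Or.inl hx
        · exact Or.inr ⟨i, by omega, hi.2, rfl⟩
    have hN' := NetExt.copy (b n) (t (n + 1)) {t n, b (n + 1)} {t n, b (n + 1)} hN hw hcop
      subset_rfl (by simp) hD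
    have hS : insert (b n) (S ∪ (Finset.Ico (n + 1) j).image b) =
        S ∪ (Finset.Ico n j).image b := by
      rw [← Finset.insert_Ico_succ_left_eq_Ico hnj, Finset.image_insert, Finset.union_insert]
      rfl
    rw [hS] at hN'
    -- the separations
    have hsep' : ∀ i, 1 ≤ i → i < n + 1 → ∃ A B,
        NextM (S ∪ (Finset.Ico (n + 1) j).image b) M' (b n) {t n, b (n + 1)} (t i) A B ∧
        t (i - 1) ∈ A ∧ (∀ i', i < i' → i' ≤ j → t i' ∈ B) ∧ b n ∈ B := by
      intro i hi hin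
      obtain ⟨A, B, hAB, hA, hB, hbB⟩ := hsep i hi hin
      refine ⟨A, insert (b n) B, Or.inr ⟨B, Or.inl hAB, ?_, rfl⟩, hA, fun i' h1 h2 =>
        Finset.mem_insert_of_mem (hB i' h1 h2), Finset.mem_insert_self _ _⟩
      intro x hx
      simp only [Finset.mem_insert, Finset.mem_singleton] at hx ⊢
      rcases hx with rfl | rfl
      · rcases Nat.lt_or_ge i n with h1 | h1
        · exact Or.inr (hB n h1 hnj.le)
        · have : i = n := by omega
          subst this
          exact Or.inl rfl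
      · exact Or.inr hbB
    rcases Nat.eq_zero_or_pos n with h0 | h0
    · subst h0
      refine ⟨_, _, hN', fun v D hv => Or.inl (hCC v D hv), fun v A B hv => Or.inl (hMM v A B hv),
        fun h => by omega, fun i hi hi' => by omega⟩
    · obtain ⟨A, B, hAB, hA, -, hbB⟩ := hsep' n h0 (by omega)
      have h1 : (C' (t n) {t (n - 1)} ∨ (t n = b n ∧ ({t (n - 1)} : Finset V) = {t n, b (n + 1)}) ∨
          (t n ∈ ({t n, b (n + 1)} : Finset V) ∧ ({t (n - 1)} : Finset V) = {b n})) :=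
        Or.inl (hCC _ _ (hC n h0 hnj))
      have hN'' := NetExt.star (t n) A B {t (n - 1)} {b n} hN' h1
        (Or.inr (Or.inr ⟨by simp, rfl⟩)) hAB (by simpa using hA) (by simpa using hbB)
      refine ⟨_, _, hN'', fun v D hv => Or.inl (Or.inl (hCC v D hv)),
        fun v A B hv => Or.inl (hMM v A B hv), fun _ => Or.inr ⟨rfl, ?_⟩, fun i hi hi' =>
          hsep' i hi (by omega)⟩
      ext x
      simp

/-- **Ladder lemma**: if a path `t 0, …, t j` and a vertex `b j` with the star `{t (j - 1), b j}` at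
`t j` are given, with separations along the path, then one can add the vertices `b (j - 1), …, b l`
such that `b i` has the neighbours `t i` and `b (i + 1)`. -/
theorem ladder_from {V : Type} [DecidableEq V] {H : SimpleGraph V} {S₀ : Finset V}
    {C₀ : V → Finset V → Prop} {M₀ : V → Finset V → Finset V → Prop} {S : Finset V}
    {C : V → Finset V → Prop} {M : V → Finset V → Finset V → Prop}
    (h : NetExt H S₀ C₀ M₀ S C M) (t b : ℕ → V) (j l : ℕ) (hl : l ≤ j)
    (hb : ∀ i, l ≤ i → i < j → b i ∉ S)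
    (hinj : ∀ i, l ≤ i → i < j → ∀ i', l ≤ i' → i' < j → b i = b i' → i = i')
    (hadj : ∀ i, l ≤ i → i < j → ∀ x, (x ∈ S ∨ ∃ i', i < i' ∧ i' < j ∧ x = b i') →
      (H.Adj (b i) x ↔ x = t i ∨ x = b (i + 1)))
    (hCj : 1 ≤ j → C (t j) {t (j - 1), b j})
    (hC : ∀ i, 1 ≤ i → i < j → C (t i) {t (i - 1)})
    (hM : ∀ i, 1 ≤ i → i < j → ∃ A B, M (t i) A B ∧ t (i - 1) ∈ A ∧
      (∀ i', i < i' → i' ≤ j → t i' ∈ B) ∧ b j ∈ B) :
    ∃ C' M', NetExt H S₀ C₀ M₀ (S ∪ (Finset.Ico l j).image b) C' M' ∧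
      (∀ v D, C v D → C' v D) ∧ (∀ v A B, M v A B → M' v A B) := by
  obtain ⟨C', M', h1, h2, h3, -⟩ := ladder_aux h t b j l hb hinj hadj hCj hC hM l (j - l)
    (by omega) le_rfl
  exact ⟨C', M', h1, h2, h3⟩

/-- The ladder lemma with all rungs. -/
theorem ladder {V : Type} [DecidableEq V] {H : SimpleGraph V} {S₀ : Finset V}
    {C₀ : V → Finset V → Prop} {M₀ : V → Finset V → Finset V → Prop} {S : Finset V}
    {C : V → Finset V → Prop} {M : V → Finset V → Finset V → Prop}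
    (h : NetExt H S₀ C₀ M₀ S C M) (t b : ℕ → V) (j : ℕ)
    (hb : ∀ i < j, b i ∉ S)
    (hinj : ∀ i < j, ∀ i' < j, b i = b i' → i = i')
    (hadj : ∀ i < j, ∀ x, (x ∈ S ∨ ∃ i', i < i' ∧ i' < j ∧ x = b i') →
      (H.Adj (b i) x ↔ x = t i ∨ x = b (i + 1)))
    (hCj : 1 ≤ j → C (t j) {t (j - 1), b j})
    (hC : ∀ i, 1 ≤ i → i < j → C (t i) {t (i - 1)})
    (hM : ∀ i, 1 ≤ i → i < j → ∃ A B, M (t i) A B ∧ t (i - 1) ∈ A ∧
      (∀ i', i < i' → i' ≤ j → t i' ∈ B) ∧ b j ∈ B) :
    ∃ C' M', NetExt H S₀ C₀ M₀ (S ∪ (Finset.range j).image b) C' M' ∧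
      (∀ v D, C v D → C' v D) ∧ (∀ v A B, M v A B → M' v A B) := by
  rw [Finset.range_eq_Ico]
  exact ladder_from h t b j 0 (Nat.zero_le _) (fun i _ => hb i)
    (fun i _ hi i' _ hi' => hinj i hi i' hi') (fun i _ => hadj i) hCj hC hM

end Vale.Agent.P050.H223
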