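import Vale.Agent.P050.H223.LiftRel

/-!
Bipartite targets.
-/

namespace Vale.Agent.P050.H223.Lift

open Finset Vale.Agent.P050 Vale.Agent.P050.Ultra

theorem bip_swap {A B X Y : Type} [Fintype A] [Fintype B] [Fintype X] [Fintype Y]
    [DecidableEq A] [DecidableEq B] (m : X → ℝ) (n : Y → ℝ) (E : Finset (A × B))
    (W : X → Y → ℝ) :
    bip n m (E.map (Equiv.prodComm A B).toEmbedding) (fun y x => W x y) = bip m n E W := by
  unfold bip
  rw [Finset.sum_comm]
  refine Finset.sum_congr rfl fun x _ => Finset.sum_congr rfl fun y _ => ?_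
  rw [Finset.prod_map]
  simp only [Equiv.coe_toEmbedding, Equiv.prodComm_apply, Prod.fst_swap, Prod.snd_swap]
  ring

theorem good_swap {X Y : Type} [Fintype X] [Fintype Y] {m : X → ℝ} {n : Y → ℝ}
    {W : X → Y → ℝ} (h : BGood m n W) : BGood n m fun y x => W x y := by
  intro A B _ _ _ _ E
  have h1 := h B A (E.map (Equiv.prodComm A B).toEmbedding)
  rw [Finset.card_map] at h1
  have h2 := bip_swap (A := A) (B := B) n m E fun y x => W x y
  have h3 : mean n m (fun y x => W x y) = mean m n W := by
    unfold mean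
    rw [Finset.sum_comm]
    exact Finset.sum_congr rfl fun x _ => Finset.sum_congr rfl fun y _ => by ring
  rw [h3, ← h2]
  exact h1

variable {U₁ U₂ : Type} [Fintype U₁] [Fintype U₂] [Nonempty U₁] [Nonempty U₂]

theorem cross_compose {W : U₁ ⊕ U₂ → U₁ ⊕ U₂ → ℝ} (hW : ∀ x y, 0 ≤ W x y) {b b' : ℝ}
    (h12 : ∀ x y, W (Sum.inl x) (Sum.inl y) = b) (h21 : ∀ x y, W (Sum.inr x) (Sum.inr y) = b')
    (g1 : BGood (Ultra.unif U₁) (Ultra.unif U₂) fun x y => W (Sum.inl x) (Sum.inr y))
    (g2 : BGood (Ultra.unif U₂) (Ultra.unif U₁) fun x y => W (Sum.inr x) (Sum.inl y)) :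
    BGood (Ultra.unif (U₁ ⊕ U₂)) (Ultra.unif (U₁ ⊕ U₂)) W := by
  classical
  set R : Finset (U₁ ⊕ U₂) := univ.image Sum.inl with hR
  have hRc : Rᶜ = univ.image Sum.inr := by
    ext x
    rcases x with x | x <;> simp [hR]
  have hN : (0 : ℝ) < Fintype.card (U₁ ⊕ U₂) := by exact_mod_cast Fintype.card_pos
  have hN1 : (0 : ℝ) < Fintype.card U₁ := by exact_mod_cast Fintype.card_pos
  have hN2 : (0 : ℝ) < Fintype.card U₂ := by exact_mod_cast Fintype.card_pos
  have hcR : (R.card : ℝ) = Fintype.card U₁ := by
    rw [hR, Finset.card_image_of_injective _ Sum.inl_injective, Finset.card_univ]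
  have hcRc : (Rᶜ.card : ℝ) = Fintype.card U₂ := by
    rw [hRc, Finset.card_image_of_injective _ Sum.inr_injective, Finset.card_univ]
  have hs1 : ∑ x ∈ R, Ultra.unif (U₁ ⊕ U₂) x =
      Fintype.card U₁ / Fintype.card (U₁ ⊕ U₂) := by
    unfold Ultra.unif
    rw [Finset.sum_const, nsmul_eq_mul, hcR]
    ring
  have hs2 : ∑ x ∈ Rᶜ, Ultra.unif (U₁ ⊕ U₂) x =
      Fintype.card U₂ / Fintype.card (U₁ ⊕ U₂) := by
    unfold Ultra.unif
    rw [Finset.sum_const, nsmul_eq_mul, hcRc]
    ring
  have hp1 : 0 < ∑ x ∈ R, Ultra.unif (U₁ ⊕ U₂) x := by rw [hs1]; positivity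
  have hp2 : 0 < ∑ x ∈ Rᶜ, Ultra.unif (U₁ ⊕ U₂) x := by rw [hs2]; positivity
  have hc1 : cond (Ultra.unif (U₁ ⊕ U₂)) R = push Sum.inl (Ultra.unif U₁) := by
    funext x
    unfold Ultra.cond Ultra.push
    rw [hs1]
    rcases x with x | x
    · rw [if_pos (by simp [hR])]
      have : (univ.filter fun w : U₁ => (Sum.inl w : U₁ ⊕ U₂) = Sum.inl x) = {x} := by
        ext w; simp
      rw [this, Finset.sum_singleton]
      unfold Ultra.unif
      field_simp
    · rw [if_neg (by simp [hR])]
      simp
  have hc2 : cond (Ultra.unif (U₁ ⊕ U₂)) Rᶜ = push Sum.inr (Ultra.unif U₂) := by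
    funext x
    unfold Ultra.cond Ultra.push
    rw [hs2]
    rcases x with x | x
    · rw [if_neg (by simp [hR])]
      simp
    · rw [if_pos (by simp [hR])]
      have : (univ.filter fun w : U₂ => (Sum.inr w : U₁ ⊕ U₂) = Sum.inr x) = {x} := by
        ext w; simp
      rw [this, Finset.sum_singleton]
      unfold Ultra.unif
      field_simp
  refine blocks_good (S := Rᶜ) (unif_nonneg _) (unif_sum _) (unif_nonneg _) (unif_sum _) hW
    hp1 hp2 hp2 (by rw [compl_compl]; exact hp1) (b := b) (b' := b') ?_ ?_ ?_ ?_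
  · intro x hx y hy
    rcases x with x | x
    · rcases y with y | y
      · exact h12 x y
      · exact absurd (by simp [hR]) hy
    · exact absurd hx (by simp [hR])
  · intro x hx y hy
    rcases x with x | x
    · exact absurd (by simp [hR]) hx
    · rcases y with y | y
      · exact absurd hy (by simp [hR])
      · exact h21 x y
  · rw [hc1, hc2]; exact g1.push_map
  · rw [compl_compl, hc1, hc2]; exact g2.push_map

/-- the bipartite graph of a relation between two types -/
def relGraph {X Y : Type} (r : X → Y → Prop) : SimpleGraph (X ⊕ Y) where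
  Adj
    | Sum.inl x, Sum.inr y => r x y
    | Sum.inr y, Sum.inl x => r x y
    | _, _ => False
  symm := ⟨by
    rintro (x | x) (y | y) h
    · exact h
    · exact h
    · exact h
    · exact h⟩
  loopless := ⟨by
    rintro (x | x) h
    · exact h
    · exact h⟩

open Classical in
/-- If the kernel of a relation is good, then so is its bipartite graph. -/
theorem against_rel {r : U₁ → U₂ → Prop}
    (h : BGood (Ultra.unif U₁) (Ultra.unif U₂) fun x y => if r x y then 1 else 0) :
    SidorenkoAgainst (relGraph r) := by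
  refine against_of_good (cross_compose (adjm_nonneg _) (b := 0) (b' := 0) ?_ ?_ ?_ ?_)
  · intro x y; simp [adjm, relGraph]
  · intro x y; simp [adjm, relGraph]
  · convert h using 3 with x y
    by_cases hr : r x y <;> simp [adjm, relGraph, hr]
  · convert good_swap h using 3 with y x
    by_cases hr : r x y <;> simp [adjm, relGraph, hr]

open Classical in
theorem against_subgroups {X G : Type} [Finite X] [Nonempty X] [Group G] [Finite G]
    (K : X → Subgroup G) : SidorenkoAgainst (relGraph fun x t => t ∈ K x) := by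
  have := Fintype.ofFinite X
  have := Fintype.ofFinite G
  exact against_rel (good_subgroups (unif_nonneg X) (unif_sum X) K)

open Classical in
theorem against_heisenberg {U V Z : Type} [Finite U] [Nonempty U] [Group V] [Finite V]
    [CommGroup Z] [Finite Z] (β : U → V →* Z) :
    SidorenkoAgainst (relGraph fun (p : U × Z) (q : V × Z) => p.2 * q.2 = β p.1 q.1) := by
  have := Fintype.ofFinite U
  have := Fintype.ofFinite V
  have := Fintype.ofFinite Z
  refine against_rel ?_
  convert good_heisenberg (unif_nonneg U) (unif_sum U) β using 1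
  funext p
  simp only [Ultra.unif, Fintype.card_prod]
  push_cast
  rw [one_div, one_div, one_div, mul_inv]

end Vale.Agent.P050.H223.Lift
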