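import Vale.Agent.P050.H223.LiftBip

/-!
Positive definite class functions.
-/

namespace Vale.Agent.P050.H223.Lift

open Finset Vale.Agent.P050 Vale.Agent.P050.Ultra

/-- If `f` is a positive definite class function, then `f (s⁻¹ t)` is positive definite on the
product group. -/
theorem posDef_class {G : Type} [Group G] [Finite G] {f : G → ℝ} (hf : PosDefFn f)
    (hc : ∀ g h, f (g * h) = f (h * g)) : PosDefFn fun g : G × G => f (g.1⁻¹ * g.2) := by
  obtain ⟨n, F, hF⟩ := hf.gr
  refine Gr.posDefFn ⟨n, fun k g => F k (g.2 * g.1⁻¹), fun g h => ?_⟩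
  rw [← hF]
  simp only [Prod.fst_mul, Prod.snd_mul, Prod.fst_inv, Prod.snd_inv, mul_inv_rev, inv_inv]
  have e1 : h.1⁻¹ * g.1 * (g.2⁻¹ * h.2) = h.1⁻¹ * (g.1 * g.2⁻¹ * h.2) := by group
  rw [e1, hc]
  congr 1
  group

/-- Kernels `f (s⁻¹ t)` with a positive definite class function `f`. -/
theorem good_class {G : Type} [Group G] [Fintype G] {f : G → ℝ} (hf : PosDefFn f)
    (hc : ∀ g h, f (g * h) = f (h * g)) :
    BGood (Ultra.unif G) (Ultra.unif G) fun s t => f (s⁻¹ * t) :=
  good_pd_one (posDef_class hf hc)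

end Vale.Agent.P050.H223.Lift
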