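import Vale.Agent.P050.H223.LiftMono
import Vale.Agent.P050.Ultra.Join

/-!
Consequences of the lifting theorems.
-/

namespace Vale.Agent.P050.H223.Lift

open Finset Vale.Agent.P050 Vale.Agent.P050.Ultra

section equiv

variable {X X' Y Y' : Type} [Fintype X] [Fintype X'] [Fintype Y] [Fintype Y']

theorem bip_equiv {A B : Type} [Fintype A] [Fintype B] [DecidableEq A] [DecidableEq B]
    (e : X' ≃ X) (f : Y' ≃ Y) (m : X → ℝ) (n : Y → ℝ) (E : Finset (A × B)) (W : X → Y → ℝ) :
    bip m n E W = bip (fun i => m (e i)) (fun j => n (f j)) E fun i j => W (e i) (f j) := by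
  unfold bip
  rw [← Equiv.sum_comp (Equiv.piCongrRight fun _ : A => e)]
  refine Finset.sum_congr rfl fun x _ => ?_
  rw [← Equiv.sum_comp (Equiv.piCongrRight fun _ : B => f)]
  rfl

theorem good_equiv (e : X' ≃ X) (f : Y' ≃ Y) {m : X → ℝ} {n : Y → ℝ} {W : X → Y → ℝ}
    (h : BGood (fun i => m (e i)) (fun j => n (f j)) fun i j => W (e i) (f j)) :
    BGood m n W := by
  intro A B _ _ _ _ E
  rw [mean_eq_bip, bip_equiv e f, bip_equiv e f, ← mean_eq_bip]
  exact h A B E

end equiv

section basic

variable {X Y : Type} [Fintype X] [Fintype Y]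

/-- kernels which depend on one side only -/
theorem good_row {m : X → ℝ} {n : Y → ℝ} (hm : ∀ x, 0 ≤ m x) (hm1 : ∑ x, m x = 1)
    (hn1 : ∑ y, n y = 1) {k : X → ℝ} (hk : ∀ x, 0 ≤ k x) : BGood m n fun x _ => k x := by
  classical
  intro A B _ _ _ _ E
  have h1 : mean m n (fun x _ => k x) = ∑ x, m x * k x := by
    unfold mean
    refine Finset.sum_congr rfl fun x _ => ?_
    have : ∀ y, m x * n y * k x = m x * k x * n y := fun y => by ring
    simp only [this, ← Finset.mul_sum, hn1, mul_one]
  have h2 : bip m n E (fun x _ => k x) =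
      ∏ a : A, ∑ x, m x * k x ^ (E.filter fun e => e.1 = a).card := by
    unfold bip
    have h3 : ∀ x : A → X, (∑ y : B → Y, (∏ a, m (x a)) * (∏ b, n (y b)) *
        ∏ e ∈ E, k (x e.1)) = ∏ a, m (x a) * k (x a) ^ (E.filter fun e => e.1 = a).card := by
      intro x
      have h4 : ∑ y : B → Y, ∏ b, n (y b) = 1 := by
        have := sum_pi_one (R := fun _ : B => Y) (fun _ => n) fun _ => hn1
        exact this
      have h5 : ∏ e ∈ E, k (x e.1) = ∏ a, k (x a) ^ (E.filter fun e => e.1 = a).card := by
        rw [← Finset.prod_fiberwise E (fun e => e.1) fun e => k (x e.1)]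
        refine Finset.prod_congr rfl fun a _ => ?_
        rw [← Finset.prod_const]
        refine Finset.prod_congr rfl fun e he => ?_
        rw [(Finset.mem_filter.1 he).2]
      have h6 : ∀ y : B → Y, (∏ a, m (x a)) * (∏ b, n (y b)) * ∏ e ∈ E, k (x e.1) =
          ((∏ a, m (x a)) * ∏ e ∈ E, k (x e.1)) * ∏ b, n (y b) := fun y => by ring
      simp only [h6]
      rw [← Finset.mul_sum, h4, mul_one, h5, ← Finset.prod_mul_distrib]
    simp only [h3]
    have := Finset.prod_univ_sum (fun _ : A => (univ : Finset X))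
      fun a x => m x * k x ^ (E.filter fun e => e.1 = a).card
    rw [Fintype.piFinset_univ] at this
    exact this.symm
  rw [h1, h2]
  have h3 : ∏ a : A, (∑ x, m x * k x) ^ (E.filter fun e => e.1 = a).card =
      (∑ x, m x * k x) ^ E.card := by
    rw [Finset.prod_pow_eq_pow_sum]
    congr 1
    exact (Finset.card_eq_sum_card_fiberwise fun e _ => Finset.mem_coe.2 (mem_univ e.1)).symm
  rw [← h3]
  refine Finset.prod_le_prod (fun a _ => pow_nonneg (Finset.sum_nonneg fun x _ =>
    mul_nonneg (hm x) (hk x)) _) fun a _ => ?_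
  exact Real.pow_arith_mean_le_arith_mean_pow univ m k (fun x _ => hm x) hm1
    (fun x _ => hk x) _

theorem good_const {m : X → ℝ} {n : Y → ℝ} (hm : ∀ x, 0 ≤ m x) (hm1 : ∑ x, m x = 1)
    (hn1 : ∑ y, n y = 1) {c : ℝ} (hc : 0 ≤ c) : BGood m n fun _ _ => c :=
  good_row hm hm1 hn1 fun _ => hc

end basic

section gram

variable {P : Type} [Group P] [Finite P]

theorem Gr.posDefFn {ψ : P → ℝ} (h : Gr ψ) : PosDefFn ψ := by
  obtain ⟨n, F, hF⟩ := h
  refine Matrix.posSemidef_iff_eq_sum_vecMulVec.2 ⟨n, F, ?_⟩
  ext g k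
  rw [Matrix.sum_apply]
  simpa [Matrix.vecMulVec_apply] using hF g k

open Classical in
/-- the indicator function of a subgroup is positive definite -/
theorem gr_subgroup (K : Subgroup P) : Gr fun g => if g ∈ K then (1 : ℝ) else 0 := by
  have := Fintype.ofFinite (P ⧸ K)
  refine ⟨Fintype.card (P ⧸ K), fun i g =>
    if (QuotientGroup.mk g : P ⧸ K) = (Fintype.equivFin (P ⧸ K)).symm i then 1 else 0,
    fun g h => ?_⟩
  rw [← Equiv.sum_comp (Fintype.equivFin (P ⧸ K))]
  simp only [Equiv.symm_apply_apply]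
  have h1 : ∀ c : P ⧸ K, ((if (QuotientGroup.mk g : P ⧸ K) = c then (1 : ℝ) else 0) *
      if (QuotientGroup.mk h : P ⧸ K) = c then 1 else 0) =
      if (QuotientGroup.mk g : P ⧸ K) = c then
        (if (QuotientGroup.mk h : P ⧸ K) = c then 1 else 0) else 0 := by
    intro c
    split_ifs <;> simp
  simp only [h1]
  rw [Finset.sum_ite_eq univ (QuotientGroup.mk g : P ⧸ K)]
  simp only [Finset.mem_univ, if_true]
  have h2 : ((QuotientGroup.mk h : P ⧸ K) = QuotientGroup.mk g) ↔ g⁻¹ * h ∈ K := by
    rw [eq_comm, QuotientGroup.eq]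
  simp only [h2]

open Classical in
theorem posDef_subgroup (K : Subgroup P) : PosDefFn fun g => if g ∈ K then (1 : ℝ) else 0 :=
  (gr_subgroup K).posDefFn

end gram

section targets

/-- A positive definite kernel on a product of two finite groups. -/
theorem good_pd_one {S T : Type} [Group S] [Group T] [Fintype S] [Fintype T] {φ : S → T → ℝ}
    (hφ : PosDefFn fun g : S × T => φ g.1 g.2) : BGood (Ultra.unif S) (Ultra.unif T) φ := by
  have h1 := good_pd (U := Unit) (V := Unit) (S := fun _ => S) (T := fun _ => T)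
    (m := fun _ => 1) (n := fun _ => 1) (φ := fun _ _ => φ) (fun _ => zero_le_one)
    (fun _ => zero_le_one) (fun _ _ => hφ) ?_
  · refine good_equiv (X' := Σ _ : Unit, S) (Y' := Σ _ : Unit, T)
      ((Equiv.sigmaEquivProd Unit S).trans (Equiv.punitProd S))
      ((Equiv.sigmaEquivProd Unit T).trans (Equiv.punitProd T)) ?_
    convert h1 using 1
    · funext p
      simp [liftWeight, uw, Ultra.unif]
    · funext p
      simp [liftWeight, uw, Ultra.unif]
    · rfl
  · have h2 : baseKernel (uw fun _ : Unit => S) (uw fun _ : Unit => T) (fun _ _ => φ) =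
        fun _ _ => mean (Ultra.unif S) (Ultra.unif T) φ := by
      funext u v
      rfl
    rw [h2]
    refine good_const (fun _ => zero_le_one) (by simp) (by simp) ?_
    have h3 := hφ.gr.avg_nonneg
    have h4 : (avg fun g : S × T => φ g.1 g.2) = mean (Ultra.unif S) (Ultra.unif T) φ := by
      unfold avg mean Ultra.unif
      rw [Fintype.sum_prod_type, Fintype.card_prod, Finset.sum_div]
      refine Finset.sum_congr rfl fun s _ => ?_
      rw [Finset.sum_div]
      refine Finset.sum_congr rfl fun t _ => ?_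
      push_cast
      rw [div_eq_mul_inv, mul_inv, one_div, one_div]
      ring
    rwa [← h4]

open Classical in
/-- Subgroups: the relation `t ∈ K x` between a set and a group. -/
theorem good_subgroups {X G : Type} [Fintype X] [Group G] [Fintype G] {m : X → ℝ}
    (hm : ∀ x, 0 ≤ m x) (hm1 : ∑ x, m x = 1) (K : X → Subgroup G) :
    BGood m (Ultra.unif G) fun x t => if t ∈ K x then 1 else 0 := by
  have h1 := good_pd (U := X) (V := Unit) (S := fun _ => Unit) (T := fun _ => G)
    (m := m) (n := fun _ => 1) (φ := fun x _ _ t => if t ∈ K x then (1 : ℝ) else 0) hm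
    (fun _ => zero_le_one) (fun x _ => ?_) ?_
  · refine good_equiv (X' := Σ _ : X, Unit) (Y' := Σ _ : Unit, G)
      ((Equiv.sigmaEquivProd X Unit).trans (Equiv.prodPUnit X))
      ((Equiv.sigmaEquivProd Unit G).trans (Equiv.punitProd G)) ?_
    convert h1 using 1
    · funext p
      simp [liftWeight, uw]
    · funext p
      simp [liftWeight, uw, Ultra.unif]
    · rfl
  · have := gr_subgroup ((K x).comap (MonoidHom.snd Unit G))
    simpa using this.posDefFn
  · have h2 : baseKernel (uw fun _ : X => Unit) (uw fun _ : Unit => G)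
        (fun x _ _ t => if t ∈ K x then (1 : ℝ) else 0) = fun x _ =>
        mean (Ultra.unif Unit) (Ultra.unif G) fun _ t => if t ∈ K x then (1 : ℝ) else 0 := by
      funext u v
      rfl
    rw [h2]
    refine good_row hm hm1 (by simp) fun x => ?_
    unfold mean Ultra.unif
    refine Finset.sum_nonneg fun _ _ => Finset.sum_nonneg fun _ _ => ?_
    dsimp only
    split_ifs <;> positivity

open Classical in
/-- The commuting relation of a finite group. -/
theorem good_commute (G : Type) [Group G] [Fintype G] :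
    BGood (Ultra.unif G) (Ultra.unif G) fun x y => if x * y = y * x then 1 else 0 := by
  have h := good_subgroups (Ultra.unif_nonneg G) (Ultra.unif_sum G)
    fun x => Subgroup.centralizer {x}
  convert h using 5 with x y
  rw [Subgroup.mem_centralizer_singleton_iff, eq_comm]

theorem avg_eq_mean {S T : Type} [Group S] [Group T] [Fintype S] [Fintype T] (φ : S → T → ℝ) :
    (avg fun g : S × T => φ g.1 g.2) = mean (Ultra.unif S) (Ultra.unif T) φ := by
  unfold avg mean Ultra.unif
  rw [Fintype.sum_prod_type, Fintype.card_prod, Finset.sum_div]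
  refine Finset.sum_congr rfl fun s _ => ?_
  rw [Finset.sum_div]
  refine Finset.sum_congr rfl fun t _ => ?_
  push_cast
  rw [div_eq_mul_inv, mul_inv, one_div, one_div]
  ring

open Classical in
theorem avg_subgroup {P : Type} [Group P] [Fintype P] (K : Subgroup P) :
    (avg fun g : P => if g ∈ K then (1 : ℝ) else 0) = 1 / (K.index : ℝ) := by
  unfold avg
  rw [Finset.sum_boole]
  have h1 : (univ.filter fun g => g ∈ K).card = Nat.card K := by
    rw [Nat.card_eq_fintype_card, Fintype.card_subtype]
  have h2 : Nat.card K * K.index = Fintype.card P := by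
    rw [K.card_mul_index, Nat.card_eq_fintype_card]
  have h3 : (K.index : ℝ) ≠ 0 := by
    exact_mod_cast K.index_ne_zero_of_finite
  have h4 : (Fintype.card P : ℝ) ≠ 0 := by exact_mod_cast Fintype.card_ne_zero
  rw [h1, div_eq_div_iff h4 h3, one_mul, ← h2]
  push_cast
  rfl

open Classical in
/-- Lifts by subgroups. -/
theorem good_subgroup_lift {U V : Type} {S : U → Type} {T : V → Type} [Fintype U] [Fintype V]
    [∀ u, Fintype (S u)] [∀ v, Fintype (T v)] [∀ u, Group (S u)] [∀ v, Group (T v)]
    {m : U → ℝ} {n : V → ℝ} (hm : ∀ u, 0 ≤ m u) (hn : ∀ v, 0 ≤ n v)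
    (K : ∀ u v, Subgroup (S u × T v))
    (h : BGood m n fun u v => 1 / ((K u v).index : ℝ)) :
    BGood (liftWeight m (uw S)) (liftWeight n (uw T)) fun p q =>
      if (p.2, q.2) ∈ K p.1 q.1 then 1 else 0 := by
  have h1 := good_pd (φ := fun u v s t => if (s, t) ∈ K u v then (1 : ℝ) else 0) hm hn
    (fun u v => posDef_subgroup (K u v)) ?_
  · exact h1
  · convert h using 1
    funext u v
    rw [← avg_subgroup]
    exact (avg_eq_mean fun s t => if (s, t) ∈ K u v then (1 : ℝ) else 0).symm

open Classical in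
/-- Heisenberg targets: `s t = β u v`, where `β u` is a homomorphism for each `u`. -/
theorem good_heisenberg {U V Z : Type} [Fintype U] [Group V] [Fintype V] [CommGroup Z]
    [Fintype Z] {m : U → ℝ} (hm : ∀ u, 0 ≤ m u) (hm1 : ∑ u, m u = 1) (β : U → V →* Z) :
    BGood (fun p : U × Z => m p.1 * Ultra.unif Z p.2) (Ultra.unif (V × Z)) fun p q =>
      if p.2 * q.2 = β p.1 q.1 then 1 else 0 := by
  let f : U → (Z × (V × Z)) →* Z := fun u =>
    (MonoidHom.fst Z (V × Z) * (MonoidHom.snd V Z).comp (MonoidHom.snd Z (V × Z))) *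
      ((β u).comp ((MonoidHom.fst V Z).comp (MonoidHom.snd Z (V × Z))))⁻¹
  have hf : ∀ u s v t, (s, (v, t)) ∈ (f u).ker ↔ s * t = β u v := by
    intro u s v t
    rw [MonoidHom.mem_ker]
    simp [f, mul_inv_eq_one]
  have h1 := good_subgroup_lift (U := U) (V := Unit) (S := fun _ => Z) (T := fun _ => V × Z)
    (m := m) (n := fun _ => 1) hm (fun _ => zero_le_one) (fun u _ => (f u).ker)
    (good_row hm hm1 (by simp) fun u => by positivity)
  refine good_equiv (X' := Σ _ : U, Z) (Y' := Σ _ : Unit, V × Z) (Equiv.sigmaEquivProd U Z)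
    ((Equiv.sigmaEquivProd Unit (V × Z)).trans (Equiv.punitProd (V × Z))) ?_
  convert h1 using 1
  · funext p
    simp [liftWeight, uw, Ultra.unif]
  · funext p
    simp only [Ultra.unif, liftWeight, uw, one_mul]
  · funext p q
    obtain ⟨u, s⟩ := p
    obtain ⟨_, v, t⟩ := q
    simp only [hf]
    rfl

end targets

section graph

variable {U : Type} {S : U → Type}

/-- The lift of a graph: for adjacent `u` and `v` the vertices `(u, s)` and `(v, t)` are adjacent iff
`R u v s t`. -/
def liftGraph (G : SimpleGraph U) (R : ∀ u v, S u → S v → Prop)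
    (hR : ∀ u v s t, R u v s t → R v u t s) : SimpleGraph (Σ u, S u) where
  Adj p q := G.Adj p.1 q.1 ∧ R p.1 q.1 p.2 q.2
  symm := ⟨fun _ _ h => ⟨h.1.symm, hR _ _ _ _ h.2⟩⟩
  loopless := ⟨fun _ h => G.loopless.irrefl _ h.1⟩

open Classical in
theorem against_lift_of [Fintype U] [Nonempty U] [∀ u, Fintype (S u)] {N : ℕ} (hN0 : 0 < N)
    (hN : ∀ u, Fintype.card (S u) = N) {G : SimpleGraph U} (R : ∀ u v, S u → S v → Prop)
    (hR : ∀ u v s t, R u v s t → R v u t s) {c : ℝ} (hc : 0 ≤ c)
    (hr : ∀ u v, G.Adj u v → mean (uw S u) (uw S v) (fun s t => if R u v s t then 1 else 0) = c)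
    (hl : BGood (Ultra.unif U) (Ultra.unif U)
        (baseKernel (uw S) (uw S) fun u v s t => if G.Adj u v ∧ R u v s t then (1 : ℝ) else 0) →
      BGood (liftWeight (Ultra.unif U) (uw S)) (liftWeight (Ultra.unif U) (uw S))
        (liftKernel fun u v s t => if G.Adj u v ∧ R u v s t then (1 : ℝ) else 0))
    (h : SidorenkoAgainst G) : SidorenkoAgainst (liftGraph G R hR) := by
  have : Nonempty (Σ u, S u) := by
    have h0 := hN (Classical.arbitrary U)
    have h1 : Nonempty (S (Classical.arbitrary U)) := by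
      rw [← Fintype.card_pos_iff, h0]
      exact hN0
    exact ⟨⟨_, h1.some⟩⟩
  have h0 := good_of_against h
  have h1 : BGood (Ultra.unif U) (Ultra.unif U)
      (baseKernel (uw S) (uw S) fun u v s t =>
        if G.Adj u v ∧ R u v s t then (1 : ℝ) else 0) := by
    have h2 := h0.affine (Ultra.unif_sum U) (Ultra.unif_sum U) (a := c) (c := 0) hc le_rfl
    convert h2 using 1
    funext u v
    rw [add_zero]
    by_cases huv : G.Adj u v
    · rw [show adjm G u v = 1 by simp [adjm, huv], mul_one, ← hr u v huv]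
      change mean (uw S u) (uw S v) (fun s t => if G.Adj u v ∧ R u v s t then (1 : ℝ) else 0) = _
      simp only [huv, true_and]
    · rw [show adjm G u v = 0 by simp [adjm, huv]]
      simp [baseKernel, mean, huv]
  have h2 := hl h1
  have hw : ∀ p : Σ u, S u, Ultra.unif (Σ u, S u) p = liftWeight (Ultra.unif U) (uw S) p := by
    intro p
    have h3 := hN p.1
    have h4 : Fintype.card (Σ u, S u) = Fintype.card U * N := by
      rw [Fintype.card_sigma]
      simp [hN]
    simp only [Ultra.unif, liftWeight, uw, h3, h4]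
    push_cast
    rw [one_div, one_div, one_div, mul_inv]
  apply against_of_good
  convert h2 using 1
  · funext p
    exact hw p
  · funext p
    exact hw p
  · funext p q
    by_cases h3 : G.Adj p.1 q.1 ∧ R p.1 q.1 p.2 q.2
    · simp [adjm, liftKernel, liftGraph, h3.1, h3.2]
    · have h4 : ¬ (liftGraph G R hR).Adj p q := h3
      simp only [adjm, liftKernel, if_neg h3, if_neg h4]

/-- Lifts of graphs by subgroups. -/
theorem against_lift [Finite U] [Nonempty U] [∀ u, Group (S u)] [∀ u, Finite (S u)] {N r : ℕ}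
    (hN : ∀ u, Nat.card (S u) = N) {G : SimpleGraph U} (K : ∀ u v, Subgroup (S u × S v))
    (hK : ∀ u v s t, (s, t) ∈ K u v → (t, s) ∈ K v u)
    (hr : ∀ u v, G.Adj u v → (K u v).index = r) (h : SidorenkoAgainst G) :
    SidorenkoAgainst (liftGraph G (fun u v s t => (s, t) ∈ K u v) hK) := by
  classical
  have := Fintype.ofFinite U
  have := fun u => Fintype.ofFinite (S u)
  have hN' : ∀ u, Fintype.card (S u) = N := fun u => by rw [← hN u, Nat.card_eq_fintype_card]
  have hN0 : 0 < N := by
    rw [← hN' (Classical.arbitrary U)]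
    exact Fintype.card_pos
  refine against_lift_of hN0 hN' _ hK (c := 1 / (r : ℝ)) (by positivity) ?_ ?_ h
  · intro u v huv
    rw [← hr u v huv, ← avg_subgroup, avg_eq_mean fun s t => if (s, t) ∈ K u v then (1 : ℝ) else 0]
    rfl
  · refine good_pd (Ultra.unif_nonneg U) (Ultra.unif_nonneg U) fun u v => ?_
    by_cases huv : G.Adj u v
    · simp only [huv, true_and]
      exact posDef_subgroup (K u v)
    · simp only [huv, false_and, if_false]
      exact Gr.posDefFn (ψ := fun _ : S u × S v => (0 : ℝ)) ⟨0, fun _ _ => 0, fun g h => by simp⟩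

/-- Lifts of graphs by up-sets of distributive lattices. -/
theorem against_lift_up [Finite U] [Nonempty U] [∀ u, DistribLattice (S u)]
    [∀ u, Finite (S u)] {N r : ℕ} (hN0 : 0 < N) (hN : ∀ u, Nat.card (S u) = N)
    {G : SimpleGraph U} (R : ∀ u v, S u → S v → Prop) (hR : ∀ u v s t, R u v s t → R v u t s)
    (hm : ∀ u v, G.Adj u v → ∀ s s' t t', s ≤ s' → t ≤ t' → R u v s t → R u v s' t')
    (hr : ∀ u v, G.Adj u v → Nat.card {p : S u × S v // R u v p.1 p.2} = r)
    (h : SidorenkoAgainst G) : SidorenkoAgainst (liftGraph G R hR) := by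
  classical
  have := Fintype.ofFinite U
  have := fun u => Fintype.ofFinite (S u)
  have hN' : ∀ u, Fintype.card (S u) = N := fun u => by rw [← hN u, Nat.card_eq_fintype_card]
  have hN1 : (N : ℝ) ≠ 0 := by exact_mod_cast hN0.ne'
  refine against_lift_of hN0 hN' _ hR (c := (r : ℝ) / (N : ℝ) ^ 2) (by positivity) ?_ ?_ h
  · intro u v huv
    have h1 : mean (uw S u) (uw S v) (fun s t => if R u v s t then (1 : ℝ) else 0) =
        (∑ p : S u × S v, if R u v p.1 p.2 then (1 : ℝ) else 0) / (N : ℝ) ^ 2 := by
      unfold mean uw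
      rw [Fintype.sum_prod_type, Finset.sum_div]
      refine Finset.sum_congr rfl fun s _ => ?_
      rw [Finset.sum_div]
      refine Finset.sum_congr rfl fun t _ => ?_
      rw [hN', hN']
      field_simp
    rw [h1, Finset.sum_boole, ← hr u v huv, Nat.card_eq_fintype_card, Fintype.card_subtype]
  · refine good_mono (Ultra.unif_nonneg U) (Ultra.unif_nonneg U) ?_ ?_ ?_ ?_ ?_ ?_ ?_ ?_
    · intro u s; unfold uw; positivity
    · intro u s; unfold uw; positivity
    · intro u
      unfold uw
      rw [Finset.sum_const, Finset.card_univ, nsmul_eq_mul, hN']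
      field_simp
    · intro u
      unfold uw
      rw [Finset.sum_const, Finset.card_univ, nsmul_eq_mul, hN']
      field_simp
    · intro u p q; exact le_rfl
    · intro u p q; exact le_rfl
    · intro u v s t
      split_ifs <;> norm_num
    · intro u v g g' hg
      dsimp only
      by_cases h1 : G.Adj u v ∧ R u v g.1 g.2
      · rw [if_pos h1, if_pos ⟨h1.1, hm u v h1.1 _ _ _ _ hg.1 hg.2 h1.2⟩]
      · rw [if_neg h1]
        split_ifs <;> norm_num

end graph

end Vale.Agent.P050.H223.Lift
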