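import Vale.Agent.P050.H223.LiftDefs

/-!
Densities in lifts of finite kernels, and positive definite lifts.
-/

namespace Vale.Agent.P050.H223.Lift

open Finset Vale.Agent.P050.Ultra

variable {U V : Type} {S : U → Type} {T : V → Type} [Fintype U] [Fintype V]
  [∀ u, Fintype (S u)] [∀ v, Fintype (T v)]

/-- maps into a disjoint union -/
def sigmaEquiv (A : Type) (S : U → Type) : (A → Σ u, S u) ≃ Σ x : A → U, ∀ a, S (x a) where
  toFun f := ⟨fun a => (f a).1, fun a => (f a).2⟩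
  invFun g := fun a => ⟨g.1 a, g.2 a⟩
  left_inv _ := rfl
  right_inv _ := rfl

theorem bip_lift {A B : Type} [Fintype A] [Fintype B] [DecidableEq A] [DecidableEq B]
    (m : U → ℝ) (n : V → ℝ) (w : ∀ u, S u → ℝ) (z : ∀ v, T v → ℝ) (φ : ∀ u v, S u → T v → ℝ)
    (E : Finset (A × B)) :
    bip (liftWeight m w) (liftWeight n z) E (liftKernel φ) =
      ∑ x : A → U, ∑ y : B → V, ((∏ a, m (x a)) * ∏ b, n (y b)) *
        ∑ s : ∀ a, S (x a), ∑ t : ∀ b, T (y b), ((∏ a, w (x a) (s a)) * ∏ b, z (y b) (t b)) *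
          ∏ e ∈ E, φ (x e.1) (y e.2) (s e.1) (t e.2) := by
  unfold bip
  rw [← Equiv.sum_comp (sigmaEquiv A S).symm, Fintype.sum_sigma]
  refine Finset.sum_congr rfl fun x _ => ?_
  have h1 : ∀ s : ∀ a, S (x a), (∑ y : B → Σ v, T v,
      (∏ a, liftWeight m w ((sigmaEquiv A S).symm ⟨x, s⟩ a)) * (∏ b, liftWeight n z (y b)) *
        ∏ e ∈ E, liftKernel φ ((sigmaEquiv A S).symm ⟨x, s⟩ e.1) (y e.2)) =
      ∑ y : B → V, ∑ t : ∀ b, T (y b), ((∏ a, m (x a)) * ∏ b, n (y b)) *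
        (((∏ a, w (x a) (s a)) * ∏ b, z (y b) (t b)) *
          ∏ e ∈ E, φ (x e.1) (y e.2) (s e.1) (t e.2)) := by
    intro s
    rw [← Equiv.sum_comp (sigmaEquiv B T).symm, Fintype.sum_sigma]
    refine Finset.sum_congr rfl fun y _ => Finset.sum_congr rfl fun t _ => ?_
    have e1 : (∏ a, liftWeight m w ((sigmaEquiv A S).symm ⟨x, s⟩ a)) =
        (∏ a, m (x a)) * ∏ a, w (x a) (s a) := by
      rw [← Finset.prod_mul_distrib]
      rfl
    have e2 : (∏ b, liftWeight n z ((sigmaEquiv B T).symm ⟨y, t⟩ b)) =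
        (∏ b, n (y b)) * ∏ b, z (y b) (t b) := by
      rw [← Finset.prod_mul_distrib]
      rfl
    rw [e1, e2]
    change _ * (∏ e ∈ E, φ (x e.1) (y e.2) (s e.1) (t e.2)) = _
    ring
  simp only [h1]
  rw [Finset.sum_comm]
  refine Finset.sum_congr rfl fun y _ => ?_
  rw [Finset.mul_sum]
  refine Finset.sum_congr rfl fun s _ => ?_
  rw [Finset.mul_sum]

theorem mean_lift (m : U → ℝ) (n : V → ℝ) (w : ∀ u, S u → ℝ) (z : ∀ v, T v → ℝ)
    (φ : ∀ u v, S u → T v → ℝ) :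
    mean (liftWeight m w) (liftWeight n z) (liftKernel φ) = mean m n (baseKernel w z φ) := by
  unfold mean baseKernel
  rw [Fintype.sum_sigma]
  refine Finset.sum_congr rfl fun u _ => ?_
  simp only [Fintype.sum_sigma]
  rw [Finset.sum_comm]
  refine Finset.sum_congr rfl fun v _ => ?_
  unfold mean
  rw [Finset.mul_sum]
  refine Finset.sum_congr rfl fun s _ => ?_
  rw [Finset.mul_sum]
  refine Finset.sum_congr rfl fun t _ => ?_
  unfold liftWeight liftKernel
  ring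

/-- If the product of the `φ` over the edges has at least the product mean on each fibre, then the
densities of the lift are at least those of the base. -/
theorem bip_le_of_fibre {A B : Type} [Fintype A] [Fintype B] [DecidableEq A] [DecidableEq B]
    {m : U → ℝ} {n : V → ℝ} (hm : ∀ u, 0 ≤ m u) (hn : ∀ v, 0 ≤ n v) {w : ∀ u, S u → ℝ}
    {z : ∀ v, T v → ℝ} {φ : ∀ u v, S u → T v → ℝ} {E : Finset (A × B)}
    (h : ∀ (x : A → U) (y : B → V), ∏ e ∈ E, mean (w (x e.1)) (z (y e.2)) (φ (x e.1) (y e.2)) ≤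
      ∑ s : ∀ a, S (x a), ∑ t : ∀ b, T (y b), ((∏ a, w (x a) (s a)) * ∏ b, z (y b) (t b)) *
          ∏ e ∈ E, φ (x e.1) (y e.2) (s e.1) (t e.2)) :
    bip m n E (baseKernel w z φ) ≤ bip (liftWeight m w) (liftWeight n z) E (liftKernel φ) := by
  rw [bip_lift]
  unfold bip
  refine Finset.sum_le_sum fun x _ => Finset.sum_le_sum fun y _ => ?_
  refine mul_le_mul_of_nonneg_left (h x y) ?_
  exact mul_nonneg (Finset.prod_nonneg fun a _ => hm _) (Finset.prod_nonneg fun b _ => hn _)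

section pd

variable [∀ u, Group (S u)] [∀ v, Group (T v)]

omit [Fintype U] [Fintype V] in
theorem fibre_pd {A B : Type} [Fintype A] [Fintype B] [DecidableEq A] [DecidableEq B]
    {φ : ∀ u v, S u → T v → ℝ}
    (hφ : ∀ u v, PosDefFn fun g : S u × T v => φ u v g.1 g.2) (E : Finset (A × B))
    (x : A → U) (y : B → V) :
    ∏ e ∈ E, mean (uw S (x e.1)) (uw T (y e.2)) (φ (x e.1) (y e.2)) ≤
      ∑ s : ∀ a, S (x a), ∑ t : ∀ b, T (y b),
        ((∏ a, uw S (x a) (s a)) * ∏ b, uw T (y b) (t b)) *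
          ∏ e ∈ E, φ (x e.1) (y e.2) (s e.1) (t e.2) := by
  let f : ∀ e : A × B, ((∀ a, S (x a)) × (∀ b, T (y b))) →* S (x e.1) × T (y e.2) := fun e =>
    MonoidHom.prodMap (Pi.evalMonoidHom _ e.1) (Pi.evalMonoidHom _ e.2)
  have hf : ∀ e, Function.Surjective (f e) := by
    rintro ⟨a, b⟩ ⟨s, t⟩
    exact ⟨(Function.update 1 a s, Function.update 1 b t), by simp [f]⟩
  have h1 := prod_avg_le E (ψ := fun e g => φ (x e.1) (y e.2) (f e g).1 (f e g).2)
    fun e => (hφ (x e.1) (y e.2)).gr.comp (f e)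
  have h2 : ∀ e, avg (fun g => φ (x e.1) (y e.2) (f e g).1 (f e g).2) =
      mean (uw S (x e.1)) (uw T (y e.2)) (φ (x e.1) (y e.2)) := by
    intro e
    rw [avg_comp (f e) (hf e) fun g => φ (x e.1) (y e.2) g.1 g.2]
    unfold avg mean uw
    rw [Fintype.sum_prod_type, Fintype.card_prod, Finset.sum_div]
    refine Finset.sum_congr rfl fun s _ => ?_
    rw [Finset.sum_div]
    refine Finset.sum_congr rfl fun t _ => ?_
    push_cast
    rw [div_eq_mul_inv, mul_inv, one_div, one_div]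
    ring
  have h3 : (avg fun g : (∀ a, S (x a)) × (∀ b, T (y b)) =>
      ∏ e ∈ E, φ (x e.1) (y e.2) (f e g).1 (f e g).2) =
      ∑ s : ∀ a, S (x a), ∑ t : ∀ b, T (y b),
        ((∏ a, uw S (x a) (s a)) * ∏ b, uw T (y b) (t b)) *
          ∏ e ∈ E, φ (x e.1) (y e.2) (s e.1) (t e.2) := by
    unfold avg uw
    rw [Fintype.sum_prod_type, Fintype.card_prod, Fintype.card_pi, Fintype.card_pi,
      Finset.sum_div]
    refine Finset.sum_congr rfl fun s _ => ?_
    rw [Finset.sum_div]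
    refine Finset.sum_congr rfl fun t _ => ?_
    have e1 : (∏ e ∈ E, φ (x e.1) (y e.2) (f e (s, t)).1 (f e (s, t)).2) =
        ∏ e ∈ E, φ (x e.1) (y e.2) (s e.1) (t e.2) := rfl
    rw [e1]
    simp only [one_div, Finset.prod_inv_distrib]
    push_cast
    rw [div_eq_mul_inv, mul_inv]
    ring
  rw [← h3]
  simp only [h2] at h1
  exact h1

/-- **Positive definite lifts.** -/
theorem bip_le_pd {A B : Type} [Fintype A] [Fintype B] [DecidableEq A] [DecidableEq B]
    {m : U → ℝ} {n : V → ℝ} (hm : ∀ u, 0 ≤ m u) (hn : ∀ v, 0 ≤ n v) {φ : ∀ u v, S u → T v → ℝ}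
    (hφ : ∀ u v, PosDefFn fun g : S u × T v => φ u v g.1 g.2) (E : Finset (A × B)) :
    bip m n E (baseKernel (uw S) (uw T) φ) ≤
      bip (liftWeight m (uw S)) (liftWeight n (uw T)) E (liftKernel φ) :=
  bip_le_of_fibre hm hn (fibre_pd hφ E)

theorem good_pd {m : U → ℝ} {n : V → ℝ} (hm : ∀ u, 0 ≤ m u) (hn : ∀ v, 0 ≤ n v)
    {φ : ∀ u v, S u → T v → ℝ} (hφ : ∀ u v, PosDefFn fun g : S u × T v => φ u v g.1 g.2)
    (h : BGood m n (baseKernel (uw S) (uw T) φ)) :
    BGood (liftWeight m (uw S)) (liftWeight n (uw T)) (liftKernel φ) := by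
  intro A B _ _ _ _ E
  rw [mean_lift]
  exact (h A B E).trans (bip_le_pd hm hn hφ E)

end pd

end Vale.Agent.P050.H223.Lift
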