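import Vale.Agent.P050.H223.LiftPD
import Vale.Agent.P050.Ultra.Module

/-!
Lifts of finite kernels: definitions.
-/

namespace Vale.Agent.P050.H223.Lift

open Finset Vale.Agent.P050.Ultra

/-- the weights `m u * w u s` on the pairs `(u, s)` -/
def liftWeight {U : Type} {S : U → Type} (m : U → ℝ) (w : ∀ u, S u → ℝ) (p : Σ u, S u) : ℝ :=
  m p.1 * w p.1 p.2

/-- the kernel `φ u v s t` on the pairs `(u, s)` and `(v, t)` -/
def liftKernel {U V : Type} {S : U → Type} {T : V → Type} (φ : ∀ u v, S u → T v → ℝ)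
    (p : Σ u, S u) (q : Σ v, T v) : ℝ :=
  φ p.1 q.1 p.2 q.2

/-- the kernel of the averages of `φ u v` -/
noncomputable def baseKernel {U V : Type} {S : U → Type} {T : V → Type} [∀ u, Fintype (S u)]
    [∀ v, Fintype (T v)] (w : ∀ u, S u → ℝ) (z : ∀ v, T v → ℝ) (φ : ∀ u v, S u → T v → ℝ)
    (u : U) (v : V) : ℝ :=
  mean (w u) (z v) (φ u v)

/-- the uniform weights on a finite type -/
noncomputable def uw {U : Type} (S : U → Type) [∀ u, Fintype (S u)] (u : U) (_ : S u) : ℝ :=
  1 / (Fintype.card (S u) : ℝ)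

end Vale.Agent.P050.H223.Lift
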