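import Vale.Agent.P050.H223.LiftClass

/-!
Points and cosets; points and flats of finite affine spaces.
-/

namespace Vale.Agent.P050.H223.Lift

open Finset Vale.Agent.P050 Vale.Agent.P050.Ultra

open Classical in
/-- The relation `f u t = s` between the pairs `(u, s)` and the elements `t` of a group. -/
theorem good_hom {U G : Type} {S : U → Type} [Fintype U] [Group G] [Fintype G]
    [∀ u, Fintype (S u)] [∀ u, Group (S u)] {m : U → ℝ} (hm : ∀ u, 0 ≤ m u)
    (hm1 : ∑ u, m u = 1) (f : ∀ u, G →* S u) :
    BGood (liftWeight m (uw S)) (Ultra.unif G) fun p t => if f p.1 t = p.2 then 1 else 0 := by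
  have h1 := good_subgroup_lift (U := U) (V := Unit) (S := S) (T := fun _ => G)
    (m := m) (n := fun _ => 1) hm (fun _ => zero_le_one)
    (fun u _ => MonoidHom.eqLocus ((f u).comp (MonoidHom.snd (S u) G)) (MonoidHom.fst (S u) G))
    (good_row hm hm1 (by simp) fun u => by positivity)
  refine good_equiv (X' := Σ u, S u) (Y' := Σ _ : Unit, G) (Equiv.refl _)
    ((Equiv.sigmaEquivProd Unit G).trans (Equiv.punitProd G)) ?_
  convert h1 using 1
  · funext p
    simp only [liftWeight, Equiv.refl_apply]
  · funext p
    simp [liftWeight, uw, Ultra.unif]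
  · rfl

open Classical in
theorem against_hom {U G : Type} {S : U → Type} [Finite U] [Nonempty U] [Group G] [Finite G]
    [∀ u, Finite (S u)] [∀ u, Group (S u)] {N : ℕ} (hN : ∀ u, Nat.card (S u) = N)
    (f : ∀ u, G →* S u) :
    SidorenkoAgainst (relGraph fun (p : Σ u, S u) (t : G) => f p.1 t = p.2) := by
  have := Fintype.ofFinite U
  have := Fintype.ofFinite G
  have := fun u => Fintype.ofFinite (S u)
  have : Nonempty (Σ u, S u) := ⟨⟨Classical.arbitrary U, 1⟩⟩
  have hN' : ∀ u, Fintype.card (S u) = N := fun u => by rw [← hN u, Nat.card_eq_fintype_card]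
  refine against_rel ?_
  convert good_hom (Ultra.unif_nonneg U) (Ultra.unif_sum U) f using 1
  funext p
  have h4 : Fintype.card (Σ u, S u) = Fintype.card U * N := by
    rw [Fintype.card_sigma]
    simp [hN']
  simp only [Ultra.unif, liftWeight, uw, hN', h4]
  push_cast
  rw [one_div, one_div, one_div, mul_inv]

section flats

variable {F V : Type} [Field F] [AddCommGroup V] [Module F V]

/-- the nonempty affine subspaces with direction of dimension `k` -/
def Flat (F V : Type) [Field F] [AddCommGroup V] [Module F V] (k : ℕ) : Type :=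
  {s : AffineSubspace F V // (s : Set V).Nonempty ∧ Module.finrank F s.direction = k}

/-- the flat of a coset -/
noncomputable def toFlat (k : ℕ) (p : Σ W : {W : Submodule F V // Module.finrank F W = k}, V ⧸ W.1) :
    Flat F V k :=
  ⟨AffineSubspace.mk' (Quotient.out p.2) p.1.1,
    AffineSubspace.mk'_nonempty _ _, by rw [AffineSubspace.direction_mk']; exact p.1.2⟩

theorem mem_toFlat (k : ℕ) (p : Σ W : {W : Submodule F V // Module.finrank F W = k}, V ⧸ W.1)
    (t : V) : t ∈ (toFlat k p).1 ↔ Submodule.Quotient.mk t = p.2 := by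
  have h1 : Submodule.Quotient.mk (Quotient.out p.2) = p.2 := Quotient.out_eq p.2
  conv_rhs => rw [← h1]
  rw [Submodule.Quotient.eq]
  exact AffineSubspace.mem_mk'

theorem toFlat_bijective (k : ℕ) : Function.Bijective (toFlat (F := F) (V := V) k) := by
  constructor
  · rintro ⟨⟨W, hW⟩, q⟩ ⟨⟨W', hW'⟩, q'⟩ h
    have h1 : (toFlat k ⟨⟨W, hW⟩, q⟩).1 = (toFlat k ⟨⟨W', hW'⟩, q'⟩).1 := congrArg Subtype.val h
    have h2 : W = W' := by
      have := congrArg AffineSubspace.direction h1
      simpa only [toFlat, AffineSubspace.direction_mk'] using this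
    subst h2
    have h3 : Quotient.out q ∈ (toFlat k ⟨⟨W, hW'⟩, q'⟩).1 := by
      rw [← h1, mem_toFlat]
      exact Quotient.out_eq q
    rw [mem_toFlat] at h3
    have h4 : q = q' := (Quotient.out_eq q).symm.trans h3
    rw [h4]
  · rintro ⟨s, ⟨t, ht⟩, hs⟩
    refine ⟨⟨⟨s.direction, hs⟩, Submodule.Quotient.mk t⟩, Subtype.ext ?_⟩
    have h3 : t ∈ (toFlat k ⟨⟨s.direction, hs⟩, Submodule.Quotient.mk t⟩).1 := by
      rw [mem_toFlat]
    refine AffineSubspace.ext_of_direction_eq ?_ ⟨t, h3, ht⟩
    exact AffineSubspace.direction_mk' _ _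

theorem card_quotient_eq [Finite V] {W W' : Submodule F V}
    (h : Module.finrank F W = Module.finrank F W') : Nat.card (V ⧸ W) = Nat.card (V ⧸ W') := by
  have h1 : Nat.card W = Nat.card W' := Nat.card_congr (LinearEquiv.ofFinrankEq W W' h).toEquiv
  have h2 := Submodule.card_eq_card_quotient_mul_card W
  have h3 := Submodule.card_eq_card_quotient_mul_card W'
  rw [h2, h1] at h3
  exact Nat.eq_of_mul_eq_mul_left Nat.card_pos h3

/-- The point-flat incidence graphs of finite affine spaces. -/
theorem against_flats [Finite V] (k : ℕ) :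
    SidorenkoAgainst (relGraph fun (s : Flat F V k) (t : V) => t ∈ s.1) := by
  classical
  have : Finite (Submodule F V) := Finite.of_injective (fun W => (W : Set V)) SetLike.coe_injective
  have : ∀ W : {W : Submodule F V // Module.finrank F W = k}, Finite (V ⧸ W.1) :=
    fun W => Quotient.finite _
  have hf : Finite (Σ W : {W : Submodule F V // Module.finrank F W = k}, V ⧸ W.1) := inferInstance
  have : Finite (Flat F V k) := Finite.of_surjective _ (toFlat_bijective k).2
  have := Fintype.ofFinite (Flat F V k)
  have := Fintype.ofFinite V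
  rcases isEmpty_or_nonempty (Flat F V k) with he | hne
  · refine against_of_good ?_
    have h0 : adjm (relGraph fun (s : Flat F V k) (t : V) => t ∈ s.1) = fun _ _ => 0 := ?_
    · rw [h0]
      exact good_const (Ultra.unif_nonneg _) (Ultra.unif_sum _) (Ultra.unif_sum _) le_rfl
    funext p q
    rcases p with s | t
    · exact he.elim s
    · rcases q with s | t'
      · exact he.elim s
      · simp [adjm, relGraph]
  · refine against_rel ?_
    obtain ⟨⟨W₀, _⟩, _⟩ := (toFlat_bijective (F := F) (V := V) k).2 hne.some
    let U : Type := {W : Submodule F V // Module.finrank F W = k}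
    let S : U → Type := fun W => Multiplicative (V ⧸ W.1)
    have : Nonempty U := ⟨W₀⟩
    have := Fintype.ofFinite U
    have hS : ∀ u, Fintype (S u) := fun u => Fintype.ofFinite (V ⧸ u.1)
    let f : ∀ u, Multiplicative V →* S u := fun u => AddMonoidHom.toMultiplicative u.1.mkQ.toAddMonoidHom
    have h1 := good_hom (Ultra.unif_nonneg U) (Ultra.unif_sum U) f
    refine good_equiv (X' := Σ u, S u) (Y' := Multiplicative V)
      (Equiv.ofBijective (toFlat k) (toFlat_bijective k)) Multiplicative.toAdd ?_
    have hN : ∀ u, Fintype.card (S u) = Nat.card (V ⧸ W₀.1) := fun u => by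
      rw [← Nat.card_eq_fintype_card]
      exact card_quotient_eq (u.2.trans W₀.2.symm)
    have hc : Fintype.card (Flat F V k) = Fintype.card U * Nat.card (V ⧸ W₀.1) := by
      rw [← Fintype.card_congr (Equiv.ofBijective (toFlat k) (toFlat_bijective k) :
        (Σ u, S u) ≃ Flat F V k), Fintype.card_sigma]
      simp [hN]
    convert h1 using 1
    · funext p
      simp only [Ultra.unif, liftWeight, uw, hN, hc]
      push_cast
      rw [one_div, one_div, one_div, mul_inv]
    · funext p
      simp only [Ultra.unif]
      rw [Fintype.card_congr (Multiplicative.toAdd (α := V))]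
    · funext p q
      have h2 := mem_toFlat (F := F) k p (Multiplicative.toAdd q)
      by_cases h3 : Multiplicative.toAdd q ∈ (toFlat k p).1
      · have h5 : f p.1 q = p.2 := h2.1 h3
        exact (if_pos h3).trans (if_pos h5).symm
      · have h5 : ¬ f p.1 q = p.2 := fun h4 => h3 (h2.2 h4)
        exact (if_neg h3).trans (if_neg h5).symm

end flats

end Vale.Agent.P050.H223.Lift
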