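import Vale.Agent.P050.H223.LiftCore

/-!
Monotone lifts of finite kernels.
-/

namespace Vale.Agent.P050.H223.Lift

open Finset Vale.Agent.P050.Ultra

theorem sum_pi_marginal {A : Type} [Fintype A] [DecidableEq A] {R : A → Type}
    [∀ a, Fintype (R a)] (w : ∀ a, R a → ℝ) (hw : ∀ a, ∑ r, w a r = 1) (a₀ : A)
    (G : R a₀ → ℝ) : ∑ s : ∀ a, R a, (∏ a, w a (s a)) * G (s a₀) = ∑ r, w a₀ r * G r := by
  let f : ∀ a, R a → ℝ := fun a r => if h : a = a₀ then w a r * G (h ▸ r) else w a r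
  have h1 : ∀ s : ∀ a, R a, ∏ a, f a (s a) = (∏ a, w a (s a)) * G (s a₀) := by
    intro s
    have h2 : ∀ a, f a (s a) = w a (s a) * if a = a₀ then G (s a₀) else 1 := by
      intro a
      by_cases h : a = a₀
      · subst h
        simp [f]
      · simp [f, h]
    simp only [h2, Finset.prod_mul_distrib, Finset.prod_ite_eq', Finset.mem_univ, if_true]
  have h3 : ∀ a, ∑ r, f a r = if a = a₀ then ∑ r, w a₀ r * G r else 1 := by
    intro a
    by_cases h : a = a₀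
    · subst h
      simp [f]
    · simp [f, h, hw]
  have h4 := Finset.prod_univ_sum (fun a => (univ : Finset (R a))) f
  rw [Fintype.piFinset_univ] at h4
  simp only [h3, Finset.prod_ite_eq', Finset.mem_univ, if_true, h1] at h4
  exact h4.symm

theorem sum_pi_one {A : Type} [Fintype A] [DecidableEq A] {R : A → Type}
    [∀ a, Fintype (R a)] (w : ∀ a, R a → ℝ) (hw : ∀ a, ∑ r, w a r = 1) :
    ∑ s : ∀ a, R a, ∏ a, w a (s a) = 1 := by
  have h4 := Finset.prod_univ_sum (fun a => (univ : Finset (R a))) w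
  rw [Fintype.piFinset_univ] at h4
  rw [← h4]
  exact Finset.prod_eq_one fun a _ => hw a

variable {U V : Type} {S : U → Type} {T : V → Type} [Fintype U] [Fintype V]
  [∀ u, Fintype (S u)] [∀ v, Fintype (T v)] [∀ u, DistribLattice (S u)]
  [∀ v, DistribLattice (T v)]

omit [Fintype U] [Fintype V] in
theorem fibre_mono {A B : Type} [Fintype A] [Fintype B] [DecidableEq A] [DecidableEq B]
    {w : ∀ u, S u → ℝ} {z : ∀ v, T v → ℝ} (hw0 : ∀ u s, 0 ≤ w u s) (hz0 : ∀ v t, 0 ≤ z v t)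
    (hw : ∀ u, ∑ s, w u s = 1) (hz : ∀ v, ∑ t, z v t = 1)
    (hws : ∀ u p q, w u p * w u q ≤ w u (p ⊓ q) * w u (p ⊔ q))
    (hzs : ∀ v p q, z v p * z v q ≤ z v (p ⊓ q) * z v (p ⊔ q)) {φ : ∀ u v, S u → T v → ℝ}
    (hφ0 : ∀ u v s t, 0 ≤ φ u v s t)
    (hφ : ∀ u v, Monotone fun g : S u × T v => φ u v g.1 g.2) (E : Finset (A × B))
    (x : A → U) (y : B → V) :
    ∏ e ∈ E, mean (w (x e.1)) (z (y e.2)) (φ (x e.1) (y e.2)) ≤
      ∑ s : ∀ a, S (x a), ∑ t : ∀ b, T (y b),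
        ((∏ a, w (x a) (s a)) * ∏ b, z (y b) (t b)) *
          ∏ e ∈ E, φ (x e.1) (y e.2) (s e.1) (t e.2) := by
  let μ : ((∀ a, S (x a)) × (∀ b, T (y b))) → ℝ := fun g =>
    (∏ a, w (x a) (g.1 a)) * ∏ b, z (y b) (g.2 b)
  let f : A × B → ((∀ a, S (x a)) × (∀ b, T (y b))) → ℝ := fun e g =>
    φ (x e.1) (y e.2) (g.1 e.1) (g.2 e.2)
  have hμ0 : 0 ≤ μ := fun g => mul_nonneg (Finset.prod_nonneg fun _ _ => hw0 _ _)
    (Finset.prod_nonneg fun _ _ => hz0 _ _)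
  have hf0 : ∀ e, 0 ≤ f e := fun e g => hφ0 _ _ _ _
  have hf : ∀ e, Monotone (f e) := fun e g g' h => hφ (x e.1) (y e.2)
    (show (g.1 e.1, g.2 e.2) ≤ (g'.1 e.1, g'.2 e.2) from ⟨h.1 e.1, h.2 e.2⟩)
  have hμ : ∀ a b, μ a * μ b ≤ μ (a ⊓ b) * μ (a ⊔ b) := by
    intro a b
    have e1 : (∏ i, w (x i) (a.1 i)) * ∏ i, w (x i) (b.1 i) ≤
        (∏ i, w (x i) ((a ⊓ b).1 i)) * ∏ i, w (x i) ((a ⊔ b).1 i) := by
      rw [← Finset.prod_mul_distrib, ← Finset.prod_mul_distrib]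
      exact Finset.prod_le_prod (fun i _ => mul_nonneg (hw0 _ _) (hw0 _ _))
        fun i _ => hws _ _ _
    have e2 : (∏ i, z (y i) (a.2 i)) * ∏ i, z (y i) (b.2 i) ≤
        (∏ i, z (y i) ((a ⊓ b).2 i)) * ∏ i, z (y i) ((a ⊔ b).2 i) := by
      rw [← Finset.prod_mul_distrib, ← Finset.prod_mul_distrib]
      exact Finset.prod_le_prod (fun i _ => mul_nonneg (hz0 _ _) (hz0 _ _))
        fun i _ => hzs _ _ _
    simp only [μ]
    calc _ = ((∏ i, w (x i) (a.1 i)) * ∏ i, w (x i) (b.1 i)) *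
          ((∏ i, z (y i) (a.2 i)) * ∏ i, z (y i) (b.2 i)) := by ring
      _ ≤ ((∏ i, w (x i) ((a ⊓ b).1 i)) * ∏ i, w (x i) ((a ⊔ b).1 i)) *
          ((∏ i, z (y i) ((a ⊓ b).2 i)) * ∏ i, z (y i) ((a ⊔ b).2 i)) := by
        refine mul_le_mul e1 e2 ?_ ?_
        · exact mul_nonneg (Finset.prod_nonneg fun _ _ => hz0 _ _)
            (Finset.prod_nonneg fun _ _ => hz0 _ _)
        · exact mul_nonneg (Finset.prod_nonneg fun _ _ => hw0 _ _)
            (Finset.prod_nonneg fun _ _ => hw0 _ _)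
      _ = _ := by ring
  have hμ1 : ∑ g, μ g = 1 := by
    simp only [μ]
    rw [Fintype.sum_prod_type]
    simp only [← Finset.mul_sum]
    rw [sum_pi_one (fun b => z (y b)) fun b => hz _]
    simp only [mul_one]
    exact sum_pi_one (fun a => w (x a)) fun a => hw _
  have h1 : ∀ e, ∑ g, μ g * f e g = mean (w (x e.1)) (z (y e.2)) (φ (x e.1) (y e.2)) := by
    intro e
    simp only [μ, f]
    rw [Fintype.sum_prod_type]
    simp only [mul_assoc, ← Finset.mul_sum]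
    have h2 : ∀ s : ∀ a, S (x a), ∑ t : ∀ b, T (y b), (∏ b, z (y b) (t b)) *
        φ (x e.1) (y e.2) (s e.1) (t e.2) =
        ∑ t, z (y e.2) t * φ (x e.1) (y e.2) (s e.1) t := fun s =>
      sum_pi_marginal (fun b => z (y b)) (fun b => hz _) e.2
        fun t => φ (x e.1) (y e.2) (s e.1) t
    simp only [h2]
    rw [sum_pi_marginal (fun a => w (x a)) (fun a => hw _) e.1
      fun r => ∑ t, z (y e.2) t * φ (x e.1) (y e.2) r t]
    unfold mean
    refine Finset.sum_congr rfl fun r _ => ?_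
    rw [Finset.mul_sum]
    exact Finset.sum_congr rfl fun t _ => by ring
  have h2 : ∀ F : Finset (A × B), (∏ e ∈ F, mean (w (x e.1)) (z (y e.2)) (φ (x e.1) (y e.2))) ≤
      ∑ g, μ g * ∏ e ∈ F, f e g := by
    intro F
    induction F using Finset.induction_on with
    | empty => simp [hμ1]
    | insert a s ha ih =>
      have hs0 : (0 : (∀ a, S (x a)) × (∀ b, T (y b)) → ℝ) ≤ fun g => ∏ e ∈ s, f e g :=
        fun g => Finset.prod_nonneg fun e _ => hf0 e g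
      have hs : Monotone fun g => ∏ e ∈ s, f e g := fun g g' h =>
        Finset.prod_le_prod (fun e _ => hf0 e g) fun e _ => hf e h
      have h3 := fkg (f a) (fun g => ∏ e ∈ s, f e g) μ hμ0 (hf0 a) hs0 (hf a) hs hμ
      rw [hμ1, one_mul, h1] at h3
      simp only [Finset.prod_insert ha]
      refine le_trans (mul_le_mul_of_nonneg_left ih ?_) h3
      rw [← h1]
      exact Finset.sum_nonneg fun g _ => mul_nonneg (hμ0 g) (hf0 a g)
  refine (h2 E).trans (le_of_eq ?_)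
  simp only [μ, f]
  rw [Fintype.sum_prod_type]

/-- **Monotone lifts**, with log-supermodular weights on distributive lattices. -/
theorem bip_le_mono {A B : Type} [Fintype A] [Fintype B] [DecidableEq A] [DecidableEq B]
    {m : U → ℝ} {n : V → ℝ} (hm : ∀ u, 0 ≤ m u) (hn : ∀ v, 0 ≤ n v)
    {w : ∀ u, S u → ℝ} {z : ∀ v, T v → ℝ} (hw0 : ∀ u s, 0 ≤ w u s) (hz0 : ∀ v t, 0 ≤ z v t)
    (hw : ∀ u, ∑ s, w u s = 1) (hz : ∀ v, ∑ t, z v t = 1)
    (hws : ∀ u p q, w u p * w u q ≤ w u (p ⊓ q) * w u (p ⊔ q))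
    (hzs : ∀ v p q, z v p * z v q ≤ z v (p ⊓ q) * z v (p ⊔ q)) {φ : ∀ u v, S u → T v → ℝ}
    (hφ0 : ∀ u v s t, 0 ≤ φ u v s t)
    (hφ : ∀ u v, Monotone fun g : S u × T v => φ u v g.1 g.2) (E : Finset (A × B)) :
    bip m n E (baseKernel w z φ) ≤ bip (liftWeight m w) (liftWeight n z) E (liftKernel φ) :=
  bip_le_of_fibre hm hn (fibre_mono hw0 hz0 hw hz hws hzs hφ0 hφ E)

theorem good_mono {m : U → ℝ} {n : V → ℝ} (hm : ∀ u, 0 ≤ m u) (hn : ∀ v, 0 ≤ n v)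
    {w : ∀ u, S u → ℝ} {z : ∀ v, T v → ℝ} (hw0 : ∀ u s, 0 ≤ w u s) (hz0 : ∀ v t, 0 ≤ z v t)
    (hw : ∀ u, ∑ s, w u s = 1) (hz : ∀ v, ∑ t, z v t = 1)
    (hws : ∀ u p q, w u p * w u q ≤ w u (p ⊓ q) * w u (p ⊔ q))
    (hzs : ∀ v p q, z v p * z v q ≤ z v (p ⊓ q) * z v (p ⊔ q)) {φ : ∀ u v, S u → T v → ℝ}
    (hφ0 : ∀ u v s t, 0 ≤ φ u v s t)
    (hφ : ∀ u v, Monotone fun g : S u × T v => φ u v g.1 g.2)
    (h : BGood m n (baseKernel w z φ)) :
    BGood (liftWeight m w) (liftWeight n z) (liftKernel φ) := by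
  intro A B _ _ _ _ E
  rw [mean_lift]
  exact (h A B E).trans (bip_le_mono hm hn hw0 hz0 hw hz hws hzs hφ0 hφ E)

end Vale.Agent.P050.H223.Lift
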