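import Mathlib

/-!
Positive definite functions on finite groups are positively correlated.
-/

namespace Vale.Agent.P050.H223.Lift

open Finset

/-- A real function `ψ` on a group is positive definite: the matrix `ψ (g⁻¹ h)` is positive
semidefinite. -/
def PosDefFn {P : Type} [Group P] (ψ : P → ℝ) : Prop :=
  (Matrix.of fun g h : P => ψ (g⁻¹ * h)).PosSemidef

/-- a Gram representation of `ψ (g⁻¹ h)` -/
def Gr {P : Type} [Group P] (ψ : P → ℝ) : Prop :=
  ∃ (n : ℕ) (F : Fin n → P → ℝ), ∀ g h, ψ (g⁻¹ * h) = ∑ k, F k g * F k h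

variable {P Q : Type} [Group P] [Group Q]

theorem PosDefFn.gr [Finite P] {ψ : P → ℝ} (h : PosDefFn ψ) : Gr ψ := by
  obtain ⟨m, v, hv⟩ := Matrix.posSemidef_iff_eq_sum_vecMulVec.1 h
  refine ⟨m, v, fun g k => ?_⟩
  have h1 := congrFun (congrFun hv g) k
  rw [Matrix.sum_apply] at h1
  simpa [Matrix.vecMulVec_apply] using h1

theorem Gr.comp {ψ : Q → ℝ} (h : Gr ψ) (f : P →* Q) : Gr fun g => ψ (f g) := by
  obtain ⟨n, F, hF⟩ := h
  refine ⟨n, fun k g => F k (f g), fun g k => ?_⟩
  simp only [map_mul, map_inv]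
  exact hF _ _

theorem Gr.mul {ψ χ : P → ℝ} (h : Gr ψ) (h' : Gr χ) : Gr fun g => ψ g * χ g := by
  obtain ⟨n, F, hF⟩ := h
  obtain ⟨n', F', hF'⟩ := h'
  refine ⟨n * n', fun k g => F (finProdFinEquiv.symm k).1 g * F' (finProdFinEquiv.symm k).2 g,
    fun g k => ?_⟩
  simp only
  rw [hF, hF', ← Equiv.sum_comp finProdFinEquiv, Fintype.sum_prod_type, Finset.sum_mul_sum]
  refine Finset.sum_congr rfl fun i _ => Finset.sum_congr rfl fun j _ => ?_
  simp only [Equiv.symm_apply_apply]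
  ring

theorem Gr.one : Gr fun _ : P => (1 : ℝ) := ⟨1, fun _ _ => 1, fun _ _ => by simp⟩

theorem Gr.prod {ι : Type*} (s : Finset ι) {ψ : ι → P → ℝ} (h : ∀ i, Gr (ψ i)) :
    Gr fun g => ∏ i ∈ s, ψ i g := by
  classical
  induction s using Finset.induction_on with
  | empty => simpa using Gr.one
  | insert a s ha ih =>
    simp only [Finset.prod_insert ha]
    exact (h a).mul ih

variable [Fintype P] [Fintype Q]

/-- the average over a finite group -/
noncomputable def avg (ψ : P → ℝ) : ℝ := (∑ g, ψ g) / Fintype.card P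

theorem card_pos' : (0 : ℝ) < Fintype.card P := by
  exact_mod_cast Fintype.card_pos

theorem sum_shift (ψ : P → ℝ) (g : P) : ∑ h, ψ (g⁻¹ * h) = ∑ h, ψ h :=
  Equiv.sum_comp (Equiv.mulLeft g⁻¹) ψ

theorem Gr.avg_nonneg {ψ : P → ℝ} (h : Gr ψ) : 0 ≤ avg ψ := by
  obtain ⟨n, F, hF⟩ := h
  have h1 : (Fintype.card P : ℝ) * ∑ g, ψ g = ∑ k, (∑ g, F k g) ^ 2 := by
    have h2 : ∑ g : P, ∑ h, ψ (g⁻¹ * h) = (Fintype.card P : ℝ) * ∑ g, ψ g := by
      simp [sum_shift]
    rw [← h2]
    simp only [hF, sq, Finset.sum_mul_sum]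
    rw [Finset.sum_comm' (t' := univ) (s' := fun _ => univ) (by simp)]
    rw [← Finset.sum_product', Finset.sum_comm]
    refine Finset.sum_congr rfl fun k _ => ?_
    rw [← Finset.sum_product']
    simp only [Finset.univ_product_univ]
    exact Fintype.sum_equiv (Equiv.prodComm _ _) _ _ fun x => by simp [mul_comm]
  have h3 : 0 ≤ (Fintype.card P : ℝ) * ∑ g, ψ g := by
    rw [h1]
    exact Finset.sum_nonneg fun _ _ => sq_nonneg _
  exact div_nonneg (nonneg_of_mul_nonneg_right h3 card_pos') card_pos'.le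

theorem Gr.sub_avg {ψ : P → ℝ} (h : Gr ψ) : Gr fun g => ψ g - avg ψ := by
  obtain ⟨n, F, hF⟩ := h
  have hc := (card_pos' (P := P)).ne'
  have h1 : ∀ g, ∑ k, F k g * avg (F k) = avg ψ := by
    intro g
    have h2 : ∑ h, ψ (g⁻¹ * h) = ∑ h, ψ h := sum_shift ψ g
    simp only [hF] at h2
    rw [Finset.sum_comm] at h2
    unfold avg
    rw [← h2, Finset.sum_div]
    refine Finset.sum_congr rfl fun k _ => ?_
    rw [← Finset.mul_sum, mul_div_assoc]
  have h2 : ∑ k, avg (F k) * avg (F k) = avg ψ := by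
    have h3 : ∑ g : P, ∑ k, F k g * avg (F k) = Fintype.card P * avg ψ := by simp [h1]
    rw [Finset.sum_comm] at h3
    have h4 : ∀ k, ∑ g : P, F k g * avg (F k) = Fintype.card P * (avg (F k) * avg (F k)) := by
      intro k
      rw [← Finset.sum_mul]
      have : ∑ g : P, F k g = Fintype.card P * avg (F k) := by
        unfold avg
        rw [mul_div_cancel₀ _ hc]
      rw [this, mul_assoc]
    simp only [h4, ← Finset.mul_sum] at h3
    exact mul_left_cancel₀ hc h3
  refine ⟨n, fun k g => F k g - avg (F k), fun g h => ?_⟩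
  have h3 : ∑ k, (F k g - avg (F k)) * (F k h - avg (F k)) =
      ∑ k, F k g * F k h - ∑ k, F k g * avg (F k) - ∑ k, F k h * avg (F k) +
        ∑ k, avg (F k) * avg (F k) := by
    rw [← Finset.sum_sub_distrib, ← Finset.sum_sub_distrib, ← Finset.sum_add_distrib]
    exact Finset.sum_congr rfl fun k _ => by ring
  rw [h3, h1, h1, h2]
  simp only [hF]
  ring

theorem avg_mul_le {ψ χ : P → ℝ} (h : Gr ψ) (h' : Gr χ) :
    avg ψ * avg χ ≤ avg fun g => ψ g * χ g := by
  have h1 := (h.sub_avg.mul h').avg_nonneg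
  have h2 : (avg fun g => (ψ g - avg ψ) * χ g) = (avg fun g => ψ g * χ g) - avg ψ * avg χ := by
    unfold avg
    simp only [sub_mul, Finset.sum_sub_distrib, ← Finset.mul_sum]
    ring
  linarith

/-- Positive definite functions on a finite group are positively correlated. -/
theorem prod_avg_le {ι : Type*} (s : Finset ι) {ψ : ι → P → ℝ} (h : ∀ i, Gr (ψ i)) :
    ∏ i ∈ s, avg (ψ i) ≤ avg fun g => ∏ i ∈ s, ψ i g := by
  classical
  induction s using Finset.induction_on with
  | empty =>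
    simp [avg]
  | insert a s ha ih =>
    simp only [Finset.prod_insert ha]
    exact (mul_le_mul_of_nonneg_left ih (h a).avg_nonneg).trans (avg_mul_le (h a) (Gr.prod s h))

theorem avg_comp (f : P →* Q) (hf : Function.Surjective f) (ψ : Q → ℝ) :
    (avg fun g => ψ (f g)) = avg ψ := by
  have hp := (card_pos' (P := P)).ne'
  have hq := (card_pos' (P := Q)).ne'
  have h1 : ∀ q : Q, ∑ g, ψ (f g * q) = ∑ g, ψ (f g) := by
    intro q
    obtain ⟨p, rfl⟩ := hf q
    rw [← Equiv.sum_comp (Equiv.mulRight p) fun g => ψ (f g)]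
    simp
  have h2 : ∑ q : Q, ∑ g : P, ψ (f g * q) = Fintype.card Q * ∑ g, ψ (f g) := by simp [h1]
  have h3 : ∑ g : P, ∑ q : Q, ψ (f g * q) = Fintype.card P * ∑ q, ψ q := by
    have : ∀ g : P, ∑ q : Q, ψ (f g * q) = ∑ q, ψ q := fun g => Equiv.sum_comp (Equiv.mulLeft (f g)) ψ
    simp [this]
  rw [Finset.sum_comm, h3] at h2
  unfold avg
  rw [div_eq_div_iff hp hq]
  linarith

end Vale.Agent.P050.H223.Lift
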