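import Vale.Agent.P050.H223.LiftCor

/-!
Counting form, for symmetric relations.
-/

namespace Vale.Agent.P050.H223.Lift

open Finset Vale.Agent.P050 Vale.Agent.P050.Ultra Vale.Agent.P050.H392

open Classical in
theorem rel_of_good {U : Type} [Fintype U] [Nonempty U] {r : U → U → Prop}
    (h : BGood (Ultra.unif U) (Ultra.unif U) fun x y => if r x y then 1 else 0)
    (hr : ∀ x y, r x y → r y x) {V : Type} [Finite V] (H : SimpleGraph V)
    (hH : H.IsBipartite) :
    ((Nat.card {p : U × U // r p.1 p.2} : ℝ) / (Nat.card U : ℝ) ^ 2) ^ Nat.card H.edgeSet ≤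
      (Nat.card {f : V → U // ∀ u v, H.Adj u v → r (f u) (f v)} : ℝ) /
        (Nat.card U : ℝ) ^ Nat.card V := by
  have := Fintype.ofFinite V
  obtain ⟨o, ho, hor⟩ := exists_level H hH
  have h1 := h V V (orient H o)
  rw [bip_self_eq (Ultra.unif_sum U) hor, mean_unif, card_orient H ho,
    SimpleGraph.edgeFinset_card] at h1
  have e1 : (∑ x : U, ∑ y : U, if r x y then (1 : ℝ) else 0) =
      Nat.card {p : U × U // r p.1 p.2} := by
    rw [← Fintype.sum_prod_type' (f := fun x y => if r x y then (1 : ℝ) else 0),
      Finset.sum_boole, Nat.card_eq_fintype_card, Fintype.card_subtype]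
  have e2 : ∀ z : V → U, (∏ e ∈ orient H o, if r (z e.1) (z e.2) then (1 : ℝ) else 0) =
      if ∀ u v, H.Adj u v → r (z u) (z v) then 1 else 0 := by
    intro z
    by_cases hz : ∀ u v, H.Adj u v → r (z u) (z v)
    · rw [if_pos hz]
      refine Finset.prod_eq_one fun e he => if_pos ?_
      simp only [orient, Finset.mem_filter] at he
      exact hz _ _ he.2.1
    · rw [if_neg hz]
      push Not at hz
      obtain ⟨u, v, huv, hn⟩ := hz
      rcases lt_or_gt_of_ne (ho u v huv) with h2 | h2
      · exact Finset.prod_eq_zero (i := (u, v)) (by simp [orient, huv, h2]) (if_neg hn)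
      · exact Finset.prod_eq_zero (i := (v, u)) (by simp [orient, huv.symm, h2])
          (if_neg fun h' => hn (hr _ _ h'))
  have e3 : (∑ z : V → U, (∏ v, Ultra.unif U (z v)) *
      ∏ e ∈ orient H o, if r (z e.1) (z e.2) then (1 : ℝ) else 0) =
      (Nat.card {f : V → U // ∀ u v, H.Adj u v → r (f u) (f v)} : ℝ) /
        (Nat.card U : ℝ) ^ Nat.card V := by
    simp only [e2, Ultra.unif, Finset.prod_const, Finset.card_univ]
    rw [← Finset.mul_sum, Finset.sum_boole, Nat.card_eq_fintype_card, Fintype.card_subtype,
      Nat.card_eq_fintype_card (α := U), Nat.card_eq_fintype_card (α := V), one_div, inv_pow]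
    ring
  rw [e1, e3, ← Nat.card_eq_fintype_card (α := U),
    ← Nat.card_eq_fintype_card (α := H.edgeSet)] at h1
  exact h1

/-- Tuples for a symmetric relation `y ∈ K x`, where the `K x` are subgroups. -/
theorem subgroup_tuples (G : Type) [Group G] [Finite G] (K : G → Subgroup G)
    (hK : ∀ x y, y ∈ K x → x ∈ K y) {V : Type} [Finite V] (H : SimpleGraph V)
    (hH : H.IsBipartite) :
    ((Nat.card {p : G × G // p.2 ∈ K p.1} : ℝ) / (Nat.card G : ℝ) ^ 2) ^ Nat.card H.edgeSet ≤
      (Nat.card {f : V → G // ∀ u v, H.Adj u v → f v ∈ K (f u)} : ℝ) /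
        (Nat.card G : ℝ) ^ Nat.card V := by
  classical
  have := Fintype.ofFinite G
  refine rel_of_good (r := fun x y : G => y ∈ K x) ?_ hK H hH
  convert good_subgroups (Ultra.unif_nonneg G) (Ultra.unif_sum G) K using 4

/-- Commuting tuples: for every finite group and every finite bipartite graph `H`, the probability
that random group elements commute along the edges of `H` is at least the commuting probability to
the power of the number of edges. -/
theorem commuting_tuples (G : Type) [Group G] [Finite G] {V : Type} [Finite V]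
    (H : SimpleGraph V) (hH : H.IsBipartite) :
    ((Nat.card {p : G × G // p.1 * p.2 = p.2 * p.1} : ℝ) / (Nat.card G : ℝ) ^ 2) ^
        Nat.card H.edgeSet ≤
      (Nat.card {f : V → G // ∀ u v, H.Adj u v → f u * f v = f v * f u} : ℝ) /
        (Nat.card G : ℝ) ^ Nat.card V := by
  classical
  have := Fintype.ofFinite G
  refine rel_of_good (r := fun x y : G => x * y = y * x) ?_ (fun x y h => h.symm) H hH
  convert good_commute G using 4

end Vale.Agent.P050.H223.Lift
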