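import Vale.Agent.P050.H223.LiftFlat

/-!
The statements of the hand-in `LiftedTargets`.
-/

namespace Vale.Agent.P050.H223.Lift

open Finset Vale.Agent.P050 Vale.Agent.P050.Ultra

/-- Lifts by positive definite functions on products of finite groups. -/
def Part1 : Prop :=
  ∀ (U V : Type) (S : U → Type) (T : V → Type) [Fintype U] [Fintype V] [∀ u, Fintype (S u)]
    [∀ v, Fintype (T v)] [∀ u, Group (S u)] [∀ v, Group (T v)] (m : U → ℝ) (n : V → ℝ)
    (φ : ∀ u v, S u → T v → ℝ), (∀ u, 0 ≤ m u) → (∀ v, 0 ≤ n v) →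
    (∀ u v, PosDefFn fun g : S u × T v => φ u v g.1 g.2) →
    (∀ (A B : Type) [Fintype A] [Fintype B] [DecidableEq A] [DecidableEq B]
      (E : Finset (A × B)), bip m n E (baseKernel (uw S) (uw T) φ) ≤
        bip (liftWeight m (uw S)) (liftWeight n (uw T)) E (liftKernel φ)) ∧
    (BGood m n (baseKernel (uw S) (uw T) φ) →
      BGood (liftWeight m (uw S)) (liftWeight n (uw T)) (liftKernel φ))

/-- Lifts by increasing functions on finite distributive lattices with log-supermodular weights. -/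
def Part2 : Prop :=
  ∀ (U V : Type) (S : U → Type) (T : V → Type) [Fintype U] [Fintype V] [∀ u, Fintype (S u)]
    [∀ v, Fintype (T v)] [∀ u, DistribLattice (S u)] [∀ v, DistribLattice (T v)] (m : U → ℝ)
    (n : V → ℝ) (w : ∀ u, S u → ℝ) (z : ∀ v, T v → ℝ) (φ : ∀ u v, S u → T v → ℝ),
    (∀ u, 0 ≤ m u) → (∀ v, 0 ≤ n v) → (∀ u s, 0 ≤ w u s) → (∀ v t, 0 ≤ z v t) →
    (∀ u, ∑ s, w u s = 1) → (∀ v, ∑ t, z v t = 1) →
    (∀ u p q, w u p * w u q ≤ w u (p ⊓ q) * w u (p ⊔ q)) →
    (∀ v p q, z v p * z v q ≤ z v (p ⊓ q) * z v (p ⊔ q)) →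
    (∀ u v s t, 0 ≤ φ u v s t) → (∀ u v, Monotone fun g : S u × T v => φ u v g.1 g.2) →
    (∀ (A B : Type) [Fintype A] [Fintype B] [DecidableEq A] [DecidableEq B]
      (E : Finset (A × B)), bip m n E (baseKernel w z φ) ≤
        bip (liftWeight m w) (liftWeight n z) E (liftKernel φ)) ∧
    (BGood m n (baseKernel w z φ) →
      BGood (liftWeight m w) (liftWeight n z) (liftKernel φ))

/-- Positive definite functions on products of groups; positive definite class functions. -/
def Part3 : Prop :=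
  (∀ (S T : Type) [Group S] [Group T] [Fintype S] [Fintype T] (φ : S → T → ℝ),
      (PosDefFn fun g : S × T => φ g.1 g.2) → BGood (Ultra.unif S) (Ultra.unif T) φ) ∧
    (∀ (G : Type) [Group G] [Fintype G] (f : G → ℝ), PosDefFn f →
      (∀ g h, f (g * h) = f (h * g)) →
      BGood (Ultra.unif G) (Ultra.unif G) fun s t => f (s⁻¹ * t))

open Classical in
/-- Lifts of kernels by subgroups; incidence with subgroups; the relations `z z' = β u v` and
`f u t = s`. -/
def Part4 : Prop :=
  (∀ (U V : Type) (S : U → Type) (T : V → Type) [Fintype U] [Fintype V]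
      [∀ u, Fintype (S u)] [∀ v, Fintype (T v)] [∀ u, Group (S u)] [∀ v, Group (T v)]
      (m : U → ℝ) (n : V → ℝ) (K : ∀ u v, Subgroup (S u × T v)), (∀ u, 0 ≤ m u) →
      (∀ v, 0 ≤ n v) → (BGood m n fun u v => 1 / ((K u v).index : ℝ)) →
      BGood (liftWeight m (uw S)) (liftWeight n (uw T)) fun p q =>
        if (p.2, q.2) ∈ K p.1 q.1 then 1 else 0) ∧
    (∀ (X G : Type) [Fintype X] [Group G] [Fintype G] (m : X → ℝ) (K : X → Subgroup G),
      (∀ x, 0 ≤ m x) → ∑ x, m x = 1 →
      BGood m (Ultra.unif G) fun x t => if t ∈ K x then 1 else 0) ∧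
    (∀ (U V Z : Type) [Fintype U] [Group V] [Fintype V] [CommGroup Z] [Fintype Z]
      (m : U → ℝ) (β : U → V →* Z), (∀ u, 0 ≤ m u) → ∑ u, m u = 1 →
      BGood (fun p : U × Z => m p.1 * Ultra.unif Z p.2) (Ultra.unif (V × Z)) fun p q =>
        if p.2 * q.2 = β p.1 q.1 then 1 else 0) ∧
    (∀ (U G : Type) (S : U → Type) [Fintype U] [Group G] [Fintype G] [∀ u, Fintype (S u)]
      [∀ u, Group (S u)] (m : U → ℝ) (f : ∀ u, G →* S u), (∀ u, 0 ≤ m u) → ∑ u, m u = 1 →
      BGood (liftWeight m (uw S)) (Ultra.unif G) fun p t => if f p.1 t = p.2 then 1 else 0)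

/-- Lifts of graphs by subgroups and by up-sets. -/
def Part5 : Prop :=
  (∀ (U : Type) (S : U → Type) [∀ u, Group (S u)] [Finite U] [Nonempty U]
      [∀ u, Finite (S u)] (N r : ℕ) (G : SimpleGraph U) (K : ∀ u v, Subgroup (S u × S v))
      (hK : ∀ u v s t, (s, t) ∈ K u v → (t, s) ∈ K v u), (∀ u, Nat.card (S u) = N) →
      (∀ u v, G.Adj u v → (K u v).index = r) → SidorenkoAgainst G →
      SidorenkoAgainst (liftGraph G (fun u v s t => (s, t) ∈ K u v) hK)) ∧
    (∀ (U : Type) (S : U → Type) [∀ u, DistribLattice (S u)] [Finite U] [Nonempty U]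
      [∀ u, Finite (S u)] (N r : ℕ) (G : SimpleGraph U) (R : ∀ u v, S u → S v → Prop)
      (hR : ∀ u v s t, R u v s t → R v u t s), 0 < N → (∀ u, Nat.card (S u) = N) →
      (∀ u v, G.Adj u v → ∀ s s' t t', s ≤ s' → t ≤ t' → R u v s t → R u v s' t') →
      (∀ u v, G.Adj u v → Nat.card {p : S u × S v // R u v p.1 p.2} = r) →
      SidorenkoAgainst G → SidorenkoAgainst (liftGraph G R hR))

/-- Maps to a finite group for a symmetric relation `y ∈ K x`, the `K x` being subgroups; maps under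
which adjacent vertices commute. -/
def Part6 : Prop :=
  (∀ (G V : Type) [Group G] [Finite G] [Finite V] (K : G → Subgroup G) (H : SimpleGraph V),
      (∀ x y, y ∈ K x → x ∈ K y) → H.IsBipartite →
      ((Nat.card {p : G × G // p.2 ∈ K p.1} : ℝ) / (Nat.card G : ℝ) ^ 2) ^
          Nat.card H.edgeSet ≤
        (Nat.card {f : V → G // ∀ u v, H.Adj u v → f v ∈ K (f u)} : ℝ) /
          (Nat.card G : ℝ) ^ Nat.card V) ∧
    (∀ (G V : Type) [Group G] [Finite G] [Finite V] (H : SimpleGraph V), H.IsBipartite →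
      ((Nat.card {p : G × G // p.1 * p.2 = p.2 * p.1} : ℝ) / (Nat.card G : ℝ) ^ 2) ^
          Nat.card H.edgeSet ≤
        (Nat.card {f : V → G // ∀ u v, H.Adj u v → f u * f v = f v * f u} : ℝ) /
          (Nat.card G : ℝ) ^ Nat.card V)

open Classical in
/-- Bipartite targets; points and flats of finite affine spaces. -/
def Part7 : Prop :=
  (∀ (X Y : Type) [Fintype X] [Fintype Y] [Nonempty X] [Nonempty Y] (r : X → Y → Prop),
      (BGood (Ultra.unif X) (Ultra.unif Y) fun x y => if r x y then 1 else 0) →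
      SidorenkoAgainst (relGraph r)) ∧
    (∀ (X G : Type) [Finite X] [Nonempty X] [Group G] [Finite G] (K : X → Subgroup G),
      SidorenkoAgainst (relGraph fun x t => t ∈ K x)) ∧
    (∀ (U V Z : Type) [Finite U] [Nonempty U] [Group V] [Finite V] [CommGroup Z] [Finite Z]
      (β : U → V →* Z),
      SidorenkoAgainst (relGraph fun (p : U × Z) (q : V × Z) => p.2 * q.2 = β p.1 q.1)) ∧
    (∀ (U G : Type) (S : U → Type) [Finite U] [Nonempty U] [Group G] [Finite G]
      [∀ u, Finite (S u)] [∀ u, Group (S u)] (N : ℕ) (f : ∀ u, G →* S u),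
      (∀ u, Nat.card (S u) = N) →
      SidorenkoAgainst (relGraph fun (p : Σ u, S u) (t : G) => f p.1 t = p.2)) ∧
    (∀ (F V : Type) [Field F] [AddCommGroup V] [Module F V] [Finite V] (k : ℕ),
      SidorenkoAgainst (relGraph fun (s : Flat F V k) (t : V) => t ∈ s.1))

theorem part1 : Part1 := by
  intro U V S T _ _ _ _ _ _ m n φ hm hn hφ
  exact ⟨fun A B _ _ _ _ E => bip_le_pd hm hn hφ E, good_pd hm hn hφ⟩

theorem part2 : Part2 := by
  intro U V S T _ _ _ _ _ _ m n w z φ hm hn hw0 hz0 hw hz hws hzs hφ0 hφ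
  exact ⟨fun A B _ _ _ _ E => bip_le_mono hm hn hw0 hz0 hw hz hws hzs hφ0 hφ E,
    good_mono hm hn hw0 hz0 hw hz hws hzs hφ0 hφ⟩

theorem part3 : Part3 := by
  refine ⟨?_, ?_⟩
  · intro S T _ _ _ _ φ hφ
    exact good_pd_one hφ
  · intro G _ _ f hf hc
    exact good_class hf hc

theorem part4 : Part4 := by
  refine ⟨?_, ?_, ?_, ?_⟩
  · intro U V S T _ _ _ _ _ _ m n K hm hn h
    exact good_subgroup_lift hm hn K h
  · intro X G _ _ _ m K hm hm1
    exact good_subgroups hm hm1 K
  · intro U V Z _ _ _ _ _ m β hm hm1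
    exact good_heisenberg hm hm1 β
  · intro U G S _ _ _ _ _ m f hm hm1
    exact good_hom hm hm1 f

theorem part5 : Part5 := by
  refine ⟨?_, ?_⟩
  · intro U S _ _ _ _ N r G K hK hN hr h
    exact against_lift hN K hK hr h
  · intro U S _ _ _ _ N r G R hR hN0 hN hm hr h
    exact against_lift_up hN0 hN R hR hm hr h

theorem part6 : Part6 := by
  refine ⟨?_, ?_⟩
  · intro G V _ _ _ K H hK hH
    exact subgroup_tuples G K hK H hH
  · intro G V _ _ _ H hH
    exact commuting_tuples G H hH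

theorem part7 : Part7 := by
  refine ⟨?_, ?_, ?_, ?_, ?_⟩
  · intro X Y _ _ _ _ r h
    exact against_rel h
  · intro X G _ _ _ _ K
    exact against_subgroups K
  · intro U V Z _ _ _ _ _ _ β
    exact against_heisenberg β
  · intro U G S _ _ _ _ _ _ N f hN
    exact against_hom hN f
  · intro F V _ _ _ _ k
    exact against_flats k

end Vale.Agent.P050.H223.Lift
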